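import Vale.Agent.P219.S.Na

/-!
# Existence of the balancing point  (TASK)

`B (p, s) = ∫ a * (log (u p + s) - log (s (2 - b² s)) / 2)`.  If `K = ∅` then `μ = 0` (`supp`), contradicting `∫ a = 1`; fix `p₀ ∈ K`, `B₀ = B (p₀, t₀)`.  Lower bounds for `p ∈ K`, `0 < s`, `b² s < 2`:
(i) `B ≥ log (s / (2 - b² s)) / 2` (as `u ≥ 0`), which exceeds `B₀` when `s > s₂ = 2 X / (1 + b² X)`, `X = exp (2 B₀)` (note `b² s₂ < 2`);
(ii) with `M` a bound of `a` on `K` and `δ ≤ 1` from `small` for `l = 1 / (4 (M + 1))`: off `{u ≤ δ}` the integrand is `≥ log δ - log (2 s) / 2`, on it `≥ log (s / 2) / 2`; for `s ≤ 1/2` this gives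
`B ≥ log δ - log (2 s) / 4 - const → ∞` as `s → 0` (weights `1 - η` and `η ≤ 1/4`), so `B > B₀` for `s < s₁`.  `B` is continuous on `K ×ˢ Icc s₁ s₂` (`continuous_int` after replacing `s` by its clamp
`max s₁ (min s s₂)`), `IsCompact.exists_isMinOn`; the minimiser is a minimiser over all `p ∈ K`, `0 < s`, `b² s < 2` (take `s₁ ≤ t₀ ≤ s₂`).
-/

namespace Vale.Agent.P219

open scoped ContDiff Topology RealInnerProductSpace ENNReal
open MeasureTheory Set Filter Vale.Agent.P255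
open St (sn gmod)

variable {E : Type*} [NormedAddCommGroup E] [InnerProductSpace ℝ E] [FiniteDimensional ℝ E]
  [MeasurableSpace E] [BorelSpace E] {G : E → Bil E} {L : E → E → E} {K : Set E} {m : ℕ}
  {b H₀ σ t₀ C S c : ℝ} {u : E → E → ℝ} {μ : Measure (E × E)}

theorem bal1_int (h : Sp0 m b H₀ G u K μ) {a : E → ℝ} (ha : Continuous a) (p : E) {s : ℝ}
    (hs : 0 < s) : Integrable (fun z : E × E => a z.1 * Real.log (u p z.1 + s)) μ := by
  refine h.integrable ((ha.comp continuous_fst).mul (Continuous.log ?_ fun z => ?_))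
  · exact ((h.contDiff p).continuous.comp continuous_fst).add continuous_const
  · exact (add_pos_of_nonneg_of_pos (h.nonneg _ _) hs).ne'

theorem bal1_split (h : Sp0 m b H₀ G u K μ) {a : E → ℝ} (ha : Continuous a)
    (h1 : ∫ z, a z.1 ∂μ = 1) (p : E) {s : ℝ} (hs : 0 < s) (c : ℝ) :
    ∫ z, a z.1 * (Real.log (u p z.1 + s) - c) ∂μ =
      ∫ z, a z.1 * Real.log (u p z.1 + s) ∂μ - c := by
  have hi : Integrable (fun z : E × E => a z.1) μ := h.integrable (ha.comp continuous_fst)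
  simp only [mul_sub]
  rw [integral_sub (bal1_int h ha p hs) (hi.mul_const c), integral_mul_const, h1, one_mul]

theorem bal1_low1 (h : Sp0 m b H₀ G u K μ) {a : E → ℝ} (ha : Continuous a) (h0 : ∀ y, 0 ≤ a y)
    (h1 : ∫ z, a z.1 ∂μ = 1) (p : E) {s : ℝ} (hs : 0 < s) :
    Real.log s ≤ ∫ z, a z.1 * Real.log (u p z.1 + s) ∂μ := by
  have hi : Integrable (fun z : E × E => a z.1) μ := h.integrable (ha.comp continuous_fst)
  calc Real.log s = ∫ z, a z.1 * Real.log s ∂μ := by rw [integral_mul_const, h1, one_mul]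
    _ ≤ _ := integral_mono (hi.mul_const _) (bal1_int h ha p hs) fun z =>
      mul_le_mul_of_nonneg_left
        (Real.log_le_log hs (le_add_of_nonneg_left (h.nonneg _ _))) (h0 _)

theorem bal1_low2 (h : Sp1 m b H₀ G u K μ t₀ C) {a : E → ℝ} (ha : Continuous a)
    (h0 : ∀ y, 0 ≤ a y) (h1 : ∫ z, a z.1 ∂μ = 1) : ∃ c : ℝ, ∀ p ∈ K, ∀ s : ℝ, 0 < s → s ≤ 1 →
      c + Real.log s / 4 ≤ ∫ z, a z.1 * Real.log (u p z.1 + s) ∂μ := by
  have := h.fin
  have hi : Integrable (fun z : E × E => a z.1) μ := h.toSp0.integrable (ha.comp continuous_fst)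
  obtain ⟨M, hM⟩ := h.toSp0.bdd (φ := fun z => a z.1) (ha.comp continuous_fst)
  have hM1 : 0 < |M| + 1 := by positivity
  obtain ⟨δ, hδ, hs⟩ := h.small (l := 1 / (4 * (|M| + 1))) (by positivity)
  refine ⟨Real.log (min δ 1), fun p hp s hs0 hs1 => ?_⟩
  have hT : MeasurableSet {z : E × E | u p z.1 ≤ δ} :=
    (isClosed_le ((h.toSp0.contDiff p).continuous.comp continuous_fst)
      continuous_const).measurableSet
  have hls : Real.log s ≤ 0 := Real.log_nonpos hs0.le hs1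
  have hd : 0 < min δ 1 := lt_min hδ one_pos
  have hld : Real.log (min δ 1) ≤ 0 := Real.log_nonpos hd.le (min_le_right _ _)
  have hj : Integrable (indicator {z : E × E | u p z.1 ≤ δ} fun _ => (|M| + 1) * Real.log s) μ :=
    (integrable_const _).indicator hT
  have hle : ∫ z, (a z.1 * Real.log (min δ 1) +
      indicator {z : E × E | u p z.1 ≤ δ} (fun _ => (|M| + 1) * Real.log s) z) ∂μ ≤
        ∫ z, a z.1 * Real.log (u p z.1 + s) ∂μ := by
    refine integral_mono_ae ((hi.mul_const _).add hj) (bal1_int h.toSp0 ha p hs0) ?_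
    filter_upwards [hM] with z hz
    by_cases hz' : z ∈ {z : E × E | u p z.1 ≤ δ}
    · rw [indicator_of_mem hz']
      have e1 : Real.log s ≤ Real.log (u p z.1 + s) :=
        Real.log_le_log hs0 (le_add_of_nonneg_left (h.nonneg _ _))
      have e2 : a z.1 ≤ |M| + 1 := by linarith [le_abs_self (a z.1), le_abs_self M]
      have e3 := mul_le_mul_of_nonneg_left e1 (h0 z.1)
      have e4 := mul_nonpos_of_nonneg_of_nonpos (h0 z.1) hld
      have e5 := mul_le_mul_of_nonpos_right e2 hls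
      linarith
    · rw [indicator_of_notMem hz', add_zero]
      have e0 : δ < u p z.1 := not_le.1 hz'
      refine mul_le_mul_of_nonneg_left (Real.log_le_log hd ?_) (h0 _)
      linarith [min_le_left δ 1]
  rw [integral_add (hi.mul_const _) hj, integral_mul_const, h1, one_mul,
    integral_indicator_const _ hT, smul_eq_mul] at hle
  have e1 : μ.real {z : E × E | u p z.1 ≤ δ} * (|M| + 1) ≤ 1 / 4 := by
    have e2 := mul_le_mul_of_nonneg_right (hs p hp) hM1.le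
    have e3 : 1 / (4 * (|M| + 1)) * (|M| + 1) = 1 / 4 := by field_simp
    linarith
  have e2 := mul_le_mul_of_nonpos_right e1 hls
  rw [← mul_assoc] at hle
  linarith

theorem bal1_ne (h : Sp0 m b H₀ G u K μ) {a : E → ℝ} (h1 : ∫ z, a z.1 ∂μ = 1) : K.Nonempty := by
  by_contra hK
  rw [not_nonempty_iff_eq_empty] at hK
  have h2 : ∫ z, a z.1 ∂μ = ∫ _, (0 : ℝ) ∂μ := by
    refine integral_congr_ae ?_
    filter_upwards [h.ae_mem] with z hz
    rw [hK] at hz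
    exact hz.1.elim
  rw [h1, integral_zero] at h2
  exact one_ne_zero h2

theorem bal1_small {B c s : ℝ} (hs : 0 < s) (hb : b ^ 2 * s < 2)
    (h : s ≤ Real.exp (4 * c - 2 * Real.log 2 - 4 * B)) :
    B ≤ c + Real.log s / 4 - Real.log (s * (2 - b ^ 2 * s)) / 2 := by
  have h1 : 0 < 2 - b ^ 2 * s := by linarith
  have h2 := (Real.log_le_iff_le_exp hs).2 h
  have h3 : Real.log (2 - b ^ 2 * s) ≤ Real.log 2 :=
    Real.log_le_log h1 (by linarith [mul_nonneg (sq_nonneg b) hs.le])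
  rw [Real.log_mul hs.ne' h1.ne']
  linarith

theorem bal1_big {B s : ℝ} (hs : 0 < s) (hb : b ^ 2 * s < 2)
    (h : 2 * Real.exp (2 * B) / (1 + b ^ 2 * Real.exp (2 * B)) ≤ s) :
    B ≤ Real.log s - Real.log (s * (2 - b ^ 2 * s)) / 2 := by
  have h1 : 0 < 2 - b ^ 2 * s := by linarith
  have hX := Real.exp_pos (2 * B)
  rw [div_le_iff₀ (by positivity)] at h
  have h2 : Real.exp (2 * B) * (2 - b ^ 2 * s) ≤ s := by linarith
  have h3 := Real.log_le_log (mul_pos hX h1) h2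
  rw [Real.log_mul hX.ne' h1.ne', Real.log_exp] at h3
  rw [Real.log_mul hs.ne' h1.ne']
  linarith

theorem Sp1.exists_min (h : Sp1 m b H₀ G u K μ t₀ C) {a : E → ℝ} (ha : Continuous a)
    (h0 : ∀ y, 0 ≤ a y) (h1 : ∫ z, a z.1 ∂μ = 1) : ∃ p ∈ K, ∃ s : ℝ, 0 < s ∧ b ^ 2 * s < 2 ∧
      ∀ p' ∈ K, ∀ s' : ℝ, 0 < s' → b ^ 2 * s' < 2 →
        ∫ z, a z.1 * (Real.log (u p z.1 + s) - Real.log (s * (2 - b ^ 2 * s)) / 2) ∂μ ≤
          ∫ z, a z.1 * (Real.log (u p' z.1 + s') - Real.log (s' * (2 - b ^ 2 * s')) / 2) ∂μ := by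
  obtain ⟨p₀, hp₀⟩ := bal1_ne h.toSp0 h1
  obtain ⟨c, hc⟩ := bal1_low2 h ha h0 h1
  obtain ⟨B, hB⟩ : ∃ B, B = ∫ z, a z.1 * Real.log (u p₀ z.1 + t₀) ∂μ -
    Real.log (t₀ * (2 - b ^ 2 * t₀)) / 2 := ⟨_, rfl⟩
  obtain ⟨s₁, hs₁⟩ : ∃ s₁, s₁ = min t₀ (min 1 (Real.exp (4 * c - 2 * Real.log 2 - 4 * B))) :=
    ⟨_, rfl⟩
  obtain ⟨s₂, hs₂⟩ : ∃ s₂, s₂ = max t₀ (2 * Real.exp (2 * B) / (1 + b ^ 2 * Real.exp (2 * B))) :=
    ⟨_, rfl⟩
  have e1 : 0 < s₁ := hs₁ ▸ lt_min h.t_pos (lt_min one_pos (Real.exp_pos _))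
  have e2 : b ^ 2 * s₂ < 2 := by
    have hX := Real.exp_pos (2 * B)
    rw [hs₂, mul_max_of_nonneg _ _ (sq_nonneg b)]
    refine max_lt (by linarith [h.t_le]) ?_
    rw [← mul_div_assoc, div_lt_iff₀ (by positivity)]
    linarith
  have e3 : t₀ ∈ Icc s₁ s₂ := ⟨hs₁ ▸ min_le_left _ _, hs₂ ▸ le_max_left _ _⟩
  have e4 : ∀ s ∈ Icc s₁ s₂, 0 < s ∧ b ^ 2 * s < 2 := fun s hs =>
    ⟨e1.trans_le hs.1, (mul_le_mul_of_nonneg_left hs.2 (sq_nonneg b)).trans_lt e2⟩
  have hA : Continuous fun x : E × ℝ =>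
      ∫ z in univ, a z.1 * Real.log (u x.1 z.1 + max x.2 s₁) ∂μ := by
    refine h.toSp0.continuous_int univ
      (φ := fun w : (E × ℝ) × (E × E) => a w.2.1 * Real.log (u w.1.1 w.2.1 + max w.1.2 s₁))
      ((ha.comp continuous_snd.fst).mul (Continuous.log ?_ fun w => ?_))
    · exact (h.toSp0.cont.comp (continuous_fst.fst.prodMk continuous_snd.fst)).add
        (continuous_fst.snd.max continuous_const)
    · exact (add_pos_of_nonneg_of_pos (h.nonneg _ _) (e1.trans_le (le_max_right _ _))).ne'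
  have hF : ContinuousOn (fun x : E × ℝ => ∫ z, a z.1 * Real.log (u x.1 z.1 + x.2) ∂μ -
      Real.log (x.2 * (2 - b ^ 2 * x.2)) / 2) (K ×ˢ Icc s₁ s₂) := by
    refine ContinuousOn.sub (hA.continuousOn.congr fun x hx => ?_)
      (ContinuousOn.div_const (ContinuousOn.log (by fun_prop) fun x hx => ?_) 2)
    · simp only [Measure.restrict_univ, max_eq_left hx.2.1]
    · exact (mul_pos (e4 _ hx.2).1 (by linarith [(e4 _ hx.2).2])).ne'
  obtain ⟨⟨p, s⟩, hx, hmin⟩ := (h.cpt.prod isCompact_Icc).exists_isMinOn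
    ⟨(p₀, t₀), hp₀, e3⟩ hF
  refine ⟨p, hx.1, s, (e4 _ hx.2).1, (e4 _ hx.2).2, fun p' hp' s' hs' hb' => ?_⟩
  rw [bal1_split h.toSp0 ha h1 p (e4 _ hx.2).1, bal1_split h.toSp0 ha h1 p' hs']
  have e5 : ∫ z, a z.1 * Real.log (u p z.1 + s) ∂μ - Real.log (s * (2 - b ^ 2 * s)) / 2 ≤ B :=
    hB ▸ hmin (a := (p₀, t₀)) ⟨hp₀, e3⟩
  rcases le_total s' s₁ with e6 | e6
  · rw [hs₁] at e6
    have e7 := hc p' hp' s' hs' (e6.trans ((min_le_right _ _).trans (min_le_left _ _)))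
    have e8 := bal1_small hs' hb' (e6.trans ((min_le_right _ _).trans (min_le_right _ _)))
    linarith
  rcases le_total s' s₂ with e7 | e7
  · exact hmin (a := (p', s')) ⟨hp', e6, e7⟩
  · rw [hs₂] at e7
    have e8 := bal1_low1 h.toSp0 ha h0 h1 p' hs'
    have e9 := bal1_big hs' hb' ((le_max_right _ _).trans e7)
    linarith

end Vale.Agent.P219
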