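import Vale.Agent.P219.S.Base

/-!
# Derivatives of the balancing functional  (TASK)

`hasDerivAt_integral_of_dominated_loc_of_deriv_le` (derivatives are continuous in `(parameter, z)`, so bounded on a compact interval times `UB G K`).  `crit_s`: the set `0 < s`, `b² s < 2` is a neighbourhood of `s`;
`IsLocalMin.hasDerivAt_eq_zero`; the derivative is `∫ a (1 / R - (1 - b² s) / k²)`; multiply by `k²` (`kk_sq`).  `der_p`: chain rule for `τ ↦ u (p + τ • e) y`
(`smooth`; the derivative at `τ` is `fderiv ℝ (fun x => u x y) (p + τ • e) e`, continuous by `Continuous.fderiv`).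
-/

namespace Vale.Agent.P219

open scoped ContDiff Topology RealInnerProductSpace ENNReal
open MeasureTheory Set Filter Vale.Agent.P255
open St (sn gmod)

variable {E : Type*} [NormedAddCommGroup E] [InnerProductSpace ℝ E] [FiniteDimensional ℝ E]
  [MeasurableSpace E] [BorelSpace E] {G : E → Bil E} {L : E → E → E} {K : Set E} {m : ℕ}
  {b H₀ σ t₀ C S c : ℝ} {u : E → E → ℝ} {μ : Measure (E × E)}

theorem bal2_der (h : Sp0 m b H₀ G u K μ) {F F' : ℝ → E → ℝ} {x₀ : ℝ} {U : Set ℝ}
    (hU : IsCompact U) (hx : U ∈ 𝓝 x₀) (hF : ∀ x ∈ U, Continuous (F x))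
    (hF' : ContinuousOn (fun q : ℝ × E => F' q.1 q.2) (U ×ˢ univ))
    (hd : ∀ y, ∀ x ∈ U, HasDerivAt (fun τ => F τ y) (F' x y) x) :
    HasDerivAt (fun τ => ∫ z, F τ z.1 ∂μ) (∫ z, F' x₀ z.1 ∂μ) x₀ := by
  have hfin := h.fin
  have hx0 : x₀ ∈ U := mem_of_mem_nhds hx
  obtain ⟨M, hM⟩ := (hU.prod h.cpt).exists_bound_of_continuousOn
    (hF'.mono (prod_mono subset_rfl (subset_univ _)))
  have hc : Continuous (F' x₀) :=
    hF'.comp_continuous (f := fun y : E => ((x₀, y) : ℝ × E))
      (continuous_const.prodMk continuous_id) fun y => ⟨hx0, mem_univ _⟩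
  refine (hasDerivAt_integral_of_dominated_loc_of_deriv_le (μ := μ)
    (F := fun τ (z : E × E) => F τ z.1) (F' := fun τ (z : E × E) => F' τ z.1)
    (bound := fun _ => M) hx ?_ (h.integrable ((hF x₀ hx0).comp continuous_fst))
    (h.integrable (hc.comp continuous_fst)).aestronglyMeasurable ?_ (integrable_const M)
    (Eventually.of_forall fun z x hxU => hd z.1 x hxU)).2
  · filter_upwards [hx] with x hxU
    exact (h.integrable ((hF x hxU).comp continuous_fst)).aestronglyMeasurable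
  · filter_upwards [h.ae_mem] with z hz x hxU
    exact hM (x, z.1) ⟨hxU, hz.1⟩

theorem bal2_fd (h : Sp0 m b H₀ G u K μ) (p e y : E) :
    fderiv ℝ (fun x => u x y) p e = fderiv ℝ (fun z : E × E => u z.1 z.2) (p, y) (e, 0) := by
  have h1 : HasFDerivAt (fun z : E × E => u z.1 z.2)
      (fderiv ℝ (fun z : E × E => u z.1 z.2) (p, y)) (p, y) :=
    (h.smooth.differentiable (by simp) (p, y)).hasFDerivAt
  have h2 := HasFDerivAt.comp (g := fun z : E × E => u z.1 z.2) (f := fun x : E => (x, y)) p h1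
    (hasFDerivAt_prodMk_left p y)
  have h3 : fderiv ℝ (fun x => u x y) p = _ := h2.fderiv
  rw [h3]
  rfl

theorem bal2_line (h : Sp0 m b H₀ G u K μ) (p e y : E) (τ : ℝ) :
    HasDerivAt (fun τ : ℝ => u (p + τ • e) y)
      (fderiv ℝ (fun z : E × E => u z.1 z.2) (p + τ • e, y) (e, 0)) τ := by
  have h1 : HasFDerivAt (fun z : E × E => u z.1 z.2)
      (fderiv ℝ (fun z : E × E => u z.1 z.2) (p + τ • e, y)) (p + τ • e, y) :=
    (h.smooth.differentiable (by simp) _).hasFDerivAt
  have h2 : HasDerivAt (fun τ : ℝ => p + τ • e) e τ := by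
    have h3 := ((hasDerivAt_id τ).smul_const e).const_add p
    rwa [one_smul] at h3
  have h4 : HasDerivAt (fun τ : ℝ => ((p + τ • e, y) : E × E)) (e, 0) τ :=
    h2.prodMk (hasDerivAt_const τ y)
  exact HasFDerivAt.comp_hasDerivAt (l := fun z : E × E => u z.1 z.2)
    (f := fun τ : ℝ => ((p + τ • e, y) : E × E)) τ h1 h4

theorem Sp0.crit_s (h : Sp0 m b H₀ G u K μ) {a : E → ℝ} (ha : Continuous a) {p : E} {s : ℝ}
    (hs : 0 < s) (hs2 : b ^ 2 * s < 2) (hmin : ∀ s' : ℝ, 0 < s' → b ^ 2 * s' < 2 →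
      ∫ z, a z.1 * (Real.log (u p z.1 + s) - Real.log (s * (2 - b ^ 2 * s)) / 2) ∂μ ≤
        ∫ z, a z.1 * (Real.log (u p z.1 + s') - Real.log (s' * (2 - b ^ 2 * s')) / 2) ∂μ) :
    ∫ z, a z.1 * (kk b s ^ 2 / (u p z.1 + s) - (1 - b ^ 2 * s)) ∂μ = 0 := by
  have hO : IsOpen {s' : ℝ | 0 < s' ∧ b ^ 2 * s' < 2} :=
    (isOpen_lt continuous_const continuous_id).inter
      (isOpen_lt (continuous_const.mul continuous_id) continuous_const)
  obtain ⟨U, hU, hsU, hUO⟩ := exists_compact_subset hO (x := s) ⟨hs, hs2⟩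
  have hcu : Continuous (u p) := (h.contDiff p).continuous
  have hR : ∀ y, ∀ x ∈ U, u p y + x ≠ 0 := fun y x hx => by
    have h1 := h.nonneg p y
    have h2 := (hUO hx).1
    linarith
  have hk : ∀ x ∈ U, x * (2 - b ^ 2 * x) ≠ 0 := fun x hx => by
    have h2 := hUO hx
    exact mul_ne_zero h2.1.ne' (by linarith [h2.2])
  have hD := bal2_der h (x₀ := s)
    (F := fun τ y => a y * (Real.log (u p y + τ) - Real.log (τ * (2 - b ^ 2 * τ)) / 2))
    (F' := fun τ y => a y * (1 / (u p y + τ) - (2 - 2 * b ^ 2 * τ) / (τ * (2 - b ^ 2 * τ)) / 2))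
    hU (mem_interior_iff_mem_nhds.1 hsU)
    (fun x hx => ha.mul (((hcu.add continuous_const).log fun y => hR y x hx).sub
      continuous_const)) ?_ ?_
  · have hmin' : IsLocalMin (fun τ => ∫ z, a z.1 *
        (Real.log (u p z.1 + τ) - Real.log (τ * (2 - b ^ 2 * τ)) / 2) ∂μ) s := by
      filter_upwards [hO.mem_nhds (show s ∈ {s' : ℝ | 0 < s' ∧ b ^ 2 * s' < 2} from ⟨hs, hs2⟩)]
        with τ hτ
      exact hmin τ hτ.1 hτ.2
    have h0 := hmin'.hasDerivAt_eq_zero hD
    have hsU' : s ∈ U := interior_subset hsU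
    have h1 : ∀ z : E × E, a z.1 * (kk b s ^ 2 / (u p z.1 + s) - (1 - b ^ 2 * s)) =
        s * (2 - b ^ 2 * s) * (a z.1 *
          (1 / (u p z.1 + s) - (2 - 2 * b ^ 2 * s) / (s * (2 - b ^ 2 * s)) / 2)) := by
      intro z
      have h2 := hR z.1 s hsU'
      have h3 : 2 - b ^ 2 * s ≠ 0 := by linarith
      have h4 := hs.ne'
      have h5 : 2 - s * b ^ 2 ≠ 0 := by linarith
      rw [kk_sq hs.le hs2.le]
      field_simp
    simp only [h1]
    rw [integral_const_mul, h0, mul_zero]
  · refine (ha.comp continuous_snd).continuousOn.mul (ContinuousOn.sub ?_ ?_)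
    · exact continuousOn_const.div ((hcu.comp continuous_snd).add continuous_fst).continuousOn
        fun q hq => hR q.2 q.1 hq.1
    · refine ContinuousOn.div_const (ContinuousOn.div (by fun_prop) (by fun_prop) ?_) 2
      exact fun q hq => hk q.1 hq.1
  · intro y x hx
    have h1 : HasDerivAt (fun τ : ℝ => u p y + τ) 1 x := (hasDerivAt_id x).const_add _
    have h2 : HasDerivAt (fun τ : ℝ => τ * (2 - b ^ 2 * τ)) (2 - 2 * b ^ 2 * x) x := by
      have h3 := (hasDerivAt_id x).mul (((hasDerivAt_id x).const_mul (b ^ 2)).const_sub 2)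
      refine HasDerivAt.congr_deriv h3 ?_
      simp only [id]
      ring
    exact ((h1.log (hR y x hx)).sub ((h2.log (hk x hx)).div_const 2)).const_mul (a y)

theorem Sp0.der_p (h : Sp0 m b H₀ G u K μ) {a : E → ℝ} (ha : Continuous a) (p e : E) {s : ℝ}
    (hs : 0 < s) (d : ℝ) :
    HasDerivAt (fun τ : ℝ => ∫ z, a z.1 * (Real.log (u (p + τ • e) z.1 + s) - d) ∂μ)
      (∫ z, a z.1 * (fderiv ℝ (fun x => u x z.1) p e / (u p z.1 + s)) ∂μ) 0 := by
  have hR : ∀ x y, u x y + s ≠ 0 := fun x y => by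
    have h1 := h.nonneg x y
    linarith
  have hγ : Continuous fun q : ℝ × E => ((p + q.1 • e, q.2) : E × E) := by fun_prop
  have hc1 : Continuous fun q : ℝ × E => u (p + q.1 • e) q.2 :=
    h.cont.comp (f := fun q : ℝ × E => ((p + q.1 • e, q.2) : E × E)) hγ
  have hc2 : Continuous fun q : ℝ × E =>
      fderiv ℝ (fun z : E × E => u z.1 z.2) (p + q.1 • e, q.2) (e, 0) :=
    ((h.smooth.continuous_fderiv (by simp)).comp hγ).clm_apply continuous_const
  have hD := bal2_der h (x₀ := 0) (U := Icc (-1) 1)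
    (F := fun τ y => a y * (Real.log (u (p + τ • e) y + s) - d))
    (F' := fun τ y => a y * (fderiv ℝ (fun z : E × E => u z.1 z.2) (p + τ • e, y) (e, 0) /
      (u (p + τ • e) y + s)))
    isCompact_Icc (Icc_mem_nhds (by norm_num) (by norm_num))
    (fun x _ => ha.mul ((((h.contDiff _).continuous.add continuous_const).log
      fun y => hR _ y).sub continuous_const))
    ((ha.comp continuous_snd).mul (hc2.div (hc1.add continuous_const)
      fun q => hR _ _)).continuousOn
    (fun y x _ => ((((bal2_line h p e y x).add_const s).log (hR _ y)).sub_const d).const_mul (a y))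
  simp only [zero_smul, add_zero] at hD
  simp only [bal2_fd h]
  exact hD

end Vale.Agent.P219
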