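import Vale.Agent.P219.S.Defs
import Vale.Agent.P219.G.Norm
import Vale.Agent.P219.G.Lin2

/-!
# Calculus of tangential gradients  (TASK)

`B = G y` is `PosB` (`posB_of_loc`), invertible (`PosB.inv`): `B (B.inverse N) = N`.  With `a = B.inverse df`, `c = B.inverse dg`:
`Gt f g = B a c - B a ν * B c ν = B a' c'` for the projections `a' = a - B a ν • ν`; then `PosB.nonneg`, `PosB.sq_le`.
`Gt_sum`: `exists_onb` gives `Gt f f z = ∑ j : Fin m, (df (e j.succ))²` (`Fin.sum_univ_succ`), swap the sums.  Continuity: `norm_inv`, `ContDiff.continuous_fderiv`,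
`Continuous.fderiv` for the version with parameter (see `cont_D` in `G/Cont`).
-/

namespace Vale.Agent.P219

open scoped ContDiff Topology RealInnerProductSpace ENNReal
open MeasureTheory Set Filter Vale.Agent.P255
open St (sn gmod)

variable {E : Type*} [NormedAddCommGroup E] [InnerProductSpace ℝ E] [FiniteDimensional ℝ E]
  [MeasurableSpace E] [BorelSpace E] {G : E → Bil E} {L : E → E → E} {K : Set E} {m : ℕ}
  {b H₀ σ t₀ C S c : ℝ} {u : E → E → ℝ} {μ : Measure (E × E)}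

section

omit [MeasurableSpace E] [BorelSpace E] in
theorem gam_pr {B : Bil E} (hB : PosB B) {ν : E} (hν : B ν ν = 1) (l k : E →L[ℝ] ℝ) :
    l (B.inverse k) - l ν * k ν = B (B.inverse l - l ν • ν) (B.inverse k - k ν • ν) := by
  obtain ⟨a, rfl⟩ : ∃ a, B a = l := ⟨_, hB.inv.self_apply_inverse l⟩
  obtain ⟨c, rfl⟩ : ∃ c, B c = k := ⟨_, hB.inv.self_apply_inverse k⟩
  simp only [hB.inv.inverse_apply_self, map_sub, map_smul, sub_apply, smul_apply, smul_eq_mul, hν,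
    hB.1 ν c]
  ring

omit [MeasurableSpace E] [BorelSpace E] in
theorem gam_symm {B : Bil E} (hB : PosB B) (l k : E →L[ℝ] ℝ) :
    l (B.inverse k) = k (B.inverse l) := by
  obtain ⟨a, rfl⟩ : ∃ a, B a = l := ⟨_, hB.inv.self_apply_inverse l⟩
  obtain ⟨c, rfl⟩ : ∃ c, B c = k := ⟨_, hB.inv.self_apply_inverse k⟩
  rw [hB.inv.inverse_apply_self, hB.inv.inverse_apply_self, hB.1]

omit [MeasurableSpace E] [BorelSpace E] in
theorem gam_cont (hG : LocMetric G univ) {T : Type*} [TopologicalSpace T] {y ν : T → E}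
    {l k : T → E →L[ℝ] ℝ} (hy : Continuous y) (hν : Continuous ν) (hl : Continuous l)
    (hk : Continuous k) :
    Continuous fun t => l t ((G (y t)).inverse (k t)) - l t (ν t) * k t (ν t) :=
  (hl.clm_apply ((norm_inv hG).comp (hy.prodMk hk))).sub
    ((hl.clm_apply hν).mul (hk.clm_apply hν))

variable {f g k F : E → ℝ} {z : E × E}

theorem Gt_symm (hG : LocMetric G univ) (f g : E → ℝ) (z : E × E) : Gt G f g z = Gt G g f z := by
  rw [Gt, Gt, gam_symm (posB_of_loc hG z.1), mul_comm]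

theorem Gt_nonneg (hG : LocMetric G univ) (f : E → ℝ) (hz : G z.1 z.2 z.2 = 1) :
    0 ≤ Gt G f f z := by
  rw [Gt, gam_pr (posB_of_loc hG z.1) hz]
  exact (posB_of_loc hG z.1).nonneg _

theorem Gt_sq_le (hG : LocMetric G univ) (f g : E → ℝ) (hz : G z.1 z.2 z.2 = 1) :
    Gt G f g z ^ 2 ≤ Gt G f f z * Gt G g g z := by
  simp only [Gt, gam_pr (posB_of_loc hG z.1) hz]
  exact (posB_of_loc hG z.1).sq_le _ _

theorem Gt_abs_le (hG : LocMetric G univ) (f g : E → ℝ) (hz : G z.1 z.2 z.2 = 1) :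
    |Gt G f g z| ≤ √(Gt G f f z) * √(Gt G g g z) := by
  rw [← Real.sqrt_mul (Gt_nonneg hG f hz)]
  exact Real.abs_le_sqrt (Gt_sq_le hG f g hz)

theorem Gt_amgm (hG : LocMetric G univ) (f g : E → ℝ) (hz : G z.1 z.2 z.2 = 1) {η : ℝ}
    (hη : 0 < η) : 2 * |Gt G f g z| ≤ Gt G f f z / η + η * Gt G g g z := by
  have h1 := Gt_abs_le hG f g hz
  have h2 := Real.sq_sqrt (Gt_nonneg hG f hz)
  have h3 := Real.sq_sqrt (Gt_nonneg hG g hz)
  rw [← h2, ← h3, div_add' _ _ _ hη.ne', le_div_iff₀ hη]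
  nlinarith [sq_nonneg (√(Gt G f f z) - η * √(Gt G g g z)), mul_le_mul_of_nonneg_right h1 hη.le]

theorem Gt_lin {a a' : ℝ} (h : fderiv ℝ F z.1 = a • fderiv ℝ f z.1 + a' • fderiv ℝ g z.1)
    (k : E → ℝ) : Gt G F k z = a * Gt G f k z + a' * Gt G g k z := by
  simp only [Gt, h, add_apply, smul_apply, smul_eq_mul]
  ring

theorem Gt_lin' {a : ℝ} (h : fderiv ℝ F z.1 = a • fderiv ℝ f z.1) (k : E → ℝ) :
    Gt G F k z = a * Gt G f k z := by
  simp only [Gt, h, smul_apply, smul_eq_mul]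
  ring

theorem Gt_quad (hG : LocMetric G univ) {a a' : ℝ}
    (h : fderiv ℝ F z.1 = a • fderiv ℝ f z.1 + a' • fderiv ℝ g z.1) :
    Gt G F F z = a ^ 2 * Gt G f f z + 2 * a * a' * Gt G f g z + a' ^ 2 * Gt G g g z := by
  rw [Gt_lin h, Gt_symm hG f F, Gt_symm hG g F, Gt_lin h, Gt_lin h, Gt_symm hG g f]
  ring

theorem Gt_const (a : ℝ) (k : E → ℝ) (z : E × E) : Gt G (fun _ => a) k z = 0 := by
  simp [Gt]

theorem Gt_mul (hf : DifferentiableAt ℝ f z.1) (hg : DifferentiableAt ℝ g z.1) (k : E → ℝ) :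
    Gt G (fun y => f y * g y) k z = f z.1 * Gt G g k z + g z.1 * Gt G f k z :=
  Gt_lin (fderiv_fun_mul hf hg) k

theorem Gt_comp {φ : ℝ → ℝ} {φ' : ℝ} (hφ : HasDerivAt φ φ' (f z.1))
    (hf : DifferentiableAt ℝ f z.1) (k : E → ℝ) :
    Gt G (fun y => φ (f y)) k z = φ' * Gt G f k z :=
  Gt_lin' (hφ.comp_hasFDerivAt z.1 hf.hasFDerivAt).fderiv k

theorem Gt_comp_sq (hG : LocMetric G univ) {φ : ℝ → ℝ} {φ' : ℝ} (hφ : HasDerivAt φ φ' (f z.1))
    (hf : DifferentiableAt ℝ f z.1) :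
    Gt G (fun y => φ (f y)) (fun y => φ (f y)) z = φ' ^ 2 * Gt G f f z := by
  rw [Gt_comp hφ hf, Gt_symm hG, Gt_comp hφ hf]
  ring

theorem continuous_Gt (hG : LocMetric G univ) (hf : ContDiff ℝ 1 f) (hg : ContDiff ℝ 1 g) :
    Continuous (Gt G f g) :=
  gam_cont hG continuous_fst continuous_snd
    ((hf.continuous_fderiv one_ne_zero).comp continuous_fst)
    ((hg.continuous_fderiv one_ne_zero).comp continuous_fst)

theorem continuous_wn (hf : ContDiff ℝ 1 f) : Continuous (wn f) :=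
  ((hf.continuous_fderiv one_ne_zero).comp continuous_fst).clm_apply continuous_snd

theorem continuous_Gt_par (hG : LocMetric G univ) (hf : ContDiff ℝ 1 f)
    (hu : ContDiff ℝ 1 fun z : E × E => u z.1 z.2) :
    Continuous fun w : E × (E × E) => Gt G f (u w.1) w.2 := by
  have h1 : Continuous fun w : E × (E × E) => fderiv ℝ (u w.1) w.2.1 :=
    Continuous.fderiv (f := fun (w : E × (E × E)) y => u w.1 y) (n := 1)
      (hu.comp (contDiff_fst.fst.prodMk contDiff_snd)) continuous_snd.fst le_rfl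
  exact gam_cont hG continuous_snd.fst continuous_snd.snd
    ((hf.continuous_fderiv one_ne_zero).comp continuous_snd.fst) h1

theorem Gt_sum (hE : Module.finrank ℝ E = m + 1) (hG : LocMetric G univ) {ι : Type*} [Fintype ι]
    {Θ : ι → E → ℝ} (hz : G z.1 z.2 z.2 = 1) {κ : ℝ}
    (h : ∀ ξ, ∑ i, fderiv ℝ (Θ i) z.1 ξ ^ 2 ≤ κ * G z.1 ξ ξ) : ∑ i, Gt G (Θ i) (Θ i) z ≤ m * κ := by
  have hB := posB_of_loc hG z.1
  obtain ⟨e, h0, h1, h2, -⟩ := exists_onb hE hB hz
  have h3 : ∀ f : E → ℝ, Gt G f f z = ∑ j : Fin m, fderiv ℝ f z.1 (e j.succ) ^ 2 := by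
    intro f
    rw [Gt]
    obtain ⟨a, ha⟩ : ∃ a, G z.1 a = fderiv ℝ f z.1 := ⟨_, hB.inv.self_apply_inverse _⟩
    have h4 := congrArg (G z.1 a) (h2 a)
    simp only [map_sum, map_smul, smul_eq_mul, fun i => hB.1 (e i) a] at h4
    rw [← ha, hB.inv.inverse_apply_self, ← h4, Fin.sum_univ_succ, h0, add_sub_cancel_left]
    simp only [sq]
  simp only [h3]
  rw [Finset.sum_comm]
  refine (Finset.sum_le_sum fun j _ => h (e j.succ)).trans_eq ?_
  simp [h1]

end

end Vale.Agent.P219
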