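import Vale.Agent.P219.S.Ser
import Vale.Agent.P219.S.Gam
import Vale.Agent.P219.G.Dist
import Vale.Agent.P219.G.Field

/-!
# The radial function  (TASK)

`uu p y = W (qq p y)` (`rr_sq`, `exists_ser`), `Pack.contDiff_qq`.  `fderiv_uu`: `grad` with `sym` gives `d (qq p ·) y h = -2 G y (L y p) h`; `field_ca`; `2 W' (r²) r = sn r`.
`uu_grad`: `fderiv (uu p) y = G y v` for `v = -(2 W') • L y p`, so `(G y).inverse (fderiv ..) = v` (`PosB.inv`, `ContinuousLinearMap.IsInvertible.inverse_apply_eq`); `iota_sq`, `sn_sq`.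
`uu_sep`: `dist_cmp`, `le_ww`.  `uu_tri`: `Pack.triangle`, `strictMonoOn_ww`, `ww_add`, `sn_sq`, `cs_eq`, AM-GM; `ww` of the distance is bounded on `K`.
-/

namespace Vale.Agent.P219

open scoped ContDiff Topology RealInnerProductSpace ENNReal
open MeasureTheory Set Filter Vale.Agent.P255
open St (sn gmod)

variable {E : Type*} [NormedAddCommGroup E] [InnerProductSpace ℝ E] [FiniteDimensional ℝ E]
  [MeasurableSpace E] [BorelSpace E] {G : E → Bil E} {L : E → E → E} {K : Set E} {m : ℕ}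
  {b H₀ σ t₀ C S c : ℝ} {u : E → E → ℝ} {μ : Measure (E × E)}

theorem Pack.contDiff_uu (hP : Pack G L) (b : ℝ) :
    ContDiff ℝ ∞ fun z : E × E => uu b G L z.1 z.2 := hP.contDiff_ww2 b

theorem uu_nonneg (b : ℝ) (G : E → Bil E) (L : E → E → E) (p y : E) : 0 ≤ uu b G L p y :=
  le_trans (by positivity) (le_ww b _)

theorem Pack.uu_symm (hP : Pack G L) (p y : E) : uu b G L p y = uu b G L y p := by
  rw [uu, uu, hP.rr_symm]

theorem Pack.uu_self (hP : Pack G L) (p : E) : uu b G L p p = 0 := by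
  rw [uu, hP.rr_self, ww_zero]

theorem u1_fderiv (hP : Pack G L) (p y : E) :
    fderiv ℝ (uu b G L p) y = -sq' b (qq G L p y) • G y (L y p) :=
  (hP.hasFDerivAt_ww1 b p y).fderiv

theorem u1_inv (hP : Pack G L) (p y : E) :
    (G y).inverse (fderiv ℝ (uu b G L p) y) = -sq' b (qq G L p y) • L y p := by
  rw [u1_fderiv hP, ← map_smul, (posB_of_loc hP.loc y).inv.inverse_apply_self]

theorem Pack.fderiv_uu (hP : Pack G L) (p y h : E) :
    fderiv ℝ (uu b G L p) y h = sn b (rr G L p y) * ca G L y p h := by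
  rw [u1_fderiv hP, ContinuousLinearMap.smul_apply, (posB_of_loc hP.loc y).1, field_ca hP p y h,
    hP.sn_eq, smul_eq_mul]
  ring

theorem Pack.fderiv_uu_left (hP : Pack G L) (p y h : E) :
    fderiv ℝ (fun x => uu b G L x y) p h = sn b (rr G L p y) * ca G L p y h := by
  have h1 : (fun x => uu b G L x y) = uu b G L y := funext fun x => hP.uu_symm x y
  rw [h1, hP.fderiv_uu, hP.rr_symm]

theorem Pack.uu_grad (hP : Pack G L) (p y : E) (N : E →L[ℝ] ℝ) :
    N ((G y).inverse (fderiv ℝ (uu b G L p) y)) =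
      -(sn b (rr G L p y) / rr G L p y) * N (L y p) := by
  have h1 := congrArg N (hP.sn_smul b p y).2
  rw [map_smul, map_smul, smul_eq_mul, smul_eq_mul] at h1
  rw [u1_inv hP, map_smul, smul_eq_mul, neg_mul, neg_mul, h1]

theorem Pack.uu_eik (hP : Pack G L) (p : E) (z : E × E) :
    Gt G (uu b G L p) (uu b G L p) z + wn (uu b G L p) z ^ 2 =
      uu b G L p z.1 * (2 + b ^ 2 * uu b G L p z.1) := by
  have h1 : G z.1 (L z.1 p) (L z.1 p) = rr G L p z.1 ^ 2 := by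
    rw [hP.rr_sq', hP.sym]
    rfl
  have h2 := sn_sq b (rr G L p z.1)
  rw [hP.sn_eq] at h2
  rw [Gt, wn, u1_inv hP, map_smul, smul_eq_mul, sq (fderiv ℝ _ _ _), sub_add_cancel, u1_fderiv hP,
    ContinuousLinearMap.smul_apply, h1, smul_eq_mul, uu, ← h2]
  ring

theorem Pack.uu_sep (hP : Pack G L) (hK : IsCompact K) (η : ℝ) (hη : 0 < η) :
    ∃ δ : ℝ, 0 < δ ∧ ∀ x ∈ K, ∀ y ∈ K, uu b G L x y ≤ δ → ‖x - y‖ ≤ η := by
  obtain ⟨C, hC, h⟩ := hP.dist_cmp hK
  refine ⟨(η / C) ^ 2 / 2, by positivity, fun x hx y hy hu => ?_⟩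
  have h1 := (le_ww b (rr G L x y)).trans hu
  have h2 : rr G L x y ≤ η / C :=
    (pow_le_pow_iff_left₀ (rr_nonneg G L x y) (by positivity) two_ne_zero).1 (by linarith)
  calc ‖x - y‖ ≤ C * rr G L x y := (h x hx y hy).1
    _ ≤ C * (η / C) := mul_le_mul_of_nonneg_left h2 hC.le
    _ = η := by field_simp

theorem Pack.uu_tri (hP : Pack G L) (hK : IsCompact K) (η : ℝ) (hη : 0 < η) :
    ∃ C : ℝ, 0 < C ∧ ∀ p ∈ K, ∀ y ∈ K, ∀ x ∈ K,
      uu b G L p x ≤ (1 + η) * uu b G L y x + C * uu b G L p y := by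
  obtain ⟨B₀, hB⟩ := (hK.prod hK).exists_bound_of_continuousOn
    (hP.contDiff_uu b).continuous.continuousOn
  have hb : ∀ x ∈ K, ∀ y ∈ K, uu b G L x y ≤ |B₀| := fun x hx y hy =>
    ((le_abs_self _).trans (hB (x, y) ⟨hx, hy⟩)).trans (le_abs_self _)
  have hB0 := abs_nonneg B₀
  generalize |B₀| = B at hb hB0
  have hQ : 0 < 2 + b ^ 2 * B := by positivity
  refine ⟨1 + b ^ 2 * B + (2 + b ^ 2 * B) ^ 2 / (4 * η), by positivity,
    fun p hp y hy x hx => ?_⟩
  have h1 : uu b G L p x ≤ ww b (rr G L y x + rr G L p y) :=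
    (strictMonoOn_ww b).monotoneOn (rr_nonneg G L p x)
      (add_nonneg (rr_nonneg G L y x) (rr_nonneg G L p y))
      ((hP.triangle p y x).trans (add_comm _ _).le)
  have hA := hb y hy x hx
  have hD := hb p hp y hy
  have hA0 := uu_nonneg b G L y x
  have hD0 := uu_nonneg b G L p y
  have h2 := sn_sq b (rr G L y x)
  have h3 := sn_sq b (rr G L p y)
  rw [ww_add, cs_eq] at h1
  simp only [uu] at h1 hA hD hA0 hD0 ⊢
  generalize ww b (rr G L p x) = X at h1 ⊢
  generalize ww b (rr G L y x) = A at h1 hA hA0 h2 ⊢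
  generalize ww b (rr G L p y) = D at h1 hD hD0 h3 ⊢
  generalize sn b (rr G L y x) = s at h1 h2
  generalize sn b (rr G L p y) = t at h1 h3
  have hb2 := sq_nonneg b
  have h4 : s ^ 2 ≤ A * (2 + b ^ 2 * B) := by
    rw [h2]
    gcongr
  have h5 : t ^ 2 ≤ D * (2 + b ^ 2 * B) := by
    rw [h3]
    gcongr
  have h6 : (1 + b ^ 2 * A) * D ≤ (1 + b ^ 2 * B) * D := by gcongr
  generalize 2 + b ^ 2 * B = Q at hQ h4 h5 ⊢
  have h7 : s * t ≤ η / Q * s ^ 2 + Q / (4 * η) * t ^ 2 := by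
    have h8 : η / Q * s ^ 2 + Q / (4 * η) * t ^ 2 - s * t = (2 * η * s - Q * t) ^ 2 / (4 * η * Q) := by
      field_simp
      ring
    have h9 : 0 ≤ (2 * η * s - Q * t) ^ 2 / (4 * η * Q) := by positivity
    linarith
  have h10 : η / Q * s ^ 2 ≤ η * A := by
    calc η / Q * s ^ 2 ≤ η / Q * (A * Q) := by gcongr
      _ = η * A := by field_simp
  have h11 : Q / (4 * η) * t ^ 2 ≤ Q ^ 2 / (4 * η) * D := by
    calc Q / (4 * η) * t ^ 2 ≤ Q / (4 * η) * (D * Q) := by gcongr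
      _ = Q ^ 2 / (4 * η) * D := by ring
  linarith

end Vale.Agent.P219
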