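import Vale.Agent.P219.S.Bal2
import Vale.Agent.P219.S.U1

/-!
# The gradient vanishes at the balancing point  (TASK)

`V e = ∫ a * (fderiv .. p e / R)` is linear in `e` (integrability by continuity).  If `p + τ • e ∈ KB` for small `τ > 0` then `0 ≤ V e` (`der_p`, `hmin`, one-sided limit of slopes:
`HasDerivAt.tendsto_slope_zero_right`, `ge_of_tendsto`).  This holds for all `e` if `qq p 0 < c` (continuity), and if `qq p 0 = c` for all `e` with `0 < G p (L p 0) e` (`grad`: the derivative of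
`τ ↦ qq (p + τ • e) 0` is negative).  In the second case let `n = L p 0`, `G p n n = c > 0`; `V n ≤ 0` by `fderiv_uu_left`, `outward` (definition of `ca`, `sn ≥ 0`), and `V n ≥ 0`; for any `e`,
`V (±e + λ • n) ≥ 0` for large `λ`, so `± V e ≥ 0`.
-/

namespace Vale.Agent.P219

open scoped ContDiff Topology RealInnerProductSpace ENNReal
open MeasureTheory Set Filter Vale.Agent.P255
open St (sn gmod)

variable {E : Type*} [NormedAddCommGroup E] [InnerProductSpace ℝ E] [FiniteDimensional ℝ E]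
  [MeasurableSpace E] [BorelSpace E] {G : E → Bil E} {L : E → E → E} {K : Set E} {m : ℕ}
  {b H₀ σ t₀ C S c : ℝ} {u : E → E → ℝ} {μ : Measure (E × E)}

theorem bal3_int (h : Sp0 m b H₀ G u K μ) {a : E → ℝ} (ha : Continuous a) (p e : E) {s : ℝ}
    (hs : 0 < s) :
    Integrable (fun z : E × E => a z.1 * (fderiv ℝ (fun x => u x z.1) p e / (u p z.1 + s))) μ := by
  have e1 : ∀ y, fderiv ℝ (fun x => u x y) p e =
      fderiv ℝ (fun z : E × E => u z.1 z.2) (p, y) (e, 0) := fun y => by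
    have h1 := (h.smooth.differentiable (by simp) (p, y)).hasFDerivAt.comp p
      (hasFDerivAt_prodMk_left (𝕜 := ℝ) p y)
    exact congrArg (fun D : E →L[ℝ] ℝ => D e) h1.fderiv
  simp only [e1]
  refine h.integrable ((ha.comp continuous_fst).mul (Continuous.div ?_ ?_ fun z => ?_))
  · exact ((h.smooth.continuous_fderiv (by simp)).comp
      (continuous_const.prodMk continuous_fst)).clm_apply continuous_const
  · exact ((h.contDiff p).continuous.comp continuous_fst).add continuous_const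
  · exact (add_pos_of_nonneg_of_pos (h.nonneg p z.1) hs).ne'

theorem bal3_ge {f : ℝ → ℝ} {v : ℝ} (hf : HasDerivAt f v 0) (h : ∀ᶠ τ in 𝓝[>] (0 : ℝ), f 0 ≤ f τ) :
    0 ≤ v := by
  refine ge_of_tendsto hf.tendsto_slope_zero_right ?_
  filter_upwards [h, self_mem_nhdsWithin] with τ h1 h2
  rw [zero_add, smul_eq_mul]
  exact mul_nonneg (inv_nonneg.2 (le_of_lt h2)) (sub_nonneg.2 h1)

theorem bal3_lt {f : ℝ → ℝ} {v : ℝ} (hf : HasDerivAt f v 0) (h : v < 0) :
    ∀ᶠ τ in 𝓝[>] (0 : ℝ), f τ ≤ f 0 := by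
  filter_upwards [hf.tendsto_slope_zero_right.eventually (gt_mem_nhds h), self_mem_nhdsWithin]
    with τ h1 h2
  rw [zero_add, smul_eq_mul] at h1
  exact (sub_neg.1 (neg_of_mul_neg_right h1 (inv_nonneg.2 (le_of_lt h2)))).le

omit [MeasurableSpace E] [BorelSpace E] in
theorem bal3_qq (hP : Pack G L) (p e : E) :
    HasDerivAt (fun τ : ℝ => qq G L (p + τ • e) 0) (-2 * G p (L p 0) e) 0 := by
  have h1 : Differentiable ℝ fun z => qq G L z 0 :=
    (hP.contDiff_qq.comp (contDiff_id.prodMk contDiff_const :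
      ContDiff ℝ ∞ fun y : E => (y, (0 : E)))).differentiable (by simp)
  have h2 : HasDerivAt (fun τ : ℝ => p + τ • e) e 0 := by
    simpa using ((hasDerivAt_id (0 : ℝ)).smul_const e).const_add p
  rw [← hP.grad]
  exact (h1 p).hasFDerivAt.comp_hasDerivAt_of_eq (0 : ℝ) h2 (by simp)

theorem Pack.crit_p (hP : Pack G L) (hc : 0 < c) (h : Sp0 m b H₀ G (uu b G L) (KB G L c) μ)
    {a : E → ℝ} (ha : Continuous a) (h0 : ∀ y, 0 ≤ a y) {p : E} (hp : p ∈ KB G L c) {s : ℝ}
    (hs : 0 < s) (d : ℝ) (hmin : ∀ p' ∈ KB G L c,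
      ∫ z, a z.1 * (Real.log (uu b G L p z.1 + s) - d) ∂μ ≤
        ∫ z, a z.1 * (Real.log (uu b G L p' z.1 + s) - d) ∂μ) (e : E) :
    ∫ z, a z.1 * (fderiv ℝ (fun x => uu b G L x z.1) p e / (uu b G L p z.1 + s)) ∂μ = 0 := by
  obtain ⟨V, hV⟩ : ∃ V : E → ℝ, ∀ e, V e =
      ∫ z, a z.1 * (fderiv ℝ (fun x => uu b G L x z.1) p e / (uu b G L p z.1 + s)) ∂μ :=
    ⟨_, fun _ => rfl⟩
  have l1 : ∀ (r r' : ℝ) (e e' : E), V (r • e + r' • e') = r * V e + r' * V e' := by
    intro r r' e e'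
    rw [hV, hV, hV, ← integral_const_mul, ← integral_const_mul, ← integral_add
      ((bal3_int h ha p e hs).const_mul r) ((bal3_int h ha p e' hs).const_mul r')]
    refine integral_congr_ae (Eventually.of_forall fun z => ?_)
    simp only [map_add, map_smul, smul_eq_mul]
    ring
  have l2 : ∀ e, (∀ᶠ τ in 𝓝[>] (0 : ℝ), p + τ • e ∈ KB G L c) → 0 ≤ V e := by
    intro e he
    rw [hV]
    refine bal3_ge (h.der_p ha p e hs d) ?_
    filter_upwards [he] with τ hτ
    rw [zero_smul, add_zero]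
    exact hmin _ hτ
  rw [← hV]
  have hp' : qq G L p 0 ≤ c := hp
  rcases hp'.lt_or_eq with h1 | h1
  · have l3 : ∀ e, 0 ≤ V e := fun e => l2 e (by
      have h2 := (bal3_qq hP p e).continuousAt.eventually (gt_mem_nhds (a := c) (by simpa using h1))
      exact (h2.filter_mono nhdsWithin_le_nhds).mono fun τ hτ => le_of_lt hτ)
    have a1 := l3 e
    have a2 := l3 ((-1 : ℝ) • e + (0 : ℝ) • e)
    rw [l1] at a2
    linarith
  · have l3 : ∀ e, 0 < G p (L p 0) e → 0 ≤ V e := fun e he => l2 e (by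
      filter_upwards [bal3_lt (bal3_qq hP p e) (by linarith)] with τ hτ
      rw [zero_smul, add_zero, h1] at hτ
      exact hτ)
    have hn : G p (L p 0) (L p 0) = c := h1
    have l4 : V (L p 0) ≤ 0 := by
      rw [hV]
      refine integral_nonpos_of_ae ?_
      filter_upwards [h.ae_mem] with z hz
      have r0 : 0 ≤ rr G L p z.1 := Real.sqrt_nonneg _
      refine mul_nonpos_of_nonneg_of_nonpos (h0 _) (div_nonpos_of_nonpos_of_nonneg ?_
        (add_pos_of_nonneg_of_pos (h.nonneg p z.1) hs).le)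
      rw [hP.fderiv_uu_left]
      refine mul_nonpos_of_nonneg_of_nonpos (r0.trans (le_sn b r0)) ?_
      exact div_nonpos_of_nonpos_of_nonneg (neg_nonpos.2 (hP.outward h1 hz.1)) r0
    have l5 : ∀ r : ℝ, 0 ≤ r * V e := by
      intro r
      have a1 := l3 (r • e + ((|r * G p (L p 0) e| + 1) / c) • L p 0) (by
        rw [map_add, map_smul, map_smul, smul_eq_mul, smul_eq_mul, hn, div_mul_cancel₀ _ hc.ne']
        linarith [neg_abs_le (r * G p (L p 0) e)])
      rw [l1] at a1
      have a2 : (|r * G p (L p 0) e| + 1) / c * V (L p 0) ≤ 0 :=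
        mul_nonpos_of_nonneg_of_nonpos (by positivity) l4
      linarith
    linarith [l5 1, l5 (-1)]

end Vale.Agent.P219
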