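import Vale.Agent.P219.S.Defs

/-!
# Elementary facts on the constants, `kk`, `cf`, `Fq`, `grn`  (TASK)

Pure calculus.  `cast (m - 2) = m - 2` as `3 ≤ m` (`Nat.cast_sub`), `Real.rpow_natCast`, `Real.rpow_mul`, `Real.div_rpow`, `abs_div`.
`continuous_grn`: `intervalIntegral.continuous_parametric_intervalIntegral_of_continuous'` after replacing `s` by `max s t` in the integrand
(`intervalIntegral.integral_congr`).
-/

namespace Vale.Agent.P219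

open scoped ContDiff Topology RealInnerProductSpace ENNReal
open MeasureTheory Set Filter Vale.Agent.P255
open St (sn gmod)

variable {E : Type*} [NormedAddCommGroup E] [InnerProductSpace ℝ E] [FiniteDimensional ℝ E]
  [MeasurableSpace E] [BorelSpace E] {G : E → Bil E} {L : E → E → E} {K : Set E} {m : ℕ}
  {b H₀ σ t₀ C S c : ℝ} {u : E → E → ℝ} {μ : Measure (E × E)}

theorem qE_gt (hm : 3 ≤ m) : 2 < qE m := by
  have h3 : (3 : ℝ) ≤ m := by exact_mod_cast hm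
  rw [qE, lt_div_iff₀ (by linarith)]
  linarith

theorem cE_pos (hm : 3 ≤ m) : 0 < cE m := by
  have h3 : (3 : ℝ) ≤ m := by exact_mod_cast hm
  exact div_pos (mul_pos (by linarith) (by linarith)) (by norm_num)

theorem bE_pos (hm : 3 ≤ m) : 0 < bE m := by
  have h3 : (3 : ℝ) ≤ m := by exact_mod_cast hm
  exact div_pos (by linarith) (by norm_num)

theorem bE_mul_qE (hm : 3 ≤ m) : bE m * qE m = m := by
  have h3 : (3 : ℝ) ≤ m := by exact_mod_cast hm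
  have h4 : (m : ℝ) - 2 ≠ 0 := by linarith
  rw [bE, qE]
  field_simp

theorem cE_mul (hm : 3 ≤ m) : cE m * (qE m - 2) = m := by
  have h3 : (3 : ℝ) ≤ m := by exact_mod_cast hm
  have h4 : (m : ℝ) - 2 ≠ 0 := by linarith
  rw [cE, qE]
  field_simp
  ring

theorem one_sub_qE (hm : 3 ≤ m) : 1 - 2 / qE m = 2 / m := by
  have h3 : (3 : ℝ) ≤ m := by exact_mod_cast hm
  have h4 : (m : ℝ) - 2 ≠ 0 := by linarith
  have h5 : (m : ℝ) ≠ 0 := by linarith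
  rw [qE]
  field_simp
  ring

theorem bE_sq (m : ℕ) : bE m + bE m ^ 2 = cE m := by
  rw [bE, cE]
  ring

theorem bE_mul (m : ℕ) : bE m * m = 2 * cE m := by
  rw [bE, cE]
  ring

theorem kk_nonneg (b s : ℝ) : 0 ≤ kk b s := Real.sqrt_nonneg _

theorem kk_sq {s : ℝ} (h0 : 0 ≤ s) (h : b ^ 2 * s ≤ 2) : kk b s ^ 2 = s * (2 - b ^ 2 * s) :=
  Real.sq_sqrt (mul_nonneg h0 (by linarith))

theorem kk_pos {s : ℝ} (h0 : 0 < s) (h : b ^ 2 * s < 2) : 0 < kk b s :=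
  Real.sqrt_pos.2 (mul_pos h0 (by linarith))

theorem kk_sq_le {s : ℝ} (h0 : 0 ≤ s) : kk b s ^ 2 ≤ 2 * s := by
  have h1 := mul_nonneg (mul_nonneg (sq_nonneg b) h0) h0
  rw [kk, Real.sq_sqrt']
  exact max_le (by linarith) (by linarith)

theorem kk_le {s : ℝ} (h0 : 0 ≤ s) : kk b s ≤ √(2 * s) := by
  have h1 := mul_nonneg (mul_nonneg (sq_nonneg b) h0) h0
  exact Real.sqrt_le_sqrt (by linarith)

theorem le_kk_sq {s : ℝ} (h0 : 0 ≤ s) (h : b ^ 2 * s ≤ 1) : s ≤ kk b s ^ 2 := by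
  rw [kk_sq h0 (by linarith)]
  exact le_mul_of_one_le_right h0 (by linarith)

theorem continuous_kk (b : ℝ) : Continuous (kk b) := by
  unfold kk
  fun_prop

theorem hasDerivAt_kk {s : ℝ} (h0 : 0 < s) (h : b ^ 2 * s < 2) :
    HasDerivAt (kk b) ((1 - b ^ 2 * s) / kk b s) s := by
  have h1 : HasDerivAt (fun s : ℝ => s * (2 - b ^ 2 * s))
      (1 * (2 - b ^ 2 * s) + s * (0 - b ^ 2 * 1)) s :=
    (hasDerivAt_id s).mul ((hasDerivAt_const s 2).sub ((hasDerivAt_id s).const_mul _))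
  have h2 := h1.sqrt (mul_pos h0 (by linarith)).ne'
  refine h2.congr_deriv ?_
  have h3 := (kk_pos h0 h).ne'
  rw [kk] at h3 ⊢
  field_simp
  ring

theorem kk_unit {s : ℝ} (h0 : 0 ≤ s) (h : b ^ 2 * s ≤ 2) (v : ℝ) :
    kk b s ^ 2 * (v * (2 + b ^ 2 * v)) + (kk b s ^ 2 - (1 - b ^ 2 * s) * (v + s)) ^ 2 =
      (v + s) ^ 2 := by
  rw [kk_sq h0 h]
  ring

theorem kk_cs {s : ℝ} (h0 : 0 ≤ s) (h : b ^ 2 * s ≤ 2) (v : ℝ) :
    (1 + b ^ 2 * v) * (v + s) - v * (2 + b ^ 2 * v) = kk b s ^ 2 - (1 - b ^ 2 * s) * (v + s) := by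
  rw [kk_sq h0 h]
  ring

theorem grn_nonneg {t t₁ v : ℝ} (ht : 0 < t) (h : t ≤ t₁) (hv : 0 ≤ v) : 0 ≤ grn m b t t₁ v :=
  intervalIntegral.integral_nonneg h fun s hs =>
    div_nonneg (pow_nonneg (kk_nonneg _ _) _) (pow_nonneg (add_nonneg hv (ht.le.trans hs.1)) _)

theorem grn_le {t t₁ v : ℝ} (ht : 0 < t) (h : t ≤ t₁) (hv : 0 < v) :
    grn m b t t₁ v ≤ √(2 * t₁) ^ (m - 2) * t₁ / v ^ m := by
  have h1 : 0 ≤ √(2 * t₁) ^ (m - 2) / v ^ m := by positivity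
  have h2 : ‖grn m b t t₁ v‖ ≤ √(2 * t₁) ^ (m - 2) / v ^ m * |t₁ - t| := by
    refine intervalIntegral.norm_integral_le_of_norm_le_const fun s hs => ?_
    rw [uIoc_of_le h] at hs
    have h3 : 0 < s := ht.trans hs.1
    rw [Real.norm_of_nonneg (div_nonneg (pow_nonneg (kk_nonneg _ _) _) (by positivity))]
    refine div_le_div₀ (by positivity) (pow_le_pow_left₀ (kk_nonneg _ _) ?_ _) (by positivity)
      (pow_le_pow_left₀ hv.le (by linarith) _)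
    exact (kk_le h3.le).trans (Real.sqrt_le_sqrt (by linarith [hs.2]))
  rw [abs_of_nonneg (sub_nonneg.2 h)] at h2
  calc grn m b t t₁ v ≤ √(2 * t₁) ^ (m - 2) / v ^ m * (t₁ - t) := (le_abs_self _).trans h2
    _ ≤ √(2 * t₁) ^ (m - 2) / v ^ m * t₁ := mul_le_mul_of_nonneg_left (by linarith) h1
    _ = _ := by ring

theorem continuous_grn {X : Type*} [TopologicalSpace X] {w : X → ℝ} (hw : Continuous w)
    (h0 : ∀ x, 0 ≤ w x) {t t₁ : ℝ} (ht : 0 < t) (h : t ≤ t₁) :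
    Continuous fun x => grn m b t t₁ (w x) := by
  have h1 : Continuous fun x => ∫ s in t..t₁, kk b s ^ (m - 2) / (w x + max s t) ^ m := by
    refine intervalIntegral.continuous_parametric_intervalIntegral_of_continuous' ?_ t t₁
    refine Continuous.div (((continuous_kk b).comp continuous_snd).pow _)
      (((hw.comp continuous_fst).add (continuous_snd.max continuous_const)).pow _) fun z => ?_
    exact pow_ne_zero _ (add_pos_of_nonneg_of_pos (h0 _) (ht.trans_le (le_max_right _ _))).ne'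
  refine h1.congr fun x => intervalIntegral.integral_congr fun s hs => ?_
  rw [uIcc_of_le h] at hs
  simp only [max_eq_left hs.1]

section

variable {v f : E → ℝ} {s : ℝ}

theorem cf_nonneg (hv : ∀ y, 0 ≤ v y) (h0 : 0 < s) (y : E) : 0 ≤ cf b v s y :=
  div_nonneg (kk_nonneg _ _) (add_nonneg (hv y) h0.le)

theorem cf_pos (hv : ∀ y, 0 ≤ v y) (h0 : 0 < s) (h : b ^ 2 * s < 2) (y : E) : 0 < cf b v s y :=
  div_pos (kk_pos h0 h) (add_pos_of_nonneg_of_pos (hv y) h0)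

theorem cf_sq_le (hv : ∀ y, 0 ≤ v y) (h0 : 0 < s) (y : E) : cf b v s y ^ 2 ≤ 2 / s := by
  have h1 := hv y
  have h2 : 0 < v y + s := by linarith
  rw [cf, div_pow, div_le_div_iff₀ (by positivity) h0]
  have h3 := mul_le_mul_of_nonneg_right (kk_sq_le (b := b) h0.le) h0.le
  nlinarith [mul_nonneg h1 h0.le, sq_nonneg (v y)]

theorem contDiff_cf (hv : ∀ y, 0 ≤ v y) (hs : ContDiff ℝ 2 v) (h0 : 0 < s) :
    ContDiff ℝ 2 (cf b v s) :=
  contDiff_const.div (hs.add contDiff_const) fun y => (add_pos_of_nonneg_of_pos (hv y) h0).ne'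

theorem contDiff_cf_rpow (hv : ∀ y, 0 ≤ v y) (hs : ContDiff ℝ 2 v) (h0 : 0 < s)
    (h : b ^ 2 * s < 2) (a : ℝ) : ContDiff ℝ 2 fun y => cf b v s y ^ a :=
  (contDiff_cf hv hs h0).rpow_const_of_ne fun y => (cf_pos hv h0 h y).ne'

theorem contDiff_Fq (hv : ∀ y, 0 ≤ v y) (hs : ContDiff ℝ 2 v) (h0 : 0 < s) (h : b ^ 2 * s < 2)
    (hf : ContDiff ℝ 2 f) : ContDiff ℝ 2 (Fq m b v s f) :=
  hf.div (contDiff_cf_rpow hv hs h0 h _) fun y => (Real.rpow_pos_of_pos (cf_pos hv h0 h y) _).ne'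

theorem cf_rpow_sq (hm : 3 ≤ m) (hv : ∀ y, 0 ≤ v y) (h0 : 0 < s) (h : b ^ 2 * s < 2) (y : E) :
    (cf b v s y ^ bE m) ^ 2 = cf b v s y ^ (m - 2) := by
  have h1 : bE m * ((2 : ℕ) : ℝ) = ((m - 2 : ℕ) : ℝ) := by
    rw [Nat.cast_sub (by linarith), bE]
    push_cast
    ring
  rw [← Real.rpow_natCast, ← Real.rpow_mul (cf_pos hv h0 h y).le, h1, Real.rpow_natCast]

theorem Fq_sq (hm : 3 ≤ m) (hv : ∀ y, 0 ≤ v y) (h0 : 0 < s) (h : b ^ 2 * s < 2) (f : E → ℝ)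
    (y : E) : Fq m b v s f y ^ 2 * cf b v s y ^ (m - 2) = f y ^ 2 := by
  rw [Fq, div_pow, cf_rpow_sq hm hv h0 h y,
    div_mul_cancel₀ _ (pow_ne_zero _ (cf_pos hv h0 h y).ne')]

theorem Fq_sq' (hm : 3 ≤ m) (hv : ∀ y, 0 ≤ v y) (h0 : 0 < s) (h : b ^ 2 * s < 2) (f : E → ℝ)
    (y : E) : Fq m b v s f y ^ 2 * cf b v s y ^ m = f y ^ 2 * cf b v s y ^ 2 := by
  have h1 : cf b v s y ^ m = cf b v s y ^ (m - 2) * cf b v s y ^ 2 := by
    rw [← pow_add, Nat.sub_add_cancel (by linarith)]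
  rw [h1, ← mul_assoc, Fq_sq hm hv h0 h]

theorem Fq_rpow (hm : 3 ≤ m) (hv : ∀ y, 0 ≤ v y) (h0 : 0 < s) (h : b ^ 2 * s < 2) (f : E → ℝ)
    (y : E) : |Fq m b v s f y| ^ qE m * cf b v s y ^ m = |f y| ^ qE m := by
  have h1 := cf_pos hv h0 h y
  have h2 := Real.rpow_pos_of_pos h1 (bE m)
  rw [Fq, abs_div, abs_of_pos h2, Real.div_rpow (abs_nonneg _) h2.le, ← Real.rpow_mul h1.le,
    bE_mul_qE hm, Real.rpow_natCast, div_mul_cancel₀ _ (pow_ne_zero _ h1.ne')]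

theorem Fq_mul (hv : ∀ y, 0 ≤ v y) (h0 : 0 < s) (h : b ^ 2 * s < 2) (g : E → ℝ) :
    Fq m b v s (fun y => g y * cf b v s y ^ bE m) = g := by
  funext y
  rw [Fq, mul_div_cancel_right₀ _ (Real.rpow_pos_of_pos (cf_pos hv h0 h y) _).ne']

end

end Vale.Agent.P219
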