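import Vale.Agent.P219.S.U1
import Vale.Agent.P219.S.Kk
import Vale.Agent.P219.G.Iota

/-!
# The conformal map to the sphere  (TASK)

`omg 0 = k² / R - a`, `omg (i+1) = k P_i / R` with `P_i y = sn r * ca p y (e i)` (`fderiv_uu_left`), `a = 1 - b² s`.  Parseval: `∑ i, (G p (e i) X)² = G p X X` from `he`.  `omg_unit`: `P_i = G p (e i) X`, `X = -(sn r / r) • L p y`,
`G p X X = sn²` (`iota_sq'`; both sides vanish for `y = p`), `sn_sq`, `kk_unit`.  `omg_grad` (`y ≠ p`): `hasFDerivAt_P` gives `dP_i ξ = Mx p y (e i) ξ`, and `du ξ = sn r * δ`, `δ = ca y p ξ` (`fderiv_uu`); with `n = -(1 / r) • L p y`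
(unit, `ca p y e = G p e n`): `d omg (i+1) ξ = k / R * G p (e i) X`, `X = (γ δ) • n - Cm ξ`, `γ = cs - 1 - sn² / R`; `G p n (Cm ξ) = -δ` (`Cm_adj`, `Cm_radial`), so
`G p X X = ((γ + 1)² - 1) δ² + G p (Cm ξ) (Cm ξ)`; `d omg 0 ξ = -k² sn δ / R²`; `(γ + 1)² + k² sn² / R² = 1` by `kk_cs`, `kk_unit`, `cs_eq`, `sn_sq`; finally `contrK`.
Smoothness: `ContDiff.fderiv` applied to the jointly smooth `uu` (see `fluxA_W` in `G/FluxA`).
-/

namespace Vale.Agent.P219

open scoped ContDiff Topology RealInnerProductSpace ENNReal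
open MeasureTheory Set Filter Vale.Agent.P255
open St (sn gmod)

variable {E : Type*} [NormedAddCommGroup E] [InnerProductSpace ℝ E] [FiniteDimensional ℝ E]
  [MeasurableSpace E] [BorelSpace E] {G : E → Bil E} {L : E → E → E} {K : Set E} {m : ℕ}
  {b H₀ σ t₀ C S c : ℝ} {u : E → E → ℝ} {μ : Measure (E × E)}

/-- The components of the conformal map. -/
noncomputable def omg (b : ℝ) (G : E → Bil E) (L : E → E → E) (p : E) (s : ℝ) (e : Fin (m + 1) → E)
    (i : Fin (m + 2)) (y : E) : ℝ :=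
  Fin.cases (kk b s ^ 2 / (uu b G L p y + s) - (1 - b ^ 2 * s))
    (fun j => kk b s * (fderiv ℝ (fun x => uu b G L x y) p (e j) / (uu b G L p y + s))) i

omit [FiniteDimensional ℝ E] [MeasurableSpace E] [BorelSpace E] in
theorem bal4_pars {p : E} {e : Fin (m + 1) → E} (he : ∀ v, ∑ i, G p (e i) v • e i = v) (X : E) :
    ∑ i, G p (e i) X ^ 2 = G p X X := by
  have h := congrArg (fun v => G p v X) (he X)
  simp only [map_sum, map_smul, sum_apply, smul_apply,
    smul_eq_mul] at h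
  exact (Finset.sum_congr rfl fun i _ => sq _).trans h

theorem bal4_uu (hP : Pack G L) (p : E) : ContDiff ℝ ∞ (uu b G L p) := by
  simpa only [Function.comp_def] using
    (hP.contDiff_uu b).comp ((contDiff_const (c := p)).prodMk contDiff_fun_id)

theorem Pack.omg_smooth (hP : Pack G L) (p : E) {s : ℝ} (hs : 0 < s) (e : Fin (m + 1) → E)
    (i : Fin (m + 2)) : ContDiff ℝ 2 (omg b G L p s e i) := by
  have hu : ContDiff ℝ 2 fun y => uu b G L p y + s :=
    ((bal4_uu hP p).of_le chg_two).add contDiff_const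
  have h0 : ∀ y, uu b G L p y + s ≠ 0 := fun y =>
    (add_pos_of_nonneg_of_pos (uu_nonneg b G L p y) hs).ne'
  refine Fin.cases ((contDiff_const.div hu h0).sub contDiff_const) (fun j => ?_) i
  have hD : ContDiff ℝ 2 fun y => fderiv ℝ (fun x => uu b G L x y) p :=
    ContDiff.fderiv (f := fun y x => uu b G L x y) (m := ∞)
      (by simpa only [Function.comp_def, Function.uncurry_def] using
        (hP.contDiff_uu b).comp (contDiff_snd.prodMk contDiff_fst)) contDiff_const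
      (WithTop.coe_le_coe.2 (le_top : (2 + 1 : ℕ∞) ≤ ⊤))
  exact contDiff_const.mul ((hD.clm_apply contDiff_const).div hu h0)

theorem Pack.omg_unit (hP : Pack G L) (p : E) {s : ℝ} (hs : 0 < s) (hs2 : b ^ 2 * s < 2)
    {e : Fin (m + 1) → E} (he : ∀ v, ∑ i, G p (e i) v • e i = v) (y : E) :
    ∑ i, omg b G L p s e i y ^ 2 = 1 := by
  have h0 : uu b G L p y + s ≠ 0 := (add_pos_of_nonneg_of_pos (uu_nonneg b G L p y) hs).ne'
  have h1 := kk_unit (b := b) hs.le hs2.le (uu b G L p y)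
  have h2 : sn b (rr G L p y) ^ 2 = uu b G L p y * (2 + b ^ 2 * uu b G L p y) := sn_sq b _
  have h3 : ∀ j : Fin (m + 1), omg b G L p s e j.succ y ^ 2 =
      (kk b s / (uu b G L p y + s) * (sn b (rr G L p y) / rr G L p y)) ^ 2 *
        G p (e j) (L p y) ^ 2 := fun j => by
    simp only [omg, Fin.cases_succ, hP.fderiv_uu_left, ca]
    ring
  have h4 : (sn b (rr G L p y) / rr G L p y) ^ 2 * rr G L p y ^ 2 = sn b (rr G L p y) ^ 2 := by
    rcases eq_or_ne (rr G L p y) 0 with h | h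
    · simp [h, sn_zero]
    · field_simp
  rw [Fin.sum_univ_succ, Finset.sum_congr rfl fun j _ => h3 j, ← Finset.mul_sum, bal4_pars he,
    iota_sq' hP, mul_pow, mul_assoc, h4, h2]
  simp only [omg, Fin.cases_zero]
  field_simp
  linear_combination h1

theorem PackK.omg_grad (hP : PackK b G L) {p y : E} (hy : y ≠ p) {s : ℝ} (hs : 0 < s)
    (hs2 : b ^ 2 * s < 2) {e : Fin (m + 1) → E} (he : ∀ v, ∑ i, G p (e i) v • e i = v) (ξ : E) :
    ∑ i, fderiv ℝ (omg b G L p s e i) y ξ ^ 2 ≤ cf b (uu b G L p) s y ^ 2 * G y ξ ξ := by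
  have hQ := hP.toPack
  have h0 : uu b G L p y + s ≠ 0 := (add_pos_of_nonneg_of_pos (uu_nonneg b G L p y) hs).ne'
  have hr := (hQ.rr_pos hy).ne'
  have h1 := kk_unit (b := b) hs.le hs2.le (uu b G L p y)
  have h2 : sn b (rr G L p y) ^ 2 = uu b G L p y * (2 + b ^ 2 * uu b G L p y) := sn_sq b _
  have h3 : cs b (rr G L p y) = 1 + b ^ 2 * uu b G L p y := cs_eq b _
  rw [← kk_cs hs.le hs2.le, ← h2, ← h3] at h1
  have hI := (hasDerivAt_inv h0).comp_hasFDerivAt y
    ((((bal4_uu (b := b) hQ p).differentiable (by simp)) y).hasFDerivAt.add_const s)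
  have e0 : fderiv ℝ (omg b G L p s e 0) y ξ = -(kk b s ^ 2 * (sn b (rr G L p y) * ca G L y p ξ) /
      (uu b G L p y + s) ^ 2) := by
    have h4 : HasFDerivAt (omg b G L p s e 0) _ y :=
      (hI.const_mul (kk b s ^ 2)).sub_const (1 - b ^ 2 * s)
    rw [h4.fderiv]
    simp only [smul_apply, smul_eq_mul, hQ.fderiv_uu]
    ring
  obtain ⟨γ, hγ⟩ : ∃ γ, γ = cs b (rr G L p y) - 1 - sn b (rr G L p y) ^ 2 / (uu b G L p y + s) :=
    ⟨_, rfl⟩
  have e1 : ∀ j : Fin (m + 1), fderiv ℝ (omg b G L p s e j.succ) y ξ ^ 2 =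
      (kk b s / (uu b G L p y + s)) ^ 2 * G p (e j)
        ((-(γ * ca G L y p ξ / rr G L p y)) • L p y - Cm b G L p y ξ) ^ 2 := fun j => by
    obtain ⟨P', h4, h5⟩ := hQ.hasFDerivAt_P (b := b) hy.symm (e j)
    have h6 : omg b G L p s e j.succ = fun z => kk b s *
        (sn b (rr G L p z) * ca G L p z (e j) * (uu b G L p z + s)⁻¹) := funext fun z => by
      simp only [omg, Fin.cases_succ, hQ.fderiv_uu_left, div_eq_mul_inv]
    have h7 : HasFDerivAt (omg b G L p s e j.succ) _ y := h6 ▸ (h4.mul hI).const_mul (kk b s)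
    rw [h7.fderiv, ← mul_pow]
    congr 1
    simp only [smul_apply, add_apply, smul_eq_mul,
      hQ.fderiv_uu, h5, Mx, map_sub, map_smul, Function.comp_apply, hγ, ca.eq_1 G L p y]
    field_simp
    ring
  have h4 : G p (L p y) (Cm b G L p y ξ) = rr G L p y * ca G L y p ξ := by
    rw [hQ.Cm_adj, hQ.Cm_radial hy, map_neg, field_ca hQ, neg_neg]
  have h5 := mul_le_mul_of_nonneg_left (hP.contrK p y hy.symm ξ)
    (sq_nonneg (kk b s / (uu b G L p y + s)))
  rw [Fin.sum_univ_succ, Finset.sum_congr rfl fun j _ => e1 j, ← Finset.mul_sum, bal4_pars he, e0, cf]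
  refine le_trans (le_of_eq ?_) h5
  simp only [map_sub, map_smul, sub_apply, smul_apply,
    smul_eq_mul, iota_sq' hQ, h4, (posB_of_loc hQ.loc p).1 (Cm b G L p y ξ) (L p y), hγ]
  field_simp
  linear_combination kk b s ^ 2 * ca G L y p ξ ^ 2 * h1

end Vale.Agent.P219
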