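import Vale.Agent.P219.S.Bal1
import Vale.Agent.P219.S.Bal3
import Vale.Agent.P219.S.Bal4

/-!
# Balancing  (TASK)

`exists_min`, `crit_s`, `crit_p`; a `G p`-unit vector exists (`E` is nontrivial), `exists_onb` gives `e`; `Θ = omg`; `grad`: `ae_ne`, `ae_mem`, `Gt_sum`, `omg_grad`; `zero`: `Fin.cases`, `integral_const_mul`.
-/

namespace Vale.Agent.P219

open scoped ContDiff Topology RealInnerProductSpace ENNReal
open MeasureTheory Set Filter Vale.Agent.P255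
open St (sn gmod)

variable {E : Type*} [NormedAddCommGroup E] [InnerProductSpace ℝ E] [FiniteDimensional ℝ E]
  [MeasurableSpace E] [BorelSpace E] {G : E → Bil E} {L : E → E → E} {K : Set E} {m : ℕ}
  {b H₀ σ t₀ C S c : ℝ} {u : E → E → ℝ} {μ : Measure (E × E)}

theorem PackK.bal (hE : Module.finrank ℝ E = m + 1) (hP : PackK b G L) (hc : 0 < c)
    (h : Sp1 m b H₀ G (uu b G L) (KB G L c) μ t₀ C) (a : E → ℝ) (ha : Continuous a)
    (h0 : ∀ y, 0 ≤ a y) (h1 : ∫ z, a z.1 ∂μ = 1) : ∃ p ∈ KB G L c, ∃ s : ℝ, 0 < s ∧ b ^ 2 * s < 2 ∧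
      ∃ Θ, Bal m b G μ (uu b G L p) s a Θ := by
  obtain ⟨p, hp, s, hs, hs2, hmin⟩ := h.exists_min ha h0 h1
  have c1 := h.toSp0.crit_s ha hs hs2 (hmin p hp)
  have c2 := hP.toPack.crit_p hc h.toSp0 ha h0 hp hs _ fun p' hp' => hmin p' hp' s hs hs2
  have hB := posB_of_loc hP.loc p
  have : Nontrivial E := Module.nontrivial_of_finrank_pos (R := ℝ) (by omega)
  obtain ⟨v, hv⟩ := exists_ne (0 : E)
  have h2 := hB.2 v hv
  have h3 : G p ((√(G p v v))⁻¹ • v) ((√(G p v v))⁻¹ • v) = 1 := by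
    simp only [map_smul, smul_apply, smul_eq_mul]
    rw [← mul_assoc, ← mul_inv, Real.mul_self_sqrt h2.le, inv_mul_cancel₀ h2.ne']
  obtain ⟨e, -, -, he, -⟩ := exists_onb hE hB h3
  refine ⟨p, hp, s, hs, hs2, omg b G L p s e, hP.toPack.omg_smooth p hs e,
    hP.toPack.omg_unit p hs hs2 he, ?_, fun i => ?_⟩
  · filter_upwards [h.ae_ne hp, h.toSp0.ae_mem] with z h4 h5
    exact Gt_sum hE hP.loc h5.2 (hP.omg_grad h4 hs hs2 he)
  · refine Fin.cases c1 (fun j => ?_) i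
    simp only [omg, Fin.cases_succ, mul_left_comm _ (kk b s)]
    rw [integral_const_mul, c2, mul_zero]

end Vale.Agent.P219
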