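import Vale.Agent.P219.S.Kk
import Vale.Agent.P219.S.Gam

/-!
# Basic consequences of `Sp0`  (TASK)

Integrability: continuous functions are bounded on the compact set `UB G K` (`isCompact_UB`; copy `NDom.integrable`, `NDom.integrable_prod` of `G/Norm`).
`Tf` is linear in `φ` (`Gt_lin`, `integral_add`, `integral_const_mul`); `Tf_mono` is `fv` for `a φ₀ - φ`.  `Tf_zero`: on the compact `K`, `|ζ| ≤ a φ₀` for large `a`;
apply `Tf_mono` to `ζ` and `-ζ`.
-/

namespace Vale.Agent.P219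

open scoped ContDiff Topology RealInnerProductSpace ENNReal
open MeasureTheory Set Filter Vale.Agent.P255
open St (sn gmod)

variable {E : Type*} [NormedAddCommGroup E] [InnerProductSpace ℝ E] [FiniteDimensional ℝ E]
  [MeasurableSpace E] [BorelSpace E] {G : E → Bil E} {L : E → E → E} {K : Set E} {m : ℕ}
  {b H₀ σ t₀ C S c : ℝ} {u : E → E → ℝ} {μ : Measure (E × E)}

theorem Sp0.contDiff (h : Sp0 m b H₀ G u K μ) (p : E) : ContDiff ℝ ∞ (u p) :=
  h.smooth.comp (f := fun y : E => (p, y)) (contDiff_const.prodMk contDiff_id)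

theorem Sp0.cd2 (h : Sp0 m b H₀ G u K μ) (p : E) : ContDiff ℝ 2 (u p) :=
  contDiff_infty.1 (h.contDiff p) 2

theorem Sp0.cont (h : Sp0 m b H₀ G u K μ) : Continuous fun z : E × E => u z.1 z.2 := h.smooth.continuous

theorem Sp0.ae_mem (h : Sp0 m b H₀ G u K μ) : ∀ᵐ z ∂μ, z.1 ∈ K ∧ G z.1 z.2 z.2 = 1 := h.supp

theorem Sp0.integrable (h : Sp0 m b H₀ G u K μ) {φ : E × E → ℝ} (hφ : Continuous φ) :
    Integrable φ μ := by
  have := h.fin
  obtain ⟨M, hM⟩ := (isCompact_UB h.loc h.cpt).exists_bound_of_continuousOn hφ.continuousOn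
  exact (integrable_const M).mono' hφ.aestronglyMeasurable (h.supp.mono fun z hz => hM z hz)

theorem Sp0.bdd (h : Sp0 m b H₀ G u K μ) {φ : E × E → ℝ} (hφ : Continuous φ) :
    ∃ M : ℝ, ∀ᵐ z ∂μ, |φ z| ≤ M := by
  obtain ⟨M, hM⟩ := (isCompact_UB h.loc h.cpt).exists_bound_of_continuousOn hφ.continuousOn
  exact ⟨M, h.supp.mono fun z hz => hM z hz⟩

theorem Sp0.integrable_prod (h : Sp0 m b H₀ G u K μ) (T : Set (E × E))
    {φ : (E × E) × (E × E) → ℝ} (hφ : Continuous φ) : Integrable φ ((μ.restrict T).prod μ) := by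
  have := h.fin
  obtain ⟨M, hM⟩ := ((isCompact_UB h.loc h.cpt).prod
    (isCompact_UB h.loc h.cpt)).exists_bound_of_continuousOn hφ.continuousOn
  have h1 : ∀ᵐ z ∂(μ.restrict T).prod μ, z.1 ∈ UB G K ∧ z.2 ∈ UB G K :=
    (Measure.quasiMeasurePreserving_fst.ae (ae_restrict_of_ae h.supp)).and
      (Measure.quasiMeasurePreserving_snd.ae h.supp)
  exact (integrable_const M).mono' hφ.aestronglyMeasurable (h1.mono fun z hz => hM z hz)

theorem Sp0.continuous_int (h : Sp0 m b H₀ G u K μ) {X : Type*} [TopologicalSpace X]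
    [FirstCountableTopology X] [LocallyCompactSpace X] (T : Set (E × E))
    {φ : X × (E × E) → ℝ} (hφ : Continuous φ) :
    Continuous fun x => ∫ z in T, φ (x, z) ∂μ := by
  have := h.fin
  have h1 := continuous_parametric_integral_of_continuous (μ := μ.restrict T)
    (f := fun x z => φ (x, z)) hφ (isCompact_UB h.loc h.cpt)
  rwa [Measure.restrict_eq_self_of_ae_mem (ae_restrict_of_ae h.supp)] at h1

theorem Sp0.u_le (h : Sp0 m b H₀ G u K μ) : ∃ U : ℝ, 0 < U ∧ ∀ x ∈ K, ∀ y ∈ K, u x y ≤ U := by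
  obtain ⟨M, hM⟩ := (h.cpt.prod h.cpt).exists_bound_of_continuousOn h.cont.continuousOn
  exact ⟨max M 1, lt_max_of_lt_right one_pos, fun x hx y hy =>
    ((le_abs_self _).trans (hM (x, y) ⟨hx, hy⟩)).trans (le_max_left _ _)⟩

theorem Sp0.Gt_u_le (h : Sp0 m b H₀ G u K μ) (p : E) (z : E × E) :
    Gt G (u p) (u p) z ≤ u p z.1 * (2 + b ^ 2 * u p z.1) := by
  have := h.eik p z
  have := sq_nonneg (wn (u p) z)
  linarith

theorem Sp0.wn_sq_le (h : Sp0 m b H₀ G u K μ) (p : E) {z : E × E} (hz : G z.1 z.2 z.2 = 1) :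
    wn (u p) z ^ 2 ≤ u p z.1 * (2 + b ^ 2 * u p z.1) := by
  have := h.eik p z
  have := Gt_nonneg h.loc (u p) hz
  linarith

theorem Sp0.continuous_Mk (h : Sp0 m b H₀ G u K μ) {g : E → ℝ} (hg : Continuous g) {t : ℝ}
    (ht : 0 < t) : Continuous fun y => Mk m b μ (u y) t g := by
  have h0 : Continuous fun w : E × (E × E) => u w.1 w.2.1 :=
    h.cont.comp (f := fun w : E × (E × E) => (w.1, w.2.1)) (by fun_prop)
  have h1 := h.continuous_int univ
    (φ := fun w : E × (E × E) => g w.2.1 * (kk b t / (u w.1 w.2.1 + t)) ^ m)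
    ((hg.comp (by fun_prop)).mul ((continuous_const.div (h0.add continuous_const)
      fun w => (add_pos_of_nonneg_of_pos (h.nonneg _ _) ht).ne').pow m))
  rw [Measure.restrict_univ] at h1
  exact h1

theorem Sp0.base_i1 (h : Sp0 m b H₀ G u K μ) (p : E) {φ : E → ℝ} (hφ : ContDiff ℝ 2 φ) :
    Integrable (fun z : E × E => φ z.1 * wn (u p) z) μ :=
  h.integrable ((hφ.continuous.comp continuous_fst).mul
    (continuous_wn ((h.cd2 p).of_le one_le_two)))

theorem Sp0.base_i2 (h : Sp0 m b H₀ G u K μ) (p : E) {φ : E → ℝ} (hφ : ContDiff ℝ 2 φ) :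
    Integrable (fun z : E × E => m * (1 + b ^ 2 * u p z.1) * φ z.1 + Gt G φ (u p) z) μ :=
  h.integrable (((continuous_const.mul (continuous_const.add (continuous_const.mul
    ((h.cd2 p).continuous.comp continuous_fst)))).mul (hφ.continuous.comp continuous_fst)).add
    (continuous_Gt h.loc (hφ.of_le one_le_two) ((h.cd2 p).of_le one_le_two)))

theorem Sp0.Tf_lin (h : Sp0 m b H₀ G u K μ) (p : E) {φ ψ : E → ℝ} (hφ : ContDiff ℝ 2 φ)
    (hψ : ContDiff ℝ 2 ψ) (a a' : ℝ) :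
    Tf m b H₀ G μ (u p) (fun y => a * φ y + a' * ψ y) =
      a * Tf m b H₀ G μ (u p) φ + a' * Tf m b H₀ G μ (u p) ψ := by
  have e1 : ∫ z, (a * φ z.1 + a' * ψ z.1) * wn (u p) z ∂μ =
      a * ∫ z, φ z.1 * wn (u p) z ∂μ + a' * ∫ z, ψ z.1 * wn (u p) z ∂μ := by
    rw [← integral_const_mul, ← integral_const_mul,
      ← integral_add ((h.base_i1 p hφ).const_mul a) ((h.base_i1 p hψ).const_mul a')]
    exact integral_congr_ae (ae_of_all _ fun z => by ring)
  have e2 : ∫ z, (m * (1 + b ^ 2 * u p z.1) * (a * φ z.1 + a' * ψ z.1) +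
      Gt G (fun y => a * φ y + a' * ψ y) (u p) z) ∂μ =
      a * ∫ z, (m * (1 + b ^ 2 * u p z.1) * φ z.1 + Gt G φ (u p) z) ∂μ +
        a' * ∫ z, (m * (1 + b ^ 2 * u p z.1) * ψ z.1 + Gt G ψ (u p) z) ∂μ := by
    rw [← integral_const_mul, ← integral_const_mul,
      ← integral_add ((h.base_i2 p hφ).const_mul a) ((h.base_i2 p hψ).const_mul a')]
    refine integral_congr_ae (ae_of_all _ fun z => ?_)
    have h1 : fderiv ℝ (fun y => a * φ y + a' * ψ y) z.1 =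
        a • fderiv ℝ φ z.1 + a' • fderiv ℝ ψ z.1 :=
      (((hφ.differentiable two_ne_zero z.1).hasFDerivAt.const_mul a).fun_add
        ((hψ.differentiable two_ne_zero z.1).hasFDerivAt.const_mul a')).fderiv
    beta_reduce
    rw [Gt_lin h1]
    ring
  simp only [Tf]
  rw [e1, e2]
  ring

theorem Sp0.Tf_mono (h : Sp0 m b H₀ G u K μ) {p : E} (hp : p ∈ K) {φ φ₀ : E → ℝ}
    (hφ : ContDiff ℝ 2 φ) (h₀ : ContDiff ℝ 2 φ₀) {a a' : ℝ} (hle : ∀ y ∈ K, a' * φ y ≤ a * φ₀ y) :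
    a' * Tf m b H₀ G μ (u p) φ ≤ a * Tf m b H₀ G μ (u p) φ₀ := by
  have h1 := h.fv p hp (fun y => a * φ₀ y + -a' * φ y)
    ((contDiff_const.mul h₀).add (contDiff_const.mul hφ)) fun y hy => by
      have := hle y hy
      linarith
  rw [h.Tf_lin p h₀ hφ] at h1
  linarith

theorem Sp0.Tf_zero (h : Sp0 m b H₀ G u K μ) {p : E} (hp : p ∈ K) {φ₀ : E → ℝ}
    (h₀ : ContDiff ℝ 2 φ₀) (hpos : ∀ y, 0 < φ₀ y) (hz : Tf m b H₀ G μ (u p) φ₀ = 0) {ζ : E → ℝ}
    (hζ : ContDiff ℝ 2 ζ) : Tf m b H₀ G μ (u p) ζ = 0 := by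
  obtain ⟨M, hM⟩ := h.cpt.exists_bound_of_continuousOn (f := fun y => ζ y / φ₀ y)
    (hζ.continuous.div h₀.continuous fun y => (hpos y).ne').continuousOn
  have h1 : ∀ y ∈ K, |ζ y| ≤ M * φ₀ y := fun y hy => by
    have h2 := hM y hy
    rwa [Real.norm_eq_abs, abs_div, abs_of_pos (hpos y), div_le_iff₀ (hpos y)] at h2
  have h2 := h.Tf_mono hp hζ h₀ (a := M) (a' := 1) fun y hy => by
    have := (abs_le.1 (h1 y hy)).2
    linarith
  have h3 := h.Tf_mono hp hζ h₀ (a := M) (a' := -1) fun y hy => by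
    have := (abs_le.1 (h1 y hy)).1
    linarith
  rw [hz] at h2 h3
  linarith

theorem Sp0.df1_nonneg (h : Sp0 m b H₀ G u K μ) (p : E) {s : ℝ} (hs : 0 < s) (f : E → ℝ) :
    0 ≤ df1 m b G μ (u p) s f :=
  integral_nonneg_of_ae (h.ae_mem.mono fun z hz =>
    mul_nonneg (pow_nonneg (cf_nonneg (h.nonneg p) hs z.1) _) (Gt_nonneg h.loc _ hz.2))

theorem df2_nonneg (H₀ : ℝ) (μ : Measure (E × E)) (v : E → ℝ) (s : ℝ) (f : E → ℝ) :
    0 ≤ df2 H₀ μ v s f :=
  integral_nonneg fun _ => mul_nonneg (sq_nonneg _) (sq_nonneg _)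

theorem Sp0.df3_nonneg (h : Sp0 m b H₀ G u K μ) {p : E} (hp : p ∈ K) {s : ℝ} (hs : 0 < s)
    {f : E → ℝ} (hf : ContDiff ℝ 2 f) : 0 ≤ df3 m b H₀ G μ (u p) s f :=
  h.fv p hp _ ((hf.pow 2).div ((h.cd2 p).add contDiff_const)
    fun y => (add_pos_of_nonneg_of_pos (h.nonneg p y) hs).ne')
    fun y _ => div_nonneg (sq_nonneg _) (add_pos_of_nonneg_of_pos (h.nonneg p y) hs).le

theorem Sp0.Yf_eq (h : Sp0 m b H₀ G u K μ) (α : ℝ) {f : E → ℝ} (hf : ContDiff ℝ 2 f) :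
    Yf G μ α f = ∫ z, Gt G f f z ∂μ + α * ∫ z, f z.1 ^ 2 ∂μ := by
  rw [← integral_const_mul]
  exact integral_add
    (h.integrable (continuous_Gt h.loc (hf.of_le one_le_two) (hf.of_le one_le_two)))
    (h.integrable (continuous_const.mul ((hf.continuous.comp continuous_fst).pow 2)))

theorem Sp0.Yf_smul (h : Sp0 m b H₀ G u K μ) (α a : ℝ) {f : E → ℝ} (hf : ContDiff ℝ 2 f) :
    Yf G μ α (fun y => a * f y) = a ^ 2 * Yf G μ α f := by
  rw [Yf, Yf, ← integral_const_mul]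
  refine integral_congr_ae (ae_of_all _ fun z => ?_)
  have h1 : fderiv ℝ (fun y => a * f y) z.1 = a • fderiv ℝ f z.1 :=
    ((hf.differentiable two_ne_zero z.1).hasFDerivAt.const_mul a).fderiv
  beta_reduce
  rw [Gt_lin' h1, Gt_symm h.loc, Gt_lin' h1]
  ring

theorem Sp0.Yf_nonneg (h : Sp0 m b H₀ G u K μ) {α : ℝ} (hα : 0 ≤ α) (f : E → ℝ) :
    0 ≤ Yf G μ α f :=
  integral_nonneg_of_ae (h.ae_mem.mono fun _ hz =>
    add_nonneg (Gt_nonneg h.loc _ hz.2) (mul_nonneg hα (sq_nonneg _)))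

theorem Nq_smul (m : ℕ) (μ : Measure (E × E)) (a : ℝ) (f : E → ℝ) :
    Nq m μ (fun y => a * f y) = |a| ^ qE m * Nq m μ f := by
  rw [Nq, Nq, ← integral_const_mul]
  refine integral_congr_ae (ae_of_all _ fun z => ?_)
  beta_reduce
  rw [abs_mul, Real.mul_rpow (abs_nonneg _) (abs_nonneg _)]

theorem Nq_nonneg (m : ℕ) (μ : Measure (E × E)) (f : E → ℝ) : 0 ≤ Nq m μ f :=
  integral_nonneg fun _ => Real.rpow_nonneg (abs_nonneg _) _

end Vale.Agent.P219
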