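import Vale.Agent.P219.S.Base

/-!
# Consequences of the upper density bound  (TASK)

`(k / R)^m = k^(m-2) / R^(m-1) * (k² / R)` and `k² ≤ 2 s`, so `k² / R ≤ 2`, and `≤ 2 / D` where `D s < u`.  `ball`: on the set `R ≤ (D + 1) s ≤ (D + 1) k²`, so the integrand of `ud` is at least
`1 / ((D + 1)^(m-1) k^m)` (`setIntegral_le_integral`, `setIntegral_const`).  `small`: `ball` with `D = 1`, `k ≤ √(2 s)`.  `ae_ne`: `{z | z.1 = p} ⊆ {z | u p z.1 ≤ δ}` (`self`).
-/

namespace Vale.Agent.P219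

open scoped ContDiff Topology RealInnerProductSpace ENNReal
open MeasureTheory Set Filter Vale.Agent.P255
open St (sn gmod)

variable {E : Type*} [NormedAddCommGroup E] [InnerProductSpace ℝ E] [FiniteDimensional ℝ E]
  [MeasurableSpace E] [BorelSpace E] {G : E → Bil E} {L : E → E → E} {K : Set E} {m : ℕ}
  {b H₀ σ t₀ C S c : ℝ} {u : E → E → ℝ} {μ : Measure (E × E)}

theorem Na_contu (h : Sp0 m b H₀ G u K μ) (x : E) : Continuous fun z : E × E => u x z.1 :=
  (h.contDiff x).continuous.comp continuous_fst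

theorem Na_pos (h : Sp0 m b H₀ G u K μ) (x y : E) {t : ℝ} (ht : 0 < t) : 0 < u x y + t :=
  add_pos_of_nonneg_of_pos (h.nonneg _ _) ht

theorem Na_int1 (h : Sp0 m b H₀ G u K μ) (x : E) {t : ℝ} (ht : 0 < t) :
    Integrable (fun z : E × E => cf b (u x) t z.1 ^ m) μ :=
  h.integrable ((continuous_const.div ((Na_contu h x).add continuous_const)
    fun z => (Na_pos h x z.1 ht).ne').pow m)

theorem Na_int2 (h : Sp0 m b H₀ G u K μ) (x : E) {t : ℝ} (ht : 0 < t) :
    Integrable (fun z : E × E => kk b t ^ (m - 2) / (u x z.1 + t) ^ (m - 1)) μ :=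
  h.integrable (continuous_const.div (((Na_contu h x).add continuous_const).pow _)
    fun z => (pow_pos (Na_pos h x z.1 ht) _).ne')

theorem Na_nonneg (h : Sp0 m b H₀ G u K μ) (x : E) {t : ℝ} (ht : 0 < t) (z : E × E) :
    0 ≤ kk b t ^ (m - 2) / (u x z.1 + t) ^ (m - 1) :=
  div_nonneg (pow_nonneg (kk_nonneg _ _) _) (pow_pos (Na_pos h x z.1 ht) _).le

theorem Na_pt (h : Sp0 m b H₀ G u K μ) (x : E) {t a : ℝ} (ht : 0 < t) (z : E × E)
    (ha : 2 * t ≤ a * (u x z.1 + t)) :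
    cf b (u x) t z.1 ^ m ≤ a * (kk b t ^ (m - 2) / (u x z.1 + t) ^ (m - 1)) := by
  have hp := Na_pos h x z.1 ht
  have h0 := Na_nonneg h x ht z
  have h1 : kk b t ^ 2 / (u x z.1 + t) ≤ a := by
    rw [div_le_iff₀ hp]
    exact (kk_sq_le ht.le).trans ha
  refine le_trans (le_of_eq ?_) (mul_le_mul_of_nonneg_right h1 h0)
  obtain ⟨n, rfl⟩ : ∃ n, m = n + 3 := ⟨m - 3, by have := h.three; omega⟩
  have e1 : n + 3 - 2 = n + 1 := rfl
  have e2 : n + 3 - 1 = n + 2 := rfl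
  rw [e1, e2, cf, div_pow]
  field_simp
  ring

theorem Sp1.Mk_le (h : Sp1 m b H₀ G u K μ t₀ C) {x : E} (hx : x ∈ K) {t : ℝ} (ht : 0 < t)
    (ht0 : t ≤ t₀) : ∫ z, cf b (u x) t z.1 ^ m ∂μ ≤ 2 * C := by
  refine (integral_mono (Na_int1 h.toSp0 x ht) ((Na_int2 h.toSp0 x ht).const_mul 2)
    fun z => Na_pt h.toSp0 x ht z ?_).trans ?_
  · have := h.nonneg x z.1
    linarith
  · rw [integral_const_mul]
    have := h.ud x hx t ht ht0
    linarith

theorem Sp1.far (h : Sp1 m b H₀ G u K μ t₀ C) {x : E} (hx : x ∈ K) {t D : ℝ} (ht : 0 < t)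
    (ht0 : t ≤ t₀) (hD : 0 < D) : cms m b μ (u x) t {z | D * t < u x z.1} ≤ 2 * C / D := by
  have hD2 : 0 ≤ 2 / D := by positivity
  unfold cms
  refine (setIntegral_mono_on (Na_int1 h.toSp0 x ht).integrableOn
    ((Na_int2 h.toSp0 x ht).const_mul (2 / D)).integrableOn
    (isOpen_lt continuous_const (Na_contu h.toSp0 x)).measurableSet
    fun z hz => Na_pt h.toSp0 x ht z ?_).trans ?_
  · have hz' : D * t < u x z.1 := hz
    rw [div_mul_eq_mul_div, le_div_iff₀ hD]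
    linarith
  · refine (setIntegral_le_integral ((Na_int2 h.toSp0 x ht).const_mul (2 / D))
      (Eventually.of_forall fun z => mul_nonneg hD2 (Na_nonneg h.toSp0 x ht z))).trans ?_
    rw [integral_const_mul, mul_div_right_comm]
    exact mul_le_mul_of_nonneg_left (h.ud x hx t ht ht0) hD2

theorem Sp1.ball (h : Sp1 m b H₀ G u K μ t₀ C) {x : E} (hx : x ∈ K) {t D : ℝ} (ht : 0 < t)
    (ht0 : t ≤ t₀) (hD : 0 < D) :
    μ.real {z | u x z.1 ≤ D * t} ≤ C * (D + 1) ^ (m - 1) * kk b t ^ m := by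
  have := h.fin
  have hb : b ^ 2 * t ≤ 1 := (mul_le_mul_of_nonneg_left ht0 (sq_nonneg b)).trans h.t_le
  have hk : 0 < kk b t := kk_pos ht (by linarith)
  have hQ : 0 < (D + 1) ^ (m - 1) * kk b t ^ m := by positivity
  have h1 : ∫ z in {z : E × E | u x z.1 ≤ D * t}, ((D + 1) ^ (m - 1) * kk b t ^ m)⁻¹ ∂μ ≤ C := by
    refine (setIntegral_mono_on (integrable_const _).integrableOn
      (Na_int2 h.toSp0 x ht).integrableOn
      (isClosed_le (Na_contu h.toSp0 x) continuous_const).measurableSet fun z hz => ?_).trans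
      ((setIntegral_le_integral (Na_int2 h.toSp0 x ht)
        (Eventually.of_forall fun z => Na_nonneg h.toSp0 x ht z)).trans (h.ud x hx t ht ht0))
    have hz' : u x z.1 ≤ D * t := hz
    have hp := Na_pos h.toSp0 x z.1 ht
    have h2 : u x z.1 + t ≤ (D + 1) * kk b t ^ 2 := by
      have := mul_le_mul_of_nonneg_left (le_kk_sq ht.le hb) (by linarith : 0 ≤ D + 1)
      linarith
    refine le_trans (le_of_eq ?_) (div_le_div_of_nonneg_left (pow_pos hk _).le (pow_pos hp _)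
      (pow_le_pow_left₀ hp.le h2 (m - 1)))
    obtain ⟨n, rfl⟩ : ∃ n, m = n + 3 := ⟨m - 3, by have := h.three; omega⟩
    have e1 : n + 3 - 2 = n + 1 := rfl
    have e2 : n + 3 - 1 = n + 2 := rfl
    rw [e1, e2, mul_pow]
    field_simp
    ring
  rw [setIntegral_const, smul_eq_mul, ← div_eq_mul_inv, div_le_iff₀ hQ] at h1
  rw [mul_assoc]
  exact h1

theorem Sp1.small (h : Sp1 m b H₀ G u K μ t₀ C) {l : ℝ} (hl : 0 < l) :
    ∃ δ : ℝ, 0 < δ ∧ ∀ x ∈ K, μ.real {z | u x z.1 ≤ δ} ≤ l := by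
  have hm : m ≠ 0 := by have := h.three; omega
  have hc : ContinuousAt (fun t => C * (1 + 1) ^ (m - 1) * kk b t ^ m) 0 :=
    (continuous_const.mul ((continuous_kk b).pow m)).continuousAt
  have h0 : C * (1 + 1) ^ (m - 1) * kk b 0 ^ m < l := by
    rw [kk, zero_mul, Real.sqrt_zero, zero_pow hm, mul_zero]
    exact hl
  obtain ⟨δ, h1, h2⟩ := (((hc.eventually (gt_mem_nhds h0)).filter_mono
    (nhdsWithin_le_nhds (s := Ioi 0))).and (Ioc_mem_nhdsGT h.t_pos)).exists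
  refine ⟨δ, h2.1, fun x hx => ?_⟩
  have h3 := h.ball hx h2.1 h2.2 one_pos
  rw [one_mul] at h3
  exact h3.trans h1.le

theorem Sp1.ae_ne (h : Sp1 m b H₀ G u K μ t₀ C) {p : E} (hp : p ∈ K) : ∀ᵐ z ∂μ, z.1 ≠ p := by
  have := h.fin
  rw [ae_iff, ← measureReal_eq_zero_iff (measure_ne_top _ _)]
  refine le_antisymm (le_of_forall_pos_le_add fun l hl => ?_) measureReal_nonneg
  obtain ⟨δ, hδ, H⟩ := h.small hl
  rw [zero_add]
  refine (measureReal_mono (fun z hz => ?_) (measure_ne_top _ _)).trans (H p hp)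
  have hz' : z.1 = p := not_not.1 hz
  change u p z.1 ≤ δ
  rw [hz', h.self]
  exact hδ.le

end Vale.Agent.P219
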