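import Vale.Agent.P219.S.Der
import Vale.Agent.P219.S.Na

/-!
# Small deficits give a cone  (TASK)

`g = χ ∘ F`, `R = u p + s`, `k = kk b s`, `R' = u p + t ≥ R ≥ s` for `t ∈ [s, Λ s]`, `kk b t ² ≤ 2 Λ s ≤ 2 Λ k²`, so `kk b t^(m-2) ≤ (2Λ)^m k^(m-2)`.  From `Fq_sq`: `g (k / R)^(m-2) ≤ f² / κ²`.
Bound the four terms of `hasDerivAt_Mk`, `Mk_id` times `k^(m-2)`: (1) `g w² / R'^(m+1) ≤ f² (w / R)² / (κ² s)`, `(w / R)² ≤ 2 (w / R - H₀)² + 2 H₀²`; (2) `g |w| / R'^m ≤ f² (|w| / R) / (κ² s)`,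
`|w| / R ≤ (w / R)² + 1`; (3) `|Gt g u| ≤ B |Gt F u|` (`Gt_comp`), `s k^(m-2) / R^m |Gt F u| ≤ cf^(m-2) (Gt F F / (2η) + η / 2 * cf²)` by `Gt_amgm`-type AM-GM with
`s² Gt u u / R⁴ ≤ cf²` (`Gt_u_le`, `kk_unit`: `k² u (2 + b² u) ≤ R²`, `s ≤ k²`), then `Mk_le`; (4) `Tf_mono`: `k^(m-2) g / R'^m ≤ (1 / (κ² s)) f² / R`.
So `M' t ≤ τ / (Λ s)` on `[s, Λ s]` when `η` and then `δ` are small; mean value inequality (`image_le_of_deriv_right_le_deriv_boundary`, `exists_hasDerivAt_eq_slope`).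
-/

namespace Vale.Agent.P219

open scoped ContDiff Topology RealInnerProductSpace ENNReal
open MeasureTheory Set Filter Vale.Agent.P255
open St (sn gmod)

variable {E : Type*} [NormedAddCommGroup E] [InnerProductSpace ℝ E] [FiniteDimensional ℝ E]
  [MeasurableSpace E] [BorelSpace E] {G : E → Bil E} {L : E → E → E} {K : Set E} {m : ℕ}
  {b H₀ σ t₀ C S c : ℝ} {u : E → E → ℝ} {μ : Measure (E × E)}

theorem Cone_a {n : ℕ} (j : ℕ) {g k R R' : ℝ} (hg : 0 ≤ g) (hk : 0 ≤ k) (hR : 0 < R)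
    (h : R ≤ R') : k ^ n * (g / R' ^ (n + j)) ≤ g * (k / R) ^ n / R ^ j := by
  calc k ^ n * (g / R' ^ (n + j)) ≤ k ^ n * (g / R ^ (n + j)) := by gcongr
    _ = g * (k / R) ^ n / R ^ j := by
      rw [div_pow, pow_add]
      field_simp

theorem Cone_b {P f κ x R s : ℝ} (hP : P * κ ^ 2 ≤ f ^ 2) (hκ : 0 < κ) (hx : 0 ≤ x) (hs : 0 < s)
    (hR : s ≤ R) : P * x / R ≤ 1 / s * (1 / κ ^ 2 * (f ^ 2 * x)) := by
  have h1 : P ≤ f ^ 2 / κ ^ 2 := (le_div_iff₀ (by positivity)).2 hP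
  have h0 : 0 < R := hs.trans_le hR
  calc P * x / R ≤ f ^ 2 / κ ^ 2 * x / R := by gcongr
    _ ≤ f ^ 2 / κ ^ 2 * x / s := by gcongr
    _ = _ := by ring

theorem Cone_pt {m n : ℕ} (hmn : n + 2 = m) {g k R R' s w f κ H B η γ γ' F : ℝ} (hg : 0 ≤ g)
    (hk : 0 ≤ k) (hs : 0 < s) (hsR : s ≤ R) (hR : R ≤ R') (hκ : 0 < κ) (hB : 0 ≤ B)
    (hP : g * (k / R) ^ n * κ ^ 2 ≤ f ^ 2) (hγ : |γ| ≤ B * |γ'|)
    (hγ' : s * |γ'| / R ^ 2 ≤ F / (2 * η) + η / 2 * (k / R) ^ 2) :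
    k ^ n * (m * (g * w ^ 2 / R' ^ (m + 1)) - m * H * (g * w / R' ^ m) + γ / R' ^ m) ≤
      1 / s * (2 * m * (1 + |H|) / κ ^ 2 * (f ^ 2 * (w / R - H) ^ 2) +
        (2 * m * (1 + |H|) * H ^ 2 + m * |H|) / κ ^ 2 * f ^ 2 +
        B / (2 * η) * ((k / R) ^ n * F) + B * η / 2 * (k / R) ^ m) := by
  have h0 : 0 < R := hs.trans_le hsR
  have h0' : 0 < R' := h0.trans_le hR
  have hm : (0 : ℝ) ≤ m := Nat.cast_nonneg m
  generalize (m : ℝ) = M at hm ⊢
  subst hmn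
  have t1 : k ^ n * (g * w ^ 2 / R' ^ (n + 2 + 1)) ≤
      1 / s * (1 / κ ^ 2 * (f ^ 2 * (w / R) ^ 2)) := by
    refine (Cone_a 3 (by positivity) hk h0 hR).trans
      (le_trans (le_of_eq ?_) (Cone_b hP hκ (sq_nonneg _) hs hsR))
    field_simp
  have t2 : k ^ n * (g * |w| / R' ^ (n + 2)) ≤ 1 / s * (1 / κ ^ 2 * (f ^ 2 * |w / R|)) := by
    refine (Cone_a 2 (by positivity) hk h0 hR).trans
      (le_trans (le_of_eq ?_) (Cone_b hP hκ (abs_nonneg _) hs hsR))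
    rw [abs_div, abs_of_pos h0]
    field_simp
  have t3 : k ^ n * (γ / R' ^ (n + 2)) ≤
      1 / s * (B / (2 * η) * ((k / R) ^ n * F) + B * η / 2 * (k / R) ^ (n + 2)) := by
    calc k ^ n * (γ / R' ^ (n + 2)) ≤ k ^ n * (B * |γ'| / R' ^ (n + 2)) := by
          gcongr
          exact (le_abs_self _).trans hγ
      _ ≤ B * |γ'| * (k / R) ^ n / R ^ 2 := Cone_a 2 (by positivity) hk h0 hR
      _ = 1 / s * (B * (k / R) ^ n * (s * |γ'| / R ^ 2)) := by field_simp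
      _ ≤ 1 / s * (B * (k / R) ^ n * (F / (2 * η) + η / 2 * (k / R) ^ 2)) := by gcongr
      _ = _ := by ring
  have t4 : -(H * (k ^ n * (g * w / R' ^ (n + 2)))) ≤ |H| * (k ^ n * (g * |w| / R' ^ (n + 2))) := by
    refine (neg_le_abs _).trans (le_of_eq ?_)
    rw [abs_mul, abs_mul, abs_div, abs_mul, abs_of_nonneg (pow_nonneg hk n), abs_of_nonneg hg,
      abs_of_pos (pow_pos h0' _)]
  generalize w / R = x at t1 t2 ⊢
  have hH := abs_nonneg H
  have t5 : x ^ 2 + |H| * |x| ≤ 2 * (1 + |H|) * (x - H) ^ 2 + (2 * (1 + |H|) * H ^ 2 + |H|) := by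
    have a1 : x ^ 2 ≤ 2 * (x - H) ^ 2 + 2 * H ^ 2 := by nlinarith [sq_nonneg (x - 2 * H)]
    have a2 : |x| ≤ x ^ 2 + 1 := by nlinarith [sq_nonneg (|x| - 1), sq_abs x, abs_nonneg x]
    have a3 := mul_le_mul_of_nonneg_left a2 hH
    have a4 := mul_le_mul_of_nonneg_left a1 (by positivity : 0 ≤ 1 + |H|)
    linarith
  have t6 := mul_le_mul_of_nonneg_left t5 (by positivity : 0 ≤ M * (1 / s * (1 / κ ^ 2 * f ^ 2)))
  have t7 := mul_le_mul_of_nonneg_left t1 hm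
  have t8 := mul_le_mul_of_nonneg_left (t4.trans (mul_le_mul_of_nonneg_left t2 hH)) hm
  linear_combination t3 + t6 + t7 + t8

theorem Cone_gt (h : Sp0 m b H₀ G u K μ) (p : E) {s η : ℝ} (hs : 0 < s) (hs1 : b ^ 2 * s ≤ 1)
    (hη : 0 < η) (F : E → ℝ) {z : E × E} (hz : G z.1 z.2 z.2 = 1) :
    s * |Gt G F (u p) z| / (u p z.1 + s) ^ 2 ≤
      Gt G F F z / (2 * η) + η / 2 * (kk b s / (u p z.1 + s)) ^ 2 := by
  have hu := h.nonneg p z.1
  have hR : 0 < u p z.1 + s := by linarith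
  have h1 := Gt_amgm h.loc F (u p) hz (η := η * s / (u p z.1 + s) ^ 2) (by positivity)
  have h2 := h.Gt_u_le p z
  have h3 := Gt_nonneg h.loc (u p) hz
  have h4 := kk_unit (b := b) hs.le (by linarith) (u p z.1)
  have h5 := le_kk_sq hs.le hs1
  generalize kk b s = k at h4 h5 ⊢
  have h6 : k ^ 2 * Gt G (u p) (u p) z ≤ (u p z.1 + s) ^ 2 := by
    have := mul_le_mul_of_nonneg_left h2 (sq_nonneg k)
    linarith [sq_nonneg (k ^ 2 - (1 - b ^ 2 * s) * (u p z.1 + s))]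
  generalize u p z.1 + s = R at hR h1 h6 ⊢
  generalize Gt G (u p) (u p) z = U at h1 h3 h6 ⊢
  have h7 : s ^ 2 * U ≤ k ^ 2 * R ^ 2 :=
    calc s ^ 2 * U ≤ (k ^ 2) ^ 2 * U := by gcongr
      _ = k ^ 2 * (k ^ 2 * U) := by ring
      _ ≤ k ^ 2 * R ^ 2 := by gcongr
  calc s * |Gt G F (u p) z| / R ^ 2 = s / (2 * R ^ 2) * (2 * |Gt G F (u p) z|) := by field_simp
    _ ≤ s / (2 * R ^ 2) * (Gt G F F z / (η * s / R ^ 2) + η * s / R ^ 2 * U) := by gcongr
    _ = Gt G F F z / (2 * η) + η / (2 * R ^ 4) * (s ^ 2 * U) := by field_simp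
    _ ≤ Gt G F F z / (2 * η) + η / (2 * R ^ 4) * (k ^ 2 * R ^ 2) := by gcongr
    _ = _ := by field_simp

theorem Cone_main (h : Sp1 m b H₀ G u K μ t₀ C) {κ B η δ : ℝ} (hκ : 0 < κ) (hB : 0 < B)
    (hη : 0 < η) {p : E} (hp : p ∈ K) {s t : ℝ} (hs : 0 < s) (hst : s ≤ t) (ht : t ≤ t₀)
    {f : E → ℝ} (hf : ContDiff ℝ 2 f) (hS : Small m b H₀ G μ (u p) s f δ) {χ : ℝ → ℝ}
    (hχ : ContDiff ℝ 2 χ) (h0 : ∀ x, 0 ≤ χ x) (h1 : ∀ x, χ x * κ ^ 2 ≤ x ^ 2)
    (h2 : ∀ x, |deriv χ x| ≤ B) :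
    kk b s ^ (m - 2) * ∫ z, χ (Fq m b (u p) s f z.1) *
      (m * ((1 - b ^ 2 * t) * (u p z.1 + t) - kk b t ^ 2) / (u p z.1 + t) ^ (m + 1)) ∂μ ≤
      1 / s * ((2 * m * (1 + |H₀|) / κ ^ 2 + (2 * m * (1 + |H₀|) * H₀ ^ 2 + m * |H₀|) / κ ^ 2 +
        B / (2 * η) + 1 / κ ^ 2) * δ + B * η * C) := by
  have hmn : m - 2 + 2 = m := by
    have := h.three
    omega
  have ht0 : 0 < t := hs.trans_le hst
  have hb : 0 ≤ b ^ 2 := sq_nonneg b
  have ht1 : b ^ 2 * t ≤ 1 := (mul_le_mul_of_nonneg_left ht hb).trans h.t_le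
  have hs1 : b ^ 2 * s ≤ 1 := (mul_le_mul_of_nonneg_left hst hb).trans ht1
  have hu := h.nonneg p
  have hu2 := h.toSp0.cd2 p
  have hF : ContDiff ℝ 2 (Fq m b (u p) s f) := contDiff_Fq hu hu2 hs (by linarith) hf
  have hP : ∀ y, χ (Fq m b (u p) s f y) * (kk b s / (u p y + s)) ^ (m - 2) * κ ^ 2 ≤ f y ^ 2 :=
    fun y => by
      rw [← Fq_sq h.three hu hs (by linarith : b ^ 2 * s < 2) f y, mul_right_comm]
      exact mul_le_mul_of_nonneg_right (h1 _) (pow_nonneg (cf_nonneg hu hs y) _)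
  have hd1 := hS.one
  unfold df1 at hd1
  generalize Fq m b (u p) s f = F at hF hP hd1 ⊢
  have hg : ContDiff ℝ 2 fun y => χ (F y) := hχ.comp hF
  have hRt : ∀ y, 0 < u p y + t := fun y => by linarith [hu y]
  have hRs : ∀ y, 0 < u p y + s := fun y => by linarith [hu y]
  have hk := kk_nonneg b s
  rw [h.toSp0.Mk_id p hg ht0 (by linarith)]
  have cg : Continuous fun z : E × E => χ (F z.1) := hg.continuous.comp continuous_fst
  have cf' : Continuous fun z : E × E => f z.1 := hf.continuous.comp continuous_fst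
  have cu : Continuous fun z : E × E => u p z.1 := hu2.continuous.comp continuous_fst
  have cw : Continuous (wn (u p)) := continuous_wn (hu2.of_le (by norm_num))
  have cc : Continuous fun z : E × E => cf b (u p) s z.1 :=
    (contDiff_cf hu hu2 hs).continuous.comp continuous_fst
  have cR : ∀ j : ℕ, Continuous fun z : E × E => (u p z.1 + t) ^ j := fun j =>
    (cu.add continuous_const).pow j
  have i1 : Integrable (fun z : E × E => χ (F z.1) * wn (u p) z ^ 2 / (u p z.1 + t) ^ (m + 1)) μ :=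
    h.toSp0.integrable ((cg.mul (cw.pow 2)).div (cR _) fun z => (pow_pos (hRt _) _).ne')
  have i2 : Integrable (fun z : E × E => χ (F z.1) * wn (u p) z / (u p z.1 + t) ^ m) μ :=
    h.toSp0.integrable ((cg.mul cw).div (cR _) fun z => (pow_pos (hRt _) _).ne')
  have i3 : Integrable (fun z : E × E => Gt G (fun y => χ (F y)) (u p) z / (u p z.1 + t) ^ m) μ :=
    h.toSp0.integrable ((continuous_Gt h.loc (hg.of_le (by norm_num))
      (hu2.of_le (by norm_num))).div (cR _) fun z => (pow_pos (hRt _) _).ne')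
  have j1 : Integrable (fun z : E × E => f z.1 ^ 2 * (wn (u p) z / (u p z.1 + s) - H₀) ^ 2) μ :=
    h.toSp0.integrable ((cf'.pow 2).mul
      (((cw.div (cu.add continuous_const) fun z => (hRs _).ne').sub continuous_const).pow 2))
  have j2 : Integrable (fun z : E × E => f z.1 ^ 2) μ := h.toSp0.integrable (cf'.pow 2)
  have j3 : Integrable (fun z : E × E => cf b (u p) s z.1 ^ (m - 2) * Gt G F F z) μ :=
    h.toSp0.integrable ((cc.pow _).mul
      (continuous_Gt h.loc (hF.of_le (by norm_num)) (hF.of_le (by norm_num))))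
  have j4 : Integrable (fun z : E × E => cf b (u p) s z.1 ^ m) μ := h.toSp0.integrable (cc.pow _)
  have key := integral_mono_ae
    ((((i1.const_mul (m : ℝ)).sub (i2.const_mul (m * H₀))).add i3).const_mul (kk b s ^ (m - 2)))
    (((((j1.const_mul (2 * m * (1 + |H₀|) / κ ^ 2)).add
      (j2.const_mul ((2 * m * (1 + |H₀|) * H₀ ^ 2 + m * |H₀|) / κ ^ 2))).add
      (j3.const_mul (B / (2 * η)))).add (j4.const_mul (B * η / 2))).const_mul (1 / s)) (by
      filter_upwards [h.toSp0.ae_mem] with z hz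
      refine Cone_pt hmn (h0 _) hk hs (by linarith [hu z.1]) (by linarith) hκ hB.le (hP z.1)
        ?_ (Cone_gt h.toSp0 p hs hs1 hη F hz.2)
      rw [Gt_comp ((hχ.differentiable (by norm_num)) _).hasDerivAt
        ((hF.differentiable (by norm_num)) _), abs_mul]
      exact mul_le_mul_of_nonneg_right (h2 _) (abs_nonneg _))
  simp only [Pi.add_apply, Pi.sub_apply] at key
  rw [integral_const_mul, integral_const_mul,
    integral_add (by exact (i1.const_mul _).sub (i2.const_mul _)) i3,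
    integral_sub (i1.const_mul _) (i2.const_mul _),
    integral_add (by exact ((j1.const_mul _).add (j2.const_mul _)).add (j3.const_mul _))
      (j4.const_mul _),
    integral_add (by exact (j1.const_mul _).add (j2.const_mul _)) (j3.const_mul _),
    integral_add (j1.const_mul _) (j2.const_mul _)] at key
  simp only [integral_const_mul] at key
  have k4 := h.toSp0.Tf_mono hp (φ := fun y => χ (F y) / (u p y + t) ^ m)
    (φ₀ := fun y => f y ^ 2 / (u p y + s))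
    (hg.div ((hu2.add contDiff_const).pow _) fun y => (pow_pos (hRt y) _).ne')
    ((hf.pow 2).div (hu2.add contDiff_const) fun y => (hRs y).ne')
    (a' := kk b s ^ (m - 2)) (a := 1 / s * (1 / κ ^ 2)) fun y _ => by
      have a1 := Cone_a (n := m - 2) 2 (h0 (F y)) hk (hRs y) (by linarith : _ ≤ u p y + t)
      rw [hmn] at a1
      have a2 := Cone_b (hP y) hκ (x := 1 / (u p y + s)) (by have := hRs y; positivity) hs
        (by linarith [hu y] : s ≤ u p y + s)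
      refine a1.trans (le_trans (le_of_eq ?_) (a2.trans (le_of_eq ?_)))
      · have := (hRs y).ne'
        field_simp
      · ring
  have b1 := mul_le_mul_of_nonneg_left hS.two (by positivity : 0 ≤ 2 * m * (1 + |H₀|) / κ ^ 2)
  have b2 := mul_le_mul_of_nonneg_left hS.l2
    (by positivity : 0 ≤ (2 * m * (1 + |H₀|) * H₀ ^ 2 + m * |H₀|) / κ ^ 2)
  have b3 := mul_le_mul_of_nonneg_left hd1 (by positivity : 0 ≤ B / (2 * η))
  have b4 := mul_le_mul_of_nonneg_left (h.Mk_le hp hs (hst.trans ht)) (by positivity : 0 ≤ B * η / 2)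
  have b5 := mul_le_mul_of_nonneg_left hS.three (by positivity : 0 ≤ 1 / κ ^ 2)
  unfold df2 at b1
  unfold df3 at b5
  have b6 := mul_le_mul_of_nonneg_left (add_le_add (add_le_add (add_le_add (add_le_add b1 b2) b3)
    b4) b5) (by positivity : 0 ≤ 1 / s)
  linear_combination key + k4 + b6

theorem Sp1.cone (h : Sp1 m b H₀ G u K μ t₀ C) {Λ κ B τ : ℝ} (hΛ : 1 ≤ Λ) (hκ : 0 < κ)
    (hB : 0 < B) (hτ : 0 < τ) : ∃ δ : ℝ, 0 < δ ∧ ∀ p ∈ K, ∀ s : ℝ, 0 < s → Λ * s ≤ t₀ →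
      ∀ f : E → ℝ, ContDiff ℝ 2 f → Small m b H₀ G μ (u p) s f δ → ∀ χ : ℝ → ℝ, ContDiff ℝ 2 χ →
        (∀ x, 0 ≤ χ x) → (∀ x, χ x * κ ^ 2 ≤ x ^ 2) → (∀ x, |deriv χ x| ≤ B) →
          Mk m b μ (u p) (Λ * s) (fun y => χ (Fq m b (u p) s f y)) ≤
            Mk m b μ (u p) s (fun y => χ (Fq m b (u p) s f y)) + τ := by
  have hC := h.C_pos
  obtain ⟨A, hA⟩ : ∃ A : ℝ, A = (2 * Λ) ^ (m - 2) := ⟨_, rfl⟩
  have hA0 : 0 < A := by
    rw [hA]
    positivity
  have hΛ0 : 0 < Λ := by linarith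
  obtain ⟨η, hη⟩ : ∃ η : ℝ, η = τ / (2 * Λ * A * B * C) := ⟨_, rfl⟩
  have hη0 : 0 < η := by
    rw [hη]
    positivity
  obtain ⟨D, hD⟩ : ∃ D : ℝ, D = 2 * m * (1 + |H₀|) / κ ^ 2 +
    (2 * m * (1 + |H₀|) * H₀ ^ 2 + m * |H₀|) / κ ^ 2 + B / (2 * η) + 1 / κ ^ 2 := ⟨_, rfl⟩
  have hD0 : 0 < D := by
    rw [hD]
    positivity
  refine ⟨τ / (2 * Λ * A * D), by positivity, fun p hp s hs hst f hf hS χ hχ h0 h1 h2 => ?_⟩
  have hb : 0 ≤ b ^ 2 := sq_nonneg b
  have hsΛ : s ≤ Λ * s := le_mul_of_one_le_left hs.le hΛ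
  have hlt : ∀ t ∈ Icc s (Λ * s), b ^ 2 * t ≤ 1 := fun t ht =>
    (mul_le_mul_of_nonneg_left (ht.2.trans hst) hb).trans h.t_le
  have hs1 := hlt s ⟨le_rfl, hsΛ⟩
  have hg : Continuous fun y => χ (Fq m b (u p) s f y) := hχ.continuous.comp
    (contDiff_Fq (h.nonneg p) (h.toSp0.cd2 p) hs (by linarith) hf).continuous
  have hder := fun t (ht : t ∈ Icc s (Λ * s)) =>
    h.toSp0.hasDerivAt_Mk p hg (hs.trans_le ht.1) (by linarith [hlt t ht])
  have hM := (convex_Icc s (Λ * s)).image_sub_le_mul_sub_of_deriv_le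
    (fun t ht => (hder t ht).continuousAt.continuousWithinAt)
    (fun t ht => (hder t (interior_subset ht)).differentiableAt.differentiableWithinAt)
    (C := τ / (Λ * s)) (fun t ht => by
      have ht' := interior_subset ht
      rw [(hder t ht').deriv]
      have hm := Cone_main h hκ hB hη0 hp hs ht'.1 (ht'.2.trans hst) hf hS hχ h0 h1 h2
      rw [← hD] at hm
      have e : A * (1 / s * (D * (τ / (2 * Λ * A * D)) + B * η * C)) = τ / (Λ * s) := by
        rw [hη]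
        field_simp
        norm_num
      have hk : kk b t ^ (m - 2) ≤ A * kk b s ^ (m - 2) := by
        rw [hA, ← mul_pow]
        refine pow_le_pow_left₀ (kk_nonneg b t) (abs_le_of_sq_le_sq' ?_
          (mul_nonneg (by linarith) (kk_nonneg b s))).2 _
        have a1 := kk_sq_le (b := b) (hs.le.trans ht'.1)
        have a2 := le_kk_sq hs.le hs1
        have a3 := mul_le_mul_of_nonneg_left a2 hΛ0.le
        have a4 : Λ * kk b s ^ 2 ≤ Λ * (Λ * kk b s ^ 2) :=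
          le_mul_of_one_le_left (by positivity) hΛ
        have a5 : 0 ≤ Λ * (Λ * kk b s ^ 2) := by positivity
        have a6 := ht'.2
        rw [mul_pow, mul_pow]
        linarith
      generalize (∫ z, χ (Fq m b (u p) s f z.1) * (m * ((1 - b ^ 2 * t) * (u p z.1 + t) -
        kk b t ^ 2) / (u p z.1 + t) ^ (m + 1)) ∂μ) = X at hm ⊢
      rcases le_total X 0 with hX | hX
      · exact (mul_nonpos_of_nonneg_of_nonpos (pow_nonneg (kk_nonneg b t) _) hX).trans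
          (by positivity)
      · rw [← e]
        refine (mul_le_mul_of_nonneg_right hk hX).trans ?_
        rw [mul_assoc]
        exact mul_le_mul_of_nonneg_left hm hA0.le)
    s ⟨le_rfl, hsΛ⟩ (Λ * s) ⟨hsΛ, le_rfl⟩ hsΛ
  have e : τ / (Λ * s) * (Λ * s - s) ≤ τ := by
    rw [div_mul_eq_mul_div, div_le_iff₀ (by positivity)]
    exact mul_le_mul_of_nonneg_left (by linarith) hτ.le
  linarith

end Vale.Agent.P219
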