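import Vale.Agent.P219.S.Py
import Vale.Agent.P219.S.Na

/-!
# The density bound almost everywhere  (TASK)

`n t y = Mk y t 1 + C₁ t` is monotone in `t` on `(0, t₀]` for `y ∈ K` (`py` with `g = 1`, `Gt_const`).  Given `l`, take `φ, t₁` from `hup`.  For `t' ≤ min t t₁`, a.e.:
`max (n t' - S) 0 ≤ l + C₁ t' + ∫ x, cf^m (1 - φ x)`; integrate, swap (`integral_integral_swap`, `integrable_prod` with `T = univ`, `symm`), `Mk_le`:
`∫ max (n t' - S) 0 ≤ (l + C₁ t') A + 2 C l`.  Since `max (S - n) 0 = max (n - S) 0 - (n - S)` and `hlow`, `∫ max (S - n t) 0 ≤ ∫ max (S - n t') 0 ≤` the same bound.  Let `t', l → 0`; `integral_eq_zero_iff_of_nonneg`.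
-/

namespace Vale.Agent.P219

open scoped ContDiff Topology RealInnerProductSpace ENNReal
open MeasureTheory Set Filter Vale.Agent.P255
open St (sn gmod)

variable {E : Type*} [NormedAddCommGroup E] [InnerProductSpace ℝ E] [FiniteDimensional ℝ E]
  [MeasurableSpace E] [BorelSpace E] {G : E → Bil E} {L : E → E → E} {K : Set E} {m : ℕ}
  {b H₀ σ t₀ C S c : ℝ} {u : E → E → ℝ} {μ : Measure (E × E)}

lemma dens_abs {X : Type*} [MeasurableSpace X] {ν : Measure X} [IsFiniteMeasure ν] {f : X → ℝ}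
    (hf : Integrable f ν) {S : ℝ} (h : ∀ ε : ℝ, 0 < ε → ∃ g : X → ℝ, Integrable g ν ∧
      (∀ᵐ z ∂ν, g z ≤ f z) ∧ S * ν.real univ ≤ ∫ z, g z ∂ν ∧ ∫ z, max (g z - S) 0 ∂ν ≤ ε) :
    ∀ᵐ z ∂ν, S ≤ f z := by
  have hi : Integrable (fun z => max (S - f z) 0) ν := ((integrable_const S).sub hf).pos_part
  have h1 : ∫ z, max (S - f z) 0 ∂ν ≤ 0 := by
    refine le_of_forall_pos_le_add fun ε hε => ?_
    obtain ⟨g, hg, hle, hS, hε'⟩ := h ε hε
    have hj : Integrable (fun z => g z - S) ν := hg.sub (integrable_const S)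
    have hk : Integrable (fun z => max (g z - S) 0) ν := hj.pos_part
    have h2 : ∫ z, max (S - f z) 0 ∂ν ≤ ∫ z, (max (g z - S) 0 - (g z - S)) ∂ν := by
      refine integral_mono_ae hi (hk.sub hj) ?_
      filter_upwards [hle] with z hz
      exact max_le (by linarith [le_max_right (g z - S) 0]) (by linarith [le_max_left (g z - S) 0])
    rw [integral_sub hk hj, integral_sub hg (integrable_const S), integral_const, smul_eq_mul] at h2
    linarith
  have h3 := (integral_eq_zero_iff_of_nonneg (fun z => le_max_right _ _) hi).1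
    (le_antisymm h1 (integral_nonneg fun z => le_max_right _ _))
  filter_upwards [h3] with z hz
  have h4 : max (S - f z) 0 = 0 := hz
  linarith [le_max_left (S - f z) 0]

lemma dens_cont (h : Sp0 m b H₀ G u K μ) {t : ℝ} (ht : 0 < t) :
    Continuous fun w : (E × E) × (E × E) => cf b (u w.1.1) t w.2.1 ^ m := by
  have h1 : Continuous fun w : (E × E) × (E × E) => u w.1.1 w.2.1 :=
    h.cont.comp (continuous_fst.fst.prodMk continuous_snd.fst)
  exact (continuous_const.div (h1.add continuous_const) fun w =>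
    (add_pos_of_nonneg_of_pos (h.nonneg _ _) ht).ne').pow m

lemma dens_swap (h : Sp1 m b H₀ G u K μ t₀ C) {t : ℝ} (ht : 0 < t) (ht0 : t ≤ t₀)
    {ψ : E × E → ℝ} (hψ : Continuous ψ) (h0 : ∀ᵐ z ∂μ, 0 ≤ ψ z) :
    Integrable (fun z : E × E => ∫ x, cf b (u z.1) t x.1 ^ m * ψ x ∂μ) μ ∧
      ∫ z, ∫ x, cf b (u z.1) t x.1 ^ m * ψ x ∂μ ∂μ ≤ 2 * C * ∫ x, ψ x ∂μ := by
  have := h.fin
  have h1 := h.toSp0.integrable_prod univ ((dens_cont h.toSp0 ht).mul (hψ.comp continuous_snd))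
  rw [Measure.restrict_univ] at h1
  refine ⟨h1.integral_prod_left, ?_⟩
  have h2 := integral_integral_swap (μ := μ) (ν := μ)
    (f := fun z x : E × E => cf b (u z.1) t x.1 ^ m * ψ x) h1
  rw [h2, ← integral_const_mul]
  refine integral_mono_ae h1.integral_prod_right ((h.toSp0.integrable hψ).const_mul _) ?_
  filter_upwards [h0, h.toSp0.ae_mem] with x hx hK
  have e : ∀ z : E × E, cf b (u z.1) t x.1 = cf b (u x.1) t z.1 := fun z => by
    simp only [cf, h.symm z.1 x.1]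
  simp only [e]
  rw [integral_mul_const]
  exact mul_le_mul_of_nonneg_right (h.Mk_le hK.1 ht ht0) hx

theorem Sp1.dens_of (h : Sp1 m b H₀ G u K μ t₀ C)
    (hlow : ∀ t : ℝ, 0 < t → t ≤ t₀ → S * μ.real univ ≤
      ∫ z, (Mk m b μ (u z.1) t (fun _ => 1) + m * H₀ ^ 2 / 4 * C * t) ∂μ)
    (hup : ∀ l : ℝ, 0 < l → ∃ (φ : E × E → ℝ) (t₁ : ℝ), Continuous φ ∧ (∀ᵐ z ∂μ, φ z ≤ 1) ∧
      μ.real univ - l ≤ ∫ z, φ z ∂μ ∧ 0 < t₁ ∧ ∀ t : ℝ, 0 < t → t ≤ t₁ → ∀ y ∈ K,
        ∫ z, cf b (u y) t z.1 ^ m * φ z ∂μ ≤ S + l)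
    {t : ℝ} (ht : 0 < t) (ht0 : t ≤ t₀) :
    ∀ᵐ z ∂μ, S ≤ Mk m b μ (u z.1) t (fun _ => 1) + m * H₀ ^ 2 / 4 * C * t := by
  have := h.fin
  have hC := h.C_pos
  have hi : ∀ s : ℝ, 0 < s → Integrable (fun z : E × E =>
      Mk m b μ (u z.1) s (fun _ => 1) + m * H₀ ^ 2 / 4 * C * s) μ := fun s hs =>
    h.toSp0.integrable (((h.toSp0.continuous_Mk continuous_const hs).comp continuous_fst).add
      continuous_const)
  have hC₁ : 0 ≤ m * H₀ ^ 2 / 4 * C := by positivity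
  have hA : 0 ≤ μ.real univ := measureReal_nonneg
  refine dens_abs (hi t ht) fun ε hε => ?_
  generalize hc : m * H₀ ^ 2 / 4 * C = C₁ at hC₁
  obtain ⟨l, hl, hlε⟩ : ∃ l : ℝ, 0 < l ∧ l * (μ.real univ + C₁ * μ.real univ + 2 * C) ≤ ε :=
    ⟨ε / (μ.real univ + C₁ * μ.real univ + 2 * C), by positivity,
      (div_mul_cancel₀ _ (by positivity)).le⟩
  obtain ⟨φ, t₁, hφ, hφ1, hφ2, ht₁, hup⟩ := hup l hl
  obtain ⟨s, hs, hs1, hs2, hs3⟩ : ∃ s : ℝ, 0 < s ∧ s ≤ t ∧ s ≤ t₁ ∧ s ≤ l :=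
    ⟨min t (min t₁ l), lt_min ht (lt_min ht₁ hl), min_le_left _ _,
      (min_le_right _ _).trans (min_le_left _ _), (min_le_right _ _).trans (min_le_right _ _)⟩
  have hψ : Continuous fun z => 1 - φ z := continuous_const.sub hφ
  have hψ0 : ∀ᵐ z ∂μ, 0 ≤ 1 - φ z := hφ1.mono fun z hz => sub_nonneg.2 hz
  obtain ⟨hW, hW'⟩ := dens_swap h hs (hs1.trans ht0) hψ hψ0
  rw [integral_sub (integrable_const _) (h.toSp0.integrable hφ), integral_const, smul_eq_mul,
    mul_one] at hW'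
  have his := hi s hs
  have hls := hlow s hs (hs1.trans ht0)
  rw [hc] at his hls
  refine ⟨_, his, ?_, hls, ?_⟩
  · filter_upwards [h.toSp0.ae_mem] with z hz
    have h1 := h.py hz.1 (g := fun _ => 1) contDiff_const (fun _ => zero_le_one)
      (fun _ => le_rfl) hs hs1 ht0
    simp only [Gt_const, zero_mul, integral_zero, hc] at h1
    linarith
  · have h1 : ∫ z, max (Mk m b μ (u z.1) s (fun _ => 1) + C₁ * s - S) 0 ∂μ ≤
        ∫ z, ((l + C₁ * l) + ∫ x, cf b (u z.1) s x.1 ^ m * (1 - φ x) ∂μ) ∂μ := by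
      refine integral_mono_ae (his.sub (integrable_const S)).pos_part
        ((integrable_const _).add hW) ?_
      filter_upwards [h.toSp0.ae_mem] with z hz
      have hcz : Continuous fun x : E × E => cf b (u z.1) s x.1 ^ m :=
        (dens_cont h.toSp0 hs).comp (continuous_const.prodMk continuous_id)
      have h2 : 0 ≤ ∫ x, cf b (u z.1) s x.1 ^ m * (1 - φ x) ∂μ :=
        integral_nonneg_of_ae (hψ0.mono fun x hx =>
          mul_nonneg (pow_nonneg (cf_nonneg (h.nonneg _) hs _) _) hx)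
      have h3 : Mk m b μ (u z.1) s (fun _ => 1) = ∫ x, cf b (u z.1) s x.1 ^ m * φ x ∂μ +
          ∫ x, cf b (u z.1) s x.1 ^ m * (1 - φ x) ∂μ := by
        refine Eq.trans ?_ (integral_add (h.toSp0.integrable (hcz.mul hφ))
          (h.toSp0.integrable (hcz.mul hψ)))
        exact integral_congr_ae (Eventually.of_forall fun x => by simp only [Pi.mul_apply]; ring)
      have h4 := hup s hs hs2 z.1 hz.1
      have h5 := mul_le_mul_of_nonneg_left hs3 hC₁
      have h6 := mul_nonneg hC₁ hl.le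
      exact max_le (by linarith) (by linarith)
    rw [integral_add (integrable_const _) hW, integral_const, smul_eq_mul] at h1
    have h7 : 2 * C * (μ.real univ - ∫ z, φ z ∂μ) ≤ 2 * C * l :=
      mul_le_mul_of_nonneg_left (by linarith) (by linarith)
    linarith

end Vale.Agent.P219
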