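import Vale.Agent.P219.G.Exist

/-!
# A smooth field close to the normal  (TASK)

Let `K₁ = cthickening 1 K`.  By uniform continuity (`dist_uc`, `LocMetric.exists_bounds`) there is `η ≤ 1` with `G y v v * wt (G x)² ≤ (1 + l')² G x v v * wt (G y)²` for `y ∈ K`, `‖x - y‖ ≤ η`.  `φ` from `Tight.low`, `w = mol φ Ω`
(smooth, support in `K₁`), `N = fderiv w`, `Z₀ x = (√(N (G⁻¹ N) + ε²))⁻¹ • G⁻¹ N` is `C¹` (`ContinuousLinearMap.IsInvertible.contDiffAt_map_inverse`, see `norm_inv`), vanishes off `K₁`, `G Z₀ Z₀ ≤ 1`, `N Z₀ ≥ dn - ε`.  For `X = wt • Z₀`: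
`∫ ad - ε ∫_{K₁} wt ≤ ∫ N X = -∫ w dvg X` (the integral of `dvg (w • X)` over `E` vanishes: see how `exist_mol` is proved, or use it for the sign) `= -∫ z, ρ z * ∫ y in Ω, dvg X (y + z)` (`mol_apply`, Fubini, translation invariance)
`= ∫ z, ρ z * F z` with `F z = ∫ G ν (-X (· + z)) / wt dμ` (`D.div` for `X (· + z)`).  As `ρ ≥ 0` has integral one and support in `‖z‖ ≤ η`, some `z` with `‖z‖ ≤ η` has `F z ≥ A - 2 l'` (otherwise integrate the strict inequality,
or bound by the supremum over the compact ball of the continuous `F`).  Take `Z y = -((1 + l') wt (G y))⁻¹ • X (y + z)`.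
-/

namespace Vale.Agent.P219

open scoped ContDiff Topology RealInnerProductSpace ENNReal
open MeasureTheory Set Filter Vale.Agent.P255
open St (sn gmod)

variable {E : Type*} [NormedAddCommGroup E] [InnerProductSpace ℝ E] [FiniteDimensional ℝ E]
  [MeasurableSpace E] [BorelSpace E] {G : E → Bil E} {L : E → E → E} {K : Set E} {m : ℕ}
  {b H₀ σ t₀ C S c : ℝ} {u : E → E → ℝ} {μ : Measure (E × E)}

theorem dual_uc {X F : Type*} [PseudoMetricSpace X] [PseudoMetricSpace F] {K : Set X}
    (hK : IsCompact K) {f : X → F} (hf : Continuous f) {ε : ℝ} (hε : 0 < ε) :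
    ∃ δ : ℝ, 0 < δ ∧ ∀ x ∈ K, ∀ y, dist x y ≤ δ → dist (f x) (f y) ≤ ε := by
  obtain ⟨δ, hδ, h⟩ := _root_.Metric.uniformity_basis_dist_le.mem_iff.1
    (hK.uniformContinuousAt_of_continuousAt f (fun a _ => hf.continuousAt)
      (_root_.Metric.uniformity_basis_dist_le.mem_of_mem hε))
  exact ⟨δ, hδ, fun x hx y hy => @h (x, y) hy hx⟩

theorem dual_avg (φ : ContDiffBump (0 : E)) {Ω : Set E} (hS : MeasurableSet Ω) {f : E → ℝ}
    (hf : Integrable f) {a : ℝ} (h : ∀ z : E, ‖z‖ ≤ φ.rOut → a ≤ ∫ y in Ω, f (y + z)) :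
    a ≤ ∫ x, mol φ Ω x * f x := by
  have hm : Measurable (ind Ω) := measurable_one.indicator hS
  have I : Integrable (fun p : E × E => f p.1 * φ.normed volume p.2 * ind Ω (p.1 - p.2))
      ((volume : Measure E).prod volume) :=
    (hf.mul_prod φ.integrable_normed).mul_bdd (c := 1)
      (hm.comp (measurable_fst.sub measurable_snd)).aestronglyMeasurable
      (ae_of_all _ fun p => by
        rw [Real.norm_of_nonneg (l1cpt_ind _ _).1]
        exact (l1cpt_ind _ _).2)
  have e1 : ∀ x, mol φ Ω x * f x = ∫ z, f x * φ.normed volume z * ind Ω (x - z) := fun x => by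
    rw [mol_apply, mul_comm, ← integral_const_mul]
    simp only [mul_assoc]
  have e2 : ∀ z, ∫ x, f x * φ.normed volume z * ind Ω (x - z) =
      φ.normed volume z * ∫ y in Ω, f (y + z) := fun z => by
    rw [← exist_int hS, ← integral_const_mul,
      ← integral_add_right_eq_self (fun x => f x * φ.normed volume z * ind Ω (x - z)) z]
    congr 1
    funext y
    rw [add_sub_cancel_right]
    ring
  have I2 := I.integral_prod_right
  simp only [e2] at I2
  simp only [e1]
  rw [integral_integral_swap I]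
  simp only [e2]
  calc a = ∫ z, φ.normed volume z * a := by
        rw [integral_mul_const, φ.integral_normed, one_mul]
    _ ≤ _ := by
        refine integral_mono (φ.integrable_normed.mul_const a) I2 fun z => ?_
        by_cases hz : ‖z‖ ≤ φ.rOut
        · exact mul_le_mul_of_nonneg_left (h z hz) (φ.nonneg_normed z)
        · have h0 : φ.normed volume z = 0 := by
            by_contra h0
            have h1 : z ∈ Function.support (φ.normed volume) := h0
            rw [φ.support_normed_eq, mem_ball_zero_iff] at h1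
            exact hz h1.le
          simp only [h0, zero_mul, le_refl]

omit [MeasurableSpace E] [BorelSpace E] in
theorem dual_field (hG : LocMetric G univ) {N : E → E →L[ℝ] ℝ} (hN : ContDiff ℝ 1 N) {ε : ℝ}
    (hε : 0 < ε) : ∃ Z : E → E, ContDiff ℝ 1 Z ∧ (∀ x, N x = 0 → Z x = 0) ∧
      (∀ x, G x (Z x) (Z x) ≤ 1) ∧ ∀ x, dn (G x) (N x) - ε ≤ N x (Z x) := by
  have hG1 : ContDiff ℝ 1 G := (contDiffOn_univ.1 hG.smooth).of_le (by exact_mod_cast le_top)
  have hi : ContDiff ℝ 1 fun y => (G y).inverse := contDiff_iff_contDiffAt.2 fun y =>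
    ((posB_of_loc hG y).inv.contDiffAt_map_inverse (n := 1)).comp y hG1.contDiffAt
  have hv : ContDiff ℝ 1 fun y => (G y).inverse (N y) := hi.clm_apply hN
  have e : ∀ y, G y ((G y).inverse (N y)) = N y := fun y =>
    (posB_of_loc hG y).inv.self_apply_inverse (N y)
  have hq : ∀ y, 0 ≤ N y ((G y).inverse (N y)) := fun y => by
    have := (posB_of_loc hG y).nonneg ((G y).inverse (N y))
    rwa [e] at this
  have hp : ∀ y, 0 < N y ((G y).inverse (N y)) + ε ^ 2 := fun y => by
    have := hq y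
    positivity
  have hs : ContDiff ℝ 1 fun y => (√(N y ((G y).inverse (N y)) + ε ^ 2))⁻¹ :=
    (((hN.clm_apply hv).add contDiff_const).sqrt fun y => (hp y).ne').inv
      fun y => (Real.sqrt_pos.2 (hp y)).ne'
  refine ⟨fun y => (√(N y ((G y).inverse (N y)) + ε ^ 2))⁻¹ • (G y).inverse (N y), hs.smul hv,
    fun x hx => by simp only [hx, map_zero, smul_zero], fun x => ?_, fun x => ?_⟩
  · simp only [map_smul, smul_apply, smul_eq_mul, e]
    rw [← mul_assoc, ← mul_inv, Real.mul_self_sqrt (hp x).le, inv_mul_le_iff₀ (hp x)]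
    nlinarith [sq_nonneg ε]
  · simp only [map_smul, smul_eq_mul, dn]
    have h1 := Real.sq_sqrt (hq x)
    have h2 := Real.sqrt_nonneg (N x ((G x).inverse (N x)))
    have h3 := Real.sqrt_pos.2 (hp x)
    have h4 := hq x
    generalize N x ((G x).inverse (N x)) = q at *
    generalize √q = d at *
    have h5 : √(q + ε ^ 2) ≤ d + ε := Real.sqrt_le_iff.2 ⟨by positivity, by nlinarith⟩
    rw [le_inv_mul_iff₀ h3]
    rcases le_total d ε with h | h
    · nlinarith
    · nlinarith [sq_nonneg ε]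

omit [MeasurableSpace E] [BorelSpace E] in
theorem dual_near (hG : LocMetric G univ) (hK : IsCompact K) {θ : ℝ} (hθ : 0 < θ) :
    ∃ η : ℝ, 0 < η ∧ ∀ y ∈ K, ∀ z : E, ‖z‖ ≤ η → ∀ v,
      (1 - θ) * ((wt (G y))⁻¹ ^ 2 * G y v v) ≤ (wt (G (y + z)))⁻¹ ^ 2 * G (y + z) v v := by
  have hw : ∀ y, 0 < wt (G y) := fun y => wt_pos (posB_of_loc hG y)
  have hc0 : ContDiff ℝ ∞ fun y => (wt (G y))⁻¹ ^ 2 :=
    ((contDiff_wt hG).inv fun y => (hw y).ne').pow 2
  have hc1 : ContDiff ℝ ∞ G := contDiffOn_univ.1 hG.smooth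
  have hc : ContDiff ℝ ∞ fun y => (wt (G y))⁻¹ ^ 2 • G y :=
    contDiff_clm_apply_iff.2 fun u => hc0.smul (hc1.clm_apply (contDiff_const (c := u)))
  have hB : LocMetric (fun y => (wt (G y))⁻¹ ^ 2 • G y) univ :=
    ⟨isOpen_univ, hc.contDiffOn, fun y hy u v => by simp only [smul_apply, hG.symm y hy u v],
      fun y hy u hu => by
        simp only [smul_apply, smul_eq_mul]
        exact mul_pos (pow_pos (inv_pos.2 (hw y)) 2) (hG.pos y hy u hu)⟩
  obtain ⟨c, C, hc2, -, H⟩ := hB.exists_bounds hK (subset_univ K)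
  obtain ⟨η, hη, h⟩ := dual_uc hK hc.continuous (mul_pos hθ hc2)
  refine ⟨η, hη, fun y hy z hz v => ?_⟩
  have h1 := h y hy (y + z) (by rwa [dist_self_add_right])
  rw [dist_eq_norm] at h1
  have h2 := ((wt (G y))⁻¹ ^ 2 • G y - (wt (G (y + z)))⁻¹ ^ 2 • G (y + z)).le_opNorm₂ v v
  have h3 := (H y hy v).1
  have h4 := mul_le_mul_of_nonneg_right h1 (mul_nonneg (norm_nonneg v) (norm_nonneg v))
  have h5 := mul_le_mul_of_nonneg_left h3 hθ.le
  have h6 := (le_abs_self _).trans ((Real.norm_eq_abs _).symm.trans_le h2)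
  simp only [sub_apply, smul_apply, smul_eq_mul] at h3 h5 h6
  nlinarith

theorem NDom.Tight.dual (hG : LocMetric G univ) (hK : IsCompact K) {D : NDom G K} (h : D.Tight)
    {l : ℝ} (hl : 0 < l) : ∃ Z : E → E, ContDiff ℝ 1 Z ∧ (∀ y ∈ K, G y (Z y) (Z y) ≤ 1) ∧
      D.A - l ≤ ∫ z, G z.1 z.2 (Z z.1) ∂D.μ := by
  have hA := D.A_nonneg
  have hw : ∀ y, 0 < wt (G y) := fun y => wt_pos (posB_of_loc hG y)
  have hw1 : ContDiff ℝ 1 fun y => wt (G y) := (contDiff_wt hG).of_le (by exact_mod_cast le_top)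
  obtain ⟨θ, hθ, hθ1, hθA⟩ : ∃ θ : ℝ, 0 < θ ∧ θ < 1 ∧ θ * D.A ≤ l / 4 := by
    refine ⟨l / (4 * (D.A + l)), by positivity, ?_, ?_⟩
    · rw [div_lt_one (by positivity)]
      linarith
    · rw [div_mul_eq_mul_div, div_le_iff₀ (by positivity)]
      nlinarith
  obtain ⟨η, hη, hn⟩ := dual_near hG hK hθ
  obtain ⟨φ, hφ, hlow⟩ := h.low hG hK (l := l / 4) (by positivity) hη
  have hK₁ : IsCompact (Metric.cthickening φ.rOut K) := hK.cthickening
  have h1 : ContDiff ℝ 1 (mol φ D.Ω) := (contDiff_mol φ D.meas).of_le (by simp)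
  have h2 := tsupport_mol φ D.sub
  have h3 : HasCompactSupport (mol φ D.Ω) := hK₁.of_isClosed_subset (isClosed_tsupport _) h2
  have hN : ContDiff ℝ 1 (fderiv ℝ (mol φ D.Ω)) :=
    (contDiff_mol φ D.meas).fderiv_right (by
      rw [one_add_one_eq_two]
      exact WithTop.coe_le_coe.2 (le_top (a := (2 : ℕ∞))))
  have hV := vol_nonneg G (Metric.cthickening φ.rOut K)
  obtain ⟨ε, hε, hεV⟩ : ∃ ε : ℝ, 0 < ε ∧ ε * vol G (Metric.cthickening φ.rOut K) ≤ l / 4 := by
    refine ⟨l / (4 * (vol G (Metric.cthickening φ.rOut K) + 1)), by positivity, ?_⟩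
    rw [div_mul_eq_mul_div, div_le_iff₀ (by positivity)]
    nlinarith
  obtain ⟨Z, hZ, hZ0, hZ1, hZ2⟩ := dual_field hG hN hε
  have hX : ContDiff ℝ 1 fun x => wt (G x) • Z x := hw1.smul hZ
  have hXc : HasCompactSupport fun x => wt (G x) • Z x :=
    (h3.fderiv ℝ).mono fun y hy h0 => hy (by simp only [hZ0 y h0, smul_zero])
  generalize hXe : (fun x => wt (G x) • Z x) = X at hX hXc
  have hXe' : ∀ x, X x = wt (G x) • Z x := fun x => by rw [← hXe]
  have h5 : ∫ y, dvg (fun x => mol φ D.Ω x • X x) y = 0 :=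
    integral_dvg_zero (h1.smul hX) h3.smul_right
  have h6 : Integrable fun y => fderiv ℝ (mol φ D.Ω) y (X y) :=
    (hN.continuous.clm_apply hX.continuous).integrable_of_hasCompactSupport
      ((h3.fderiv ℝ).mono fun y hy h0 => hy (by simp [h0]))
  have h7 : Integrable fun y => mol φ D.Ω y * dvg X y :=
    (h1.continuous.mul (continuous_dvg hX)).integrable_of_hasCompactSupport h3.mul_right
  simp only [dvg_smul (h1.differentiable one_ne_zero _) (hX.differentiable one_ne_zero _)] at h5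
  rw [integral_add h6 h7] at h5
  have h8 : Integrable (dvg X) :=
    (continuous_dvg hX).integrable_of_hasCompactSupport
      ((hXc.fderiv ℝ).mono fun y hy h0 => hy (by simp [dvg, h0]))
  have h9 : Integrable fun x => ad (G x) (fderiv ℝ (mol φ D.Ω) x) :=
    ((continuous_ad hG).comp (continuous_id.prodMk hN.continuous)).integrable_of_hasCompactSupport
      ((h3.fderiv ℝ).mono fun y hy h0 => hy (by simp [h0, ad_zero]))
  have h10 : Integrable fun y => ind (Metric.cthickening φ.rOut K) y * wt (G y) :=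
    ((integrable_indicator_iff hK₁.measurableSet).2
      (integrableOn_wt hG hK₁.isBounded)).congr (ae_of_all _ fun y => by
        by_cases h : y ∈ Metric.cthickening φ.rOut K <;> simp [ind, h])
  have h11 : ∫ x, ad (G x) (fderiv ℝ (mol φ D.Ω) x) ≤ ∫ x, (fderiv ℝ (mol φ D.Ω) x (X x) +
      ε * (ind (Metric.cthickening φ.rOut K) x * wt (G x))) := by
    refine integral_mono h9 (h6.add (h10.const_mul ε)) fun x => ?_
    beta_reduce
    by_cases hx : x ∈ Metric.cthickening φ.rOut K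
    · have e : ind (Metric.cthickening φ.rOut K) x = 1 := by simp [ind, hx]
      have := mul_le_mul_of_nonneg_left (hZ2 x) (hw x).le
      rw [e, hXe', map_smul, smul_eq_mul, ad]
      linarith
    · have e : ind (Metric.cthickening φ.rOut K) x = 0 := by simp [ind, hx]
      have e2 : fderiv ℝ (mol φ D.Ω) x = 0 := by
        by_contra h0
        exact hx (h2 (support_fderiv_subset ℝ h0))
      simp [e, e2, ad_zero]
  rw [integral_add h6 (h10.const_mul ε), integral_const_mul, exist_int hK₁.measurableSet] at h11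
  obtain ⟨z, hz, hz2⟩ : ∃ z : E, ‖z‖ ≤ φ.rOut ∧
      ∫ y in D.Ω, dvg X (y + z) ≤ -(D.A - 3 * (l / 4)) := by
    by_contra hc
    push Not at hc
    have h12 := dual_avg φ D.meas h8 fun z hz => (hc z hz).le
    rw [vol] at hεV
    linarith
  have hXz : ContDiff ℝ 1 fun y => X (y + z) := hX.comp (contDiff_id.add contDiff_const)
  have h13 := D.div _ hXz
  have e3 : ∀ y, dvg (fun y => X (y + z)) y = dvg X (y + z) := fun y => by
    rw [dvg, dvg, fderiv_comp_add_right]
  simp only [e3] at h13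
  refine ⟨fun y => (-(1 - θ) * (wt (G y))⁻¹) • X (y + z),
    (contDiff_const.mul (hw1.inv fun y => (hw y).ne')).smul hXz, fun y hy => ?_, ?_⟩
  · have h14 := hn y hy z (hz.trans hφ) (X (y + z))
    have h15 : (wt (G (y + z)))⁻¹ ^ 2 * G (y + z) (X (y + z)) (X (y + z)) ≤ 1 := by
      have h16 := (hw (y + z)).ne'
      refine le_of_eq_of_le ?_ (hZ1 (y + z))
      simp only [hXe', map_smul, smul_apply, smul_eq_mul]
      field_simp
    have h17 := mul_le_mul_of_nonneg_left (h14.trans h15) (sub_pos.2 hθ1).le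
    simp only [map_smul, smul_apply, smul_eq_mul]
    nlinarith
  · have e4 : ∀ p : E × E, G p.1 p.2 ((-(1 - θ) * (wt (G p.1))⁻¹) • X (p.1 + z)) =
        -(1 - θ) * (G p.1 p.2 (X (p.1 + z)) / wt (G p.1)) := fun p => by
      rw [map_smul, smul_eq_mul, div_eq_mul_inv]
      ring
    simp only [e4]
    rw [integral_const_mul, ← h13]
    have h18 := mul_le_mul_of_nonneg_left hz2 (sub_pos.2 hθ1).le
    nlinarith [mul_pos hθ hl]

end Vale.Agent.P219
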