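import Vale.Agent.P219.S.Kk
import Vale.Agent.P219.G.Prof

/-!
# The singularity of the Green kernel  (TASK)

Let `v = ww b r`, `Φ x = ∫ α in 0..x, sin^(m-1) α` (continuous, `Φ 0 = 0`, `Φ π = Sm m`).  `s ↦ Φ (2 arctan √(s / v))` has derivative `√(2s)^(m-2) / (v + s)^m * √(2v)^m`
(`sin (2 arctan x) = 2x / (1 + x²)`; check with `s = v x²`).  For `s ≤ t₂ ≤ t₁` with `b² t₂ ≤ 2 l'`: `kk b s ≥ (1 - l') √(2s)`.  So `grn ≥ (1 - l')^(m-2) (Φ (2 arctan √(t₂ / v)) - Φ (2 arctan √(t / v))) / √(2v)^m`.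
For `r ≤ ε₀`: `sn r ≥ r`, `√(2v) ≤ sn r ≤ (1 + l') r` (`sn_sq`, `tendsto_sn_div`), and `t₂ / v` is large (`Real.tendsto_arctan_atTop`); for `r ≥ α`, `v ≥ α² / 2` and `t / v` is small.
-/

namespace Vale.Agent.P219

open scoped ContDiff Topology RealInnerProductSpace ENNReal
open MeasureTheory Set Filter Vale.Agent.P255
open St (sn gmod)

/-- The primitive in the variable `tan (α / 2)`. -/
noncomputable def i2P (j : ℕ) (x : ℝ) : ℝ := ∫ α in (0 : ℝ)..2 * Real.arctan x, Real.sin α ^ (j + 1)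

theorem i2_F (j : ℕ) (y : ℝ) :
    HasDerivAt (fun y => ∫ α in (0 : ℝ)..y, Real.sin α ^ (j + 1)) (Real.sin y ^ (j + 1)) y :=
  ((Real.continuous_sin.pow (j + 1)).integral_hasStrictDerivAt 0 y).hasDerivAt

theorem i2_der (j : ℕ) (x : ℝ) :
    HasDerivAt (i2P j) ((2 * x / (1 + x ^ 2)) ^ (j + 1) * (2 / (1 + x ^ 2))) x := by
  have h := (i2_F j (2 * Real.arctan x)).comp x ((Real.hasDerivAt_arctan x).const_mul 2)
  refine h.congr_deriv ?_
  have h0 : 0 < 1 + x ^ 2 := by positivity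
  have e : Real.sin (2 * Real.arctan x) = 2 * x / (1 + x ^ 2) := by
    rw [Real.sin_two_mul, Real.sin_arctan, Real.cos_arctan, mul_assoc, div_mul_div_comm,
      Real.mul_self_sqrt h0.le]
    ring
  rw [e]
  ring

theorem i2_top (j : ℕ) : Tendsto (i2P j) atTop (𝓝 (Sm (j + 2))) := by
  have h1 : Tendsto (fun x => 2 * Real.arctan x) atTop (𝓝 Real.pi) := by
    have := (Real.tendsto_arctan_atTop.mono_right nhdsWithin_le_nhds).const_mul 2
    rwa [mul_div_cancel₀ _ two_ne_zero] at this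
  exact (i2_F j Real.pi).continuousAt.tendsto.comp h1

theorem i2_der2 (j : ℕ) {c s : ℝ} (hc : 0 < c) (hs : 0 < s) :
    HasDerivAt (fun s => i2P j (√s / c))
      (√(2 * s) ^ j / (c ^ 2 + s) ^ (j + 2) * (√2 * c) ^ (j + 2)) s := by
  have h := (i2_der j (√s / c)).comp s ((Real.hasDerivAt_sqrt hs.ne').div_const c)
  refine h.congr_deriv ?_
  rw [Real.sqrt_mul (by norm_num : (0 : ℝ) ≤ 2)]
  have ha : 0 < √s := Real.sqrt_pos.2 hs
  have hw : 0 < √2 := by positivity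
  have e0 : √2 * √2 = 2 := Real.mul_self_sqrt (by norm_num)
  have es : s = √s ^ 2 := (Real.sq_sqrt hs.le).symm
  generalize √s = a at ha es
  generalize √2 = w at hw e0
  subst es
  have e1 : 2 * (a / c) / (1 + (a / c) ^ 2) = w * a * (w * c) / (c ^ 2 + a ^ 2) := by
    rw [show w * a * (w * c) = w * w * (a * c) by ring, e0]
    field_simp
  have e2 : 2 / (1 + (a / c) ^ 2) * (1 / (2 * a) / c) = w * c / (w * a * (c ^ 2 + a ^ 2)) := by
    field_simp
  rw [mul_assoc, e1, e2, div_pow, mul_pow (w * a)]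
  have hA : w * a ≠ 0 := by positivity
  have hR : c ^ 2 + a ^ 2 ≠ 0 := by positivity
  generalize w * a = A at hA
  generalize c ^ 2 + a ^ 2 = R at hR
  field_simp
  ring

theorem i2_int (j : ℕ) {c t t₂ : ℝ} (hc : 0 < c) (ht : 0 < t) (h : t ≤ t₂) :
    (∫ s in t..t₂, √(2 * s) ^ j / (c ^ 2 + s) ^ (j + 2)) * (√2 * c) ^ (j + 2) =
      i2P j (√t₂ / c) - i2P j (√t / c) := by
  rw [← intervalIntegral.integral_mul_const]
  refine intervalIntegral.integral_eq_sub_of_hasDerivAt (f := fun s => i2P j (√s / c))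
    (fun s hs => i2_der2 j hc ?_) (ContinuousOn.intervalIntegrable ?_)
  · rw [uIcc_of_le h] at hs
    exact ht.trans_le hs.1
  · rw [uIcc_of_le h]
    refine ContinuousOn.mul (ContinuousOn.div (by fun_prop) (by fun_prop) fun s hs => ?_)
      continuousOn_const
    have := ht.trans_le hs.1
    positivity

theorem i2_grn (j : ℕ) {b v t t₂ t₁ η : ℝ} (hv : 0 < v) (ht : 0 < t) (h : t ≤ t₂) (h1 : t₂ ≤ t₁)
    (hη : 0 < η) (hη1 : η < 1) (hb : b ^ 2 * t₂ ≤ 2 * η) :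
    (1 - η) ^ j * ∫ s in t..t₂, √(2 * s) ^ j / (v + s) ^ (j + 2) ≤ grn (j + 2) b t t₁ v := by
  have hi : ∀ x y, 0 < x → x ≤ y →
      IntervalIntegrable (fun s => kk b s ^ (j + 2 - 2) / (v + s) ^ (j + 2)) volume x y := by
    intro x y hx hxy
    refine ContinuousOn.intervalIntegrable ?_
    rw [uIcc_of_le hxy]
    refine ContinuousOn.div ((continuous_kk b).pow _).continuousOn (by fun_prop) fun s hs => ?_
    have := hx.trans_le hs.1
    positivity
  have a1 : grn (j + 2) b t t₂ v + grn (j + 2) b t₂ t₁ v = grn (j + 2) b t t₁ v :=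
    intervalIntegral.integral_add_adjacent_intervals (hi _ _ ht h) (hi _ _ (ht.trans_le h) h1)
  have a2 := grn_nonneg (m := j + 2) (b := b) (ht.trans_le h) h1 hv.le
  have a3 : (1 - η) ^ j * ∫ s in t..t₂, √(2 * s) ^ j / (v + s) ^ (j + 2) ≤
      grn (j + 2) b t t₂ v := by
    rw [← intervalIntegral.integral_const_mul]
    refine intervalIntegral.integral_mono_on h (ContinuousOn.intervalIntegrable ?_) (hi _ _ ht h)
      fun s hs => ?_
    · rw [uIcc_of_le h]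
      refine ContinuousOn.mul continuousOn_const
        (ContinuousOn.div (by fun_prop) (by fun_prop) fun s hs => ?_)
      have := ht.trans_le hs.1
      positivity
    · have hs0 := ht.trans_le hs.1
      rw [← mul_div_assoc, ← mul_pow, Nat.add_sub_cancel]
      refine div_le_div_of_nonneg_right (pow_le_pow_left₀
        (mul_nonneg (by linarith) (Real.sqrt_nonneg _)) ?_ j) (by positivity)
      refine Real.le_sqrt_of_sq_le ?_
      rw [mul_pow, Real.sq_sqrt (by positivity)]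
      have b1 : b ^ 2 * s ≤ 2 * η := (mul_le_mul_of_nonneg_left hs.2 (sq_nonneg b)).trans hb
      have b2 : (1 - η) ^ 2 * 2 ≤ 2 - b ^ 2 * s := by nlinarith
      nlinarith
  linarith

theorem i2 {m : ℕ} (hm : 2 ≤ m) (b : ℝ) {l t₁ : ℝ} (hl : 0 < l) (ht : 0 < t₁) :
    ∃ ε₀ : ℝ, 0 < ε₀ ∧ ∀ α : ℝ, 0 < α → ∃ t : ℝ, 0 < t ∧ t ≤ t₁ ∧ ∀ r, α ≤ r → r ≤ ε₀ →
      Sm m - l ≤ sn b r * r ^ (m - 1) * grn m b t t₁ (ww b r) := by
  obtain ⟨j, rfl⟩ : ∃ j, m = j + 2 := ⟨m - 2, by omega⟩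
  obtain ⟨η, ⟨hη2, hη1⟩, hη⟩ : ∃ η : ℝ, (Sm (j + 2) - l < (1 - η) ^ (j + 2) * (1 - η) ^ j *
      (Sm (j + 2) - 2 * η) ∧ η < 1) ∧ 0 < η := by
    have a1 : ∀ᶠ η in 𝓝 (0 : ℝ), Sm (j + 2) - l < (1 - η) ^ (j + 2) * (1 - η) ^ j *
        (Sm (j + 2) - 2 * η) :=
      ContinuousAt.eventually_lt continuousAt_const (by fun_prop) (by simpa using hl)
    exact (((a1.and (eventually_lt_nhds one_pos)).filter_mono nhdsWithin_le_nhds).and
      (self_mem_nhdsWithin (s := Ioi 0))).exists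
  obtain ⟨t₂, ht₂, ht₂1, hb⟩ : ∃ t₂ : ℝ, 0 < t₂ ∧ t₂ ≤ t₁ ∧ b ^ 2 * t₂ ≤ 2 * η := by
    refine ⟨min t₁ (2 * η / (b ^ 2 + 1)), lt_min ht (by positivity), min_le_left _ _, ?_⟩
    have a1 := min_le_right t₁ (2 * η / (b ^ 2 + 1))
    rw [le_div_iff₀ (by positivity)] at a1
    have a2 : 0 < min t₁ (2 * η / (b ^ 2 + 1)) := lt_min ht (by positivity)
    nlinarith
  have e1 : ∀ᶠ r in 𝓝[>] (0 : ℝ), (1 - η) * (sn b r / r) < 1 := by
    have a1 := ((tendsto_sn_div b).mono_left (nhdsGT_le_nhdsNE 0)).const_mul (1 - η)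
    exact a1.eventually (eventually_lt_nhds (by linarith))
  have e2 : ∀ᶠ r in 𝓝[>] (0 : ℝ), Sm (j + 2) - η < i2P j (√t₂ / √(ww b r)) := by
    have a1 : Tendsto (fun r => √(ww b r)) (𝓝[>] 0) (𝓝[>] 0) := by
      refine tendsto_nhdsWithin_iff.2 ⟨?_, ?_⟩
      · have a2 := ((contDiff_ww b).continuous.sqrt.tendsto 0).mono_left
          (nhdsWithin_le_nhds (s := Ioi 0))
        rwa [ww_zero, Real.sqrt_zero] at a2
      · filter_upwards [self_mem_nhdsWithin] with r hr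
        exact Real.sqrt_pos.2 (ww_pos b hr)
    have a2 := (tendsto_inv_nhdsGT_zero.comp a1).const_mul_atTop (Real.sqrt_pos.2 ht₂)
    exact ((i2_top j).comp a2).eventually (eventually_gt_nhds (by linarith))
  obtain ⟨ε₀, hε₀, hsub⟩ := mem_nhdsGT_iff_exists_Ioc_subset.1 (e1.and e2)
  obtain ⟨δ, hδ, hP⟩ : ∃ δ : ℝ, 0 < δ ∧ ∀ x, |x| < δ → i2P j x < η := by
    have a1 : ∀ᶠ x in 𝓝 (0 : ℝ), i2P j x < η :=
      (i2_der j 0).continuousAt.eventually_lt continuousAt_const (by simpa [i2P] using hη)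
    obtain ⟨δ, hδ, h⟩ := Metric.eventually_nhds_iff.1 a1
    exact ⟨δ, hδ, fun x hx => h (by simpa using hx)⟩
  refine ⟨ε₀, hε₀, fun α hα => ⟨min t₂ (δ ^ 2 * α ^ 2 / 4), lt_min ht₂ (by positivity),
    (min_le_left _ _).trans ht₂1, fun r hr1 hr2 => ?_⟩⟩
  have ht0 : 0 < min t₂ (δ ^ 2 * α ^ 2 / 4) := lt_min ht₂ (by positivity)
  have ht2 := min_le_left t₂ (δ ^ 2 * α ^ 2 / 4)
  have ht3 := min_le_right t₂ (δ ^ 2 * α ^ 2 / 4)
  generalize min t₂ (δ ^ 2 * α ^ 2 / 4) = t at ht0 ht2 ht3 ⊢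
  have hr : 0 < r := hα.trans_le hr1
  obtain ⟨c1, c2⟩ := hsub ⟨hr, hr2⟩
  have hv := ww_pos b hr
  have hc := Real.sqrt_pos.2 hv
  have c3 : i2P j (√t / √(ww b r)) < η := by
    apply hP
    rw [abs_of_nonneg (by positivity), ← Real.sqrt_div ht0.le, Real.sqrt_lt' hδ, div_lt_iff₀ hv]
    have a1 : α ^ 2 ≤ r ^ 2 := pow_le_pow_left₀ hα.le hr1 2
    have a2 : α ^ 2 / 4 < ww b r := by nlinarith [le_ww b r, sq_pos_of_pos hα]
    have a3 := mul_lt_mul_of_pos_left a2 (sq_pos_of_pos hδ)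
    linarith
  have c4 := i2_int j hc ht0 ht2
  rw [Real.sq_sqrt hv.le] at c4
  have c5 := i2_grn j hv ht0 ht2 ht₂1 hη hη1 hb
  have c6 : 0 ≤ ∫ s in t..t₂, √(2 * s) ^ j / (ww b r + s) ^ (j + 2) :=
    intervalIntegral.integral_nonneg ht2 fun s hs => by
      have := ht0.trans_le hs.1
      positivity
  generalize (∫ s in t..t₂, √(2 * s) ^ j / (ww b r + s) ^ (j + 2)) = I at c4 c5 c6
  have hθ : 0 < 1 - η := by linarith
  have c7 : (1 - η) * (√2 * √(ww b r)) ≤ r := by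
    have a1 : √2 * √(ww b r) ≤ sn b r := by
      rw [← Real.sqrt_mul (by norm_num : (0 : ℝ) ≤ 2), Real.sqrt_le_left (sn_pos b hr).le, sn_sq]
      nlinarith [mul_nonneg (sq_nonneg b) (sq_nonneg (ww b r))]
    rw [← mul_div_assoc, div_lt_one hr] at c1
    exact (mul_le_mul_of_nonneg_left a1 hθ.le).trans c1.le
  have c8 : ((1 - η) * (√2 * √(ww b r))) ^ (j + 2) ≤ sn b r * r ^ (j + 2 - 1) := by
    refine (pow_le_pow_left₀ (by positivity) c7 _).trans ?_
    rw [show j + 2 - 1 = j + 1 from rfl, pow_succ' r (j + 1)]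
    exact mul_le_mul_of_nonneg_right (le_sn b hr.le) (by positivity)
  have c9 := mul_le_mul c8 c5 (by positivity) (mul_nonneg (sn_pos b hr).le (by positivity))
  refine hη2.le.trans (le_trans ?_ c9)
  have c10 : Sm (j + 2) - 2 * η ≤ I * (√2 * √(ww b r)) ^ (j + 2) := by linarith
  refine (mul_le_mul_of_nonneg_left c10 (by positivity)).trans (le_of_eq ?_)
  rw [mul_pow (1 - η)]
  ring

end Vale.Agent.P219
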