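import Vale.Agent.P219.S.Py
import Vale.Agent.P219.S.I2
import Vale.Agent.P219.S.U1
import Vale.Agent.P219.G.Flux

/-!
# The averaged lower density bound  (TASK)

Fix `l` small (`l ≤ Sm m`, `l ≤ cm`), `ε₀` from `i2` (with `t₁ = t`), `τ, ε` from `fluxN`, `α` from `Cut.zero'`, `t'` from `i2`.  For `y ∈ K` let `g = τ (rr y ·)`, of class `C²` (`field_smooth`), `0 ≤ g ≤ 1` (`Cut.nonneg`).
For `x ≠ y`: `Gt g (uu y) (x, ν) = τ' r * sn r * (1 - ca²)` (`field_dr`, `uu_grad`, `fderiv_uu`, `ca_log`), both sides vanish at `x = y`.  As `τ' r = 0` unless `α ≤ r ≤ ε`, `τ' ≥ 0`, `ca² ≤ 1` (`ca_sq_le`):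
`(Sm - l) τ' / r^(m-1) (1 - ca²) ≤ Gt * grn`.  `py`, `0 ≤ Mk t' g`, `Mk t g ≤ Mk t 1`.  Integrate in `y` (`integral_prod`, integrability as at the end of `G/Flux`: `cont_cut`), `cm_mul_Sm`, `l → 0`.
-/

namespace Vale.Agent.P219

open scoped ContDiff Topology RealInnerProductSpace ENNReal
open MeasureTheory Set Filter Vale.Agent.P255
open St (sn gmod)

variable {E : Type*} [NormedAddCommGroup E] [InnerProductSpace ℝ E] [FiniteDimensional ℝ E]
  [MeasurableSpace E] [BorelSpace E] {G : E → Bil E} {L : E → E → E} {K : Set E} {m : ℕ}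
  {b H₀ σ t₀ C S c : ℝ} {u : E → E → ℝ} {μ : Measure (E × E)}

theorem low_Gt (hP : Pack G L) {τ : ℝ → ℝ} (hτ : ContDiff ℝ 2 τ) (b : ℝ) (y : E) (z : E × E) :
    Gt G (fun x => τ (rr G L y x)) (uu b G L y) z =
      deriv τ (rr G L y z.1) * (sn b (rr G L y z.1) * (1 - ca G L z.1 y z.2 ^ 2)) := by
  obtain ⟨x, ν⟩ := z
  rcases eq_or_ne y x with rfl | hy
  · simp only [Gt, hP.uu_grad, hP.fderiv_uu, hP.rr_self, sn_zero, zero_div, neg_zero, zero_mul,
      mul_zero, sub_zero]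
  · obtain ⟨R, h1, h2⟩ := field_dr hP hy
    have h3 := (hP.rr_pos hy.symm).ne'
    rw [Gt_comp (hτ.differentiable two_ne_zero _).hasDerivAt h1.differentiableAt, Gt, hP.uu_grad,
      hP.fderiv_uu, h1.fderiv, h2, h2, hP.ca_log, hP.rr_symm x y]
    field_simp

theorem Pack.low (hE : Module.finrank ℝ E = m + 1) (hP : Pack G L) {D : NDom G (KB G L c)}
    (hD : NDom.Stat L c D (m * H₀)) (hT : D.Tight)
    (h : Sp1 m b H₀ G (uu b G L) (KB G L c) D.μ t₀ C) {t : ℝ} (ht : 0 < t) (ht0 : t ≤ t₀) :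
    (m + 1) * om E * D.A ≤
      ∫ z, (Mk m b D.μ (uu b G L z.1) t (fun _ => 1) + m * H₀ ^ 2 / 4 * C * t) ∂D.μ := by
  have hK := hP.isCompact_KB c
  have hm : 2 ≤ m := by have := h.three; omega
  have hκ : 0 ≤ m * H₀ ^ 2 / 4 * C := by have := h.C_pos; positivity
  have lim : Tendsto (fun l => (Sm m - l) * ((cm E m - l) * D.A)) (𝓝[>] 0)
      (𝓝 ((m + 1) * om E * D.A)) := by
    have c1 : Continuous fun l : ℝ => (Sm m - l) * ((cm E m - l) * D.A) := by fun_prop
    refine (c1.tendsto' 0 _ ?_).mono_left nhdsWithin_le_nhds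
    rw [← cm_mul_Sm]
    ring
  refine le_of_tendsto lim (eventually_of_mem (Ioo_mem_nhdsGT (Sm_pos m)) fun l hl => ?_)
  obtain ⟨ε₀, e0, hi⟩ := i2 hm b hl.1 ht
  obtain ⟨τ, ε, e1, hτ, hf⟩ := hP.fluxN hE hm hD hT hl.1 e0
  obtain ⟨α, a0, hα⟩ := hτ.zero'
  obtain ⟨t', t0, t1, hg⟩ := hi α a0
  have hx : Continuous fun z : (E × E) × (E × E) => z.1.1 := continuous_fst.fst
  have hy : Continuous fun z : (E × E) × (E × E) => z.2.1 := continuous_snd.fst
  have cF : Continuous fun z : (E × E) × (E × E) => deriv τ (rr G L z.1.1 z.2.1) /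
      rr G L z.1.1 z.2.1 ^ (m - 1) * (1 - ca G L z.2.1 z.1.1 z.2.2 ^ 2) := by
    simp only [div_eq_mul_inv, mul_assoc]
    exact hP.cont_cut hx hy ((((cont_r hP hx hy).pow _).continuousOn.inv₀ fun z hz =>
      pow_ne_zero _ (cont_ne hP z hz)).mul (continuousOn_const.sub
        ((cont_ca' hP hx hy continuous_snd.snd).pow 2))) (hτ.smooth.continuous_deriv one_le_two) a0
      fun r hr => (hα r hr).2
  have iF := D.integrable_prod hP.loc hK cF
  refine (mul_le_mul_of_nonneg_left hf (sub_pos.2 hl.2).le).trans ?_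
  rw [integral_prod _ iF, ← integral_const_mul]
  refine integral_mono_ae (iF.integral_prod_left.const_mul _) (D.integrable hP.loc hK
    (((h.continuous_Mk continuous_const ht).comp continuous_fst).add continuous_const))
    (D.supp.mono fun w hw => ?_)
  have sg : ContDiff ℝ 2 fun x => τ (rr G L w.1 x) := by
    simpa only [mul_one] using field_smooth hP hτ.smooth a0 (fun r hr => (hα r hr).1) w.1
      (g := fun _ => 1) fun _ _ => contDiffAt_const
  have k1 := h.py hw.1 sg (fun x => (hτ.nonneg _).1) (fun x => (hτ.nonneg _).2.1) t0 t1 ht0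
  have k2 : 0 ≤ Mk m b D.μ (uu b G L w.1) t' fun x => τ (rr G L w.1 x) :=
    integral_nonneg fun z => mul_nonneg (hτ.nonneg _).1
      (pow_nonneg (cf_nonneg (h.nonneg _) t0 _) _)
  have cc : Continuous fun z : E × E => cf b (uu b G L w.1) t z.1 ^ m :=
    ((contDiff_cf (h.nonneg _) (h.cd2 _) ht).continuous.comp continuous_fst).pow _
  have k3 : (Mk m b D.μ (uu b G L w.1) t fun x => τ (rr G L w.1 x)) ≤
      Mk m b D.μ (uu b G L w.1) t fun _ => 1 :=
    integral_mono (D.integrable hP.loc hK ((sg.continuous.comp continuous_fst).mul cc))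
      (D.integrable hP.loc hK (continuous_const.mul cc)) fun z =>
      mul_le_mul_of_nonneg_right (hτ.nonneg _).2.1 (pow_nonneg (cf_nonneg (h.nonneg _) ht _) _)
  have k4 : (Sm m - l) * ∫ z, deriv τ (rr G L w.1 z.1) / rr G L w.1 z.1 ^ (m - 1) *
      (1 - ca G L z.1 w.1 z.2 ^ 2) ∂D.μ ≤ ∫ z, Gt G (fun x => τ (rr G L w.1 x)) (uu b G L w.1) z *
        grn m b t' t (uu b G L w.1 z.1) ∂D.μ := by
    rw [← integral_const_mul]
    refine integral_mono_ae (D.integrable hP.loc hK (continuous_const.mul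
      (cF.comp (continuous_const.prodMk continuous_id)))) (D.integrable hP.loc hK
      ((continuous_Gt hP.loc (sg.of_le one_le_two) ((h.cd2 _).of_le one_le_two)).mul
        (continuous_grn ((h.cd2 _).continuous.comp continuous_fst) (fun z => h.nonneg _ _) t0 t1)))
      (D.supp.mono fun z hz => ?_)
    simp only [low_Gt hP hτ.smooth]
    rcases le_total (rr G L w.1 z.1) α with r1 | r1
    · simp only [(hα _ r1).2, zero_div, zero_mul, mul_zero, le_refl]
    rcases lt_or_ge ε (rr G L w.1 z.1) with r2 | r2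
    · simp only [(hτ.nonneg _).2.2.2 r2, zero_div, zero_mul, mul_zero, le_refl]
    have r0 := pow_pos (a0.trans_le r1) (m - 1)
    refine (mul_le_mul_of_nonneg_right (hg _ r1 (r2.trans e1)) (mul_nonneg
      (div_nonneg (hτ.nonneg _).2.2.1 r0.le) (sub_nonneg.2 ((hP.ca_sq_le _ _ _).trans_eq hz.2)))).trans_eq ?_
    rw [uu]
    field_simp
  have k5 := mul_nonneg hκ t0.le
  simp only
  linarith

end Vale.Agent.P219
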