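import Vale.Agent.P219.S.Sharp

/-!
# The equality case

`A = S σ^m > 0`, `f = A^(-1/q)` constant: `Nq f = 1`, `Yf = cE / σ² A^(2/m) = cE S^(2/m)` (`Gt_const`, `one_sub_qE`).  `bal` gives `p, s, Θ`; `near` (with `sharp`, `ε = 0`) for every `δ` gives `dfT ≤ 0`, so
`df1 = df2 = df3 = 0`.  `df2 = 0`: `w = H₀ R` a.e. (`integral_eq_zero_iff_of_nonneg`).  `df1 = 0` and `df1_pt`: `Gt u u = 0` a.e.  `df3 = 0`, `Tf_zero` with `ζ = H₀² R - (1 + b² u)`:
`Gt ζ u = (H₀² - b²) Gt u u = 0` a.e., so `0 = Tf ζ = m ∫ ζ²` and `1 + b² u = H₀² R` a.e.  With `eik`: `X = u (2 + b² u) = H₀² R²` and `(1 + b² u)² = 1 + b² X` give `H₀² X = 1 + b² X`.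
-/

namespace Vale.Agent.P219

open scoped ContDiff Topology RealInnerProductSpace ENNReal
open MeasureTheory Set Filter Vale.Agent.P255
open St (sn gmod)

variable {E : Type*} [NormedAddCommGroup E] [InnerProductSpace ℝ E] [FiniteDimensional ℝ E]
  [MeasurableSpace E] [BorelSpace E] {G : E → Bil E} {L : E → E → E} {K : Set E} {m : ℕ}
  {b H₀ σ t₀ C S c : ℝ} {u : E → E → ℝ} {μ : Measure (E × E)}

theorem Sp2.rigid (h : Sp2 m b H₀ G u K μ t₀ C S) (hσ : H₀ ^ 2 = b ^ 2 + 1 / σ ^ 2) (h0 : 0 < σ)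
    (hH : 0 < H₀) (hA : μ.real univ = S * σ ^ m) :
    ∃ p ∈ K, ∀ᵐ z ∂μ, u p z.1 * (2 + b ^ 2 * u p z.1) = σ ^ 2 ∧ 0 < wn (u p) z := by
  have h1 := h.toSp1.toSp0
  have hm := h1.three
  have hq := qE_gt hm
  have hc := cE_pos hm
  have hβ := bE_pos hm
  have hS := h.S_pos
  have hm0 : (0 : ℝ) < m := by exact_mod_cast (by omega : 0 < m)
  have hA0 : 0 < μ.real univ := by rw [hA]; positivity
  set a := μ.real univ ^ (-(1 / qE m)) with ha
  have ha0 : 0 < a := Real.rpow_pos_of_pos hA0 _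
  have hN : Nq m μ (fun _ => a) = 1 := by
    simp only [Nq, integral_const, smul_eq_mul]
    rw [abs_of_pos ha0, ha, ← Real.rpow_mul hA0.le, show -(1 / qE m) * qE m = -1 by field_simp,
      Real.rpow_neg_one, mul_inv_cancel₀ hA0.ne']
  have hY : Yf G μ (cE m / σ ^ 2 + 0) (fun _ => a) = cE m * S ^ (2 / m : ℝ) := by
    simp only [Yf, Gt_const, integral_const, smul_eq_mul, zero_add, add_zero]
    have e1 : μ.real univ * a ^ 2 = μ.real univ ^ (2 / m : ℝ) := by
      rw [ha, ← Real.rpow_two, ← Real.rpow_mul hA0.le, ← one_sub_qE hm, sub_eq_add_neg,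
        Real.rpow_add hA0, Real.rpow_one]
      congr 2
      ring
    have e2 : μ.real univ ^ (2 / m : ℝ) = S ^ (2 / m : ℝ) * σ ^ 2 := by
      rw [hA, Real.mul_rpow hS.le (pow_pos h0 m).le, ← Real.rpow_natCast σ m,
        ← Real.rpow_mul h0.le, show (m * (2 / m) : ℝ) = 2 by field_simp, Real.rpow_two]
    calc _ = cE m / σ ^ 2 * (μ.real univ * a ^ 2) := by ring
      _ = _ := by rw [e1, e2]; field_simp
  obtain ⟨p, hp, s, hs, hs2, Θ, hΘ⟩ := h.bal (fun _ => |a| ^ qE m) continuous_const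
    (fun _ => by positivity) hN
  have hf : ContDiff ℝ 2 fun _ : E => a := contDiff_const
  have hd : dfT m b H₀ 0 G μ (u p) s (fun _ => a) ≤ 0 := by
    refine le_of_forall_pos_le_add fun δ hδ => ?_
    obtain ⟨η, hη, hn⟩ := h1.near hσ (by positivity) (h.sharp hσ) hδ
    rw [zero_add]
    exact (hn _ hf hN (by rw [hY]; linarith) p s hs hs2 Θ hΘ).1
  have e1 := h1.df1_nonneg p hs fun _ => a
  have e2 := df2_nonneg H₀ μ (u p) s fun _ => a
  have e3 := h1.df3_nonneg hp hs hf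
  have g2 := mul_nonneg hc.le e2
  have g3 := mul_nonneg hβ.le e3
  rw [dfT, zero_mul, zero_add] at hd
  have z1 : df1 m b G μ (u p) s (fun _ => a) = 0 := by linarith
  have z2 : df2 H₀ μ (u p) s (fun _ => a) = 0 :=
    (mul_eq_zero.1 (by linarith : cE m * _ = 0)).resolve_left hc.ne'
  have z3 : df3 m b H₀ G μ (u p) s (fun _ => a) = 0 :=
    (mul_eq_zero.1 (by linarith : bE m * _ = 0)).resolve_left hβ.ne'
  have hu := h1.cd2 p
  have hu1 : ContDiff ℝ 1 (u p) := hu.of_le one_le_two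
  have hR : ∀ y, 0 < u p y + s := fun y => add_pos_of_nonneg_of_pos (h1.nonneg p y) hs
  have cu : Continuous fun z : E × E => u p z.1 := hu.continuous.comp continuous_fst
  have w1 : ∀ᵐ z ∂μ, wn (u p) z = H₀ * (u p z.1 + s) := by
    have := (integral_eq_zero_iff_of_nonneg (fun z => mul_nonneg (sq_nonneg a) (sq_nonneg _))
      (h1.integrable (continuous_const.mul ((((continuous_wn hu1).div (cu.add continuous_const)
        fun z => (hR z.1).ne').sub continuous_const).pow 2)))).1 z2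
    filter_upwards [this] with z hz
    have h2 : (wn (u p) z / (u p z.1 + s) - H₀) ^ 2 = 0 :=
      (mul_eq_zero.1 hz).resolve_left (by positivity)
    rwa [pow_eq_zero_iff two_ne_zero, sub_eq_zero, div_eq_iff (hR _).ne'] at h2
  have w2 : ∀ᵐ z ∂μ, Gt G (u p) (u p) z = 0 := by
    simp only [df1, h1.df1_pt p hs hs2 hf, Gt_const, mul_zero, zero_div, zero_add] at z1
    have := (integral_eq_zero_iff_of_nonneg_ae (h1.ae_mem.mono fun z hz =>
      div_nonneg (mul_nonneg (by positivity) (Gt_nonneg h1.loc _ hz.2)) (sq_nonneg _))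
      (h1.integrable ((continuous_const.mul (continuous_Gt h1.loc hu1 hu1)).div
        ((cu.add continuous_const).pow 2) fun z => (pow_pos (hR z.1) 2).ne'))).1 z1
    filter_upwards [this] with z hz
    exact (mul_eq_zero.1 ((div_eq_zero_iff.1 hz).resolve_right (pow_pos (hR _) 2).ne')).resolve_left
      (by positivity)
  have hζ : ContDiff ℝ 2 fun y => H₀ ^ 2 * (u p y + s) - (1 + b ^ 2 * u p y) := by fun_prop
  have cζ : Continuous fun z : E × E => H₀ ^ 2 * (u p z.1 + s) - (1 + b ^ 2 * u p z.1) :=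
    hζ.continuous.comp continuous_fst
  have w3 : ∀ᵐ z ∂μ, H₀ ^ 2 * (u p z.1 + s) - (1 + b ^ 2 * u p z.1) = 0 := by
    have t0 := h1.Tf_zero hp ((hf.pow 2).div (hu.add contDiff_const) fun y => (hR y).ne')
      (fun y => div_pos (pow_pos ha0 2) (hR y)) z3 hζ
    rw [Tf, ← integral_const_mul, ← integral_sub
      (by exact h1.integrable (continuous_const.mul (cζ.mul (continuous_wn hu1))))
      (by
        exact h1.integrable (((continuous_const.mul (continuous_const.add
          (continuous_const.mul cu))).mul cζ).add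
            (continuous_Gt h1.loc (hζ.of_le one_le_two) hu1)))] at t0
    have t1 : ∫ z, m * (H₀ ^ 2 * (u p z.1 + s) - (1 + b ^ 2 * u p z.1)) ^ 2 ∂μ = 0 := by
      rw [← t0]
      refine integral_congr_ae ?_
      filter_upwards [w1, w2] with z h2 h3
      have d := (hu.differentiable (by simp) z.1).hasFDerivAt
      have d2 := ((d.add_const s).const_mul (H₀ ^ 2)).fun_sub ((d.const_mul (b ^ 2)).const_add 1)
      rw [Gt_lin' (a := H₀ ^ 2 - b ^ 2) (f := u p) (d2.fderiv.trans (sub_smul _ _ _).symm), h3, h2]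
      ring
    have := (integral_eq_zero_iff_of_nonneg (fun z => mul_nonneg hm0.le (sq_nonneg _))
      (h1.integrable (continuous_const.mul (cζ.pow 2)))).1 t1
    filter_upwards [this] with z hz
    exact (pow_eq_zero_iff two_ne_zero).1 ((mul_eq_zero.1 hz).resolve_left hm0.ne')
  refine ⟨p, hp, ?_⟩
  filter_upwards [w1, w2, w3] with z h2 h3 h4
  refine ⟨?_, h2 ▸ mul_pos hH (hR _)⟩
  have h5 := h1.eik p z
  rw [h3, h2, zero_add] at h5
  have h6 : (H₀ ^ 2 - b ^ 2) * (u p z.1 * (2 + b ^ 2 * u p z.1)) = 1 := by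
    have h7 : 1 + b ^ 2 * u p z.1 = H₀ ^ 2 * (u p z.1 + s) := by linarith
    have h8 : (1 + b ^ 2 * u p z.1) ^ 2 = H₀ ^ 2 * (u p z.1 * (2 + b ^ 2 * u p z.1)) := by
      rw [h7, ← h5]
      ring
    linarith
  rw [hσ, add_sub_cancel_left, one_div, inv_mul_eq_one₀ (by positivity)] at h6
  exact h6.symm

end Vale.Agent.P219
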