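import Vale.Agent.P219.S.Zo
import Vale.Agent.P219.G.PushN
import Vale.Agent.P219.G.Field

/-!
# The domain contains the ball  (TASK)

`P` from `Pack.chg p`, `Φ x = P (L p x)` is a `Diffeo` (`Pack.diffeo`), `‖Φ x‖ = rr p x` (`rig2_norm`-like), `T = Φ '' Ω` is measurable (`MeasurableSet.image_of_continuousOn_injOn`) and bounded.  `div_pio`: fields vanishing on `ρ ≤ ‖v‖` have
`∫_T dvg Z = 0`.  `zero_one`.  First case: take `Z v = exp (-N ‖v‖²) • v` with `2 N ρ² = m + 1`: `dvg Z = (m + 1 - 2 N ‖v‖²) exp .. ≤ 0` a.e. on `T`, while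
`(fderiv Φ x).inverse (Φ x) = -L x p` (`radial`) and `G x ν (-L x p) = rr * ca > 0` (`field_ca`), `det ≠ 0`, `wt > 0`: the right side of `div_pio` has a positive continuous integrand (for continuity write it through
`-L x p`), so it is positive as `μ ≠ 0` (`integral_pos_iff_support_of_nonneg_ae`): contradiction.  Second case: `N = {rr p x < ρ} \ Ω` has `Φ '' N ⊆ ball \ T` null, and `chg` with `f = 1` gives `∫_N jac = 0` with `jac > 0`.
-/

namespace Vale.Agent.P219

open scoped ContDiff Topology RealInnerProductSpace ENNReal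
open MeasureTheory Set Filter Vale.Agent.P255
open St (sn gmod)

variable {E : Type*} [NormedAddCommGroup E] [InnerProductSpace ℝ E] [FiniteDimensional ℝ E]
  [MeasurableSpace E] [BorelSpace E] {G : E → Bil E} {L : E → E → E} {K : Set E} {m : ℕ}
  {b H₀ σ t₀ C S c : ℝ} {u : E → E → ℝ} {μ : Measure (E × E)}

omit [MeasurableSpace E] [BorelSpace E] in
theorem rg2_dvg (hE : Module.finrank ℝ E = m + 1) (N : ℝ) (v : E) :
    dvg (fun v : E => Real.exp (-N * ‖v‖ ^ 2) • v) v =
      Real.exp (-N * ‖v‖ ^ 2) * (m + 1 - 2 * N * ‖v‖ ^ 2) := by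
  have h1 := (((hasFDerivAt_id v).norm_sq).const_mul (-N)).exp
  have h2 : dvg (fun v : E => v) v = m + 1 := by
    rw [dvg, fderiv_fun_id, ContinuousLinearMap.coe_id, LinearMap.trace_id, hE]
    simp
  have h3 : fderiv ℝ (fun v : E => Real.exp (-N * ‖v‖ ^ 2)) v = _ := h1.fderiv
  rw [dvg_smul (f := fun v : E => Real.exp (-N * ‖v‖ ^ 2)) (Z := fun v => v) h1.differentiableAt
    differentiableAt_id, h2, h3]
  simp
  ring

theorem rg2_null (hP : Pack G L) {p : E} {P : E ≃L[ℝ] E}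
    (h : ∀ S : Set E, MeasurableSet S → ∀ f : E → ℝ, (∫ v in (fun x => P (L p x)) '' S, f v =
        ∫ x in S, wt (G p) * |(fderiv ℝ (L p) x).det| * f (P (L p x))) ∧
      (IntegrableOn f ((fun x => P (L p x)) '' S) ↔
        IntegrableOn (fun x => wt (G p) * |(fderiv ℝ (L p) x).det| * f (P (L p x))) S))
    {S : Set E} (hS : MeasurableSet S) (h0 : volume ((fun x => P (L p x)) '' S) = 0) :
    volume S = 0 := by
  obtain ⟨h1, h2⟩ := h S hS fun _ => 1
  have h3 : ∀ x, 0 < wt (G p) * |(fderiv ℝ (L p) x).det| * 1 := fun x =>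
    mul_pos (mul_pos (wt_pos (posB_of_loc hP.loc p)) (abs_pos.2 (hP.det_ne p x))) one_pos
  rw [setIntegral_measure_zero _ h0] at h1
  have h4 := (integral_eq_zero_iff_of_nonneg (fun x => (h3 x).le)
    (h2.1 (IntegrableOn.of_measure_zero h0))).1 h1.symm
  have h5 : ∀ᵐ x ∂(volume.restrict S), False := h4.mono fun x hx => (h3 x).ne' hx
  rwa [eventually_false_iff_eq_bot, ae_eq_bot, Measure.restrict_eq_zero] at h5

theorem Pack.ball_sub (hE : Module.finrank ℝ E = m + 1) (hP : Pack G L) (hK : IsCompact K)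
    (D : NDom G K) (hA : 0 < D.A) {p : E} {ρ : ℝ} (hρ : 0 < ρ)
    (h : ∀ᵐ z ∂D.μ, rr G L p z.1 = ρ ∧ 0 < ca G L z.1 p z.2) :
    ∀ᵐ x, rr G L p x < ρ → x ∈ D.Ω := by
  obtain ⟨P, hG, -, hc⟩ := hP.chg p
  have hΦ := hP.diffeo p P
  have hn : ∀ x, ‖P (L p x)‖ = rr G L p x := fun x => by
    rw [rr, qq, hG, real_inner_self_eq_norm_sq, Real.sqrt_sq (norm_nonneg _)]
  have hT : MeasurableSet ((fun x => P (L p x)) '' D.Ω) :=
    D.meas.image_of_continuousOn_injOn hΦ.smooth.continuous.continuousOn hΦ.inj.injOn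
  rcases zero_one hT ((hK.image hΦ.smooth.continuous).isBounded.subset (image_mono D.sub))
    (ρ := ρ) (fun Z hZ h0 => by
      rw [D.div_pio hP.loc hΦ hZ]
      refine integral_eq_zero_of_ae (h.mono fun z hz => ?_)
      simp only [h0 _ ((hn z.1).trans hz.1).ge, map_zero, mul_zero, zero_div, Pi.zero_apply])
    with h1 | h1
  · exfalso
    obtain ⟨N, hN⟩ : ∃ N : ℝ, 2 * N * ρ ^ 2 = m + 1 := ⟨(m + 1) / (2 * ρ ^ 2), by field_simp⟩
    have hN0 : 0 ≤ 2 * N := nonneg_of_mul_nonneg_left (hN.ge.trans' (by positivity)) (pow_pos hρ 2)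
    have hZ : ContDiff ℝ 1 fun v : E => Real.exp (-N * ‖v‖ ^ 2) • v :=
      (contDiff_const.mul (contDiff_norm_sq ℝ)).exp.smul contDiff_id
    have h2 : ∫ v in (fun x => P (L p x)) '' D.Ω,
        dvg (fun v : E => Real.exp (-N * ‖v‖ ^ 2) • v) v ≤ 0 := by
      refine setIntegral_nonpos_ae hT ((measure_eq_zero_iff_ae_notMem.1 h1).mono fun v hv hv' => ?_)
      have a1 : ρ ≤ ‖v‖ := not_lt.1 fun a => hv ⟨hv', mem_ball_zero_iff.2 a⟩
      have a2 := mul_le_mul_of_nonneg_left (pow_le_pow_left₀ hρ.le a1 2) hN0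
      rw [rg2_dvg hE]
      exact mul_nonpos_of_nonneg_of_nonpos (Real.exp_pos _).le (by linarith)
    rw [hΦ.integral_dvg D.meas hZ, D.div _ (contDiff_pio hΦ hZ)] at h2
    have h3 : Continuous fun z : E × E => G z.1 z.2 (pio (fun x => P (L p x))
        (fun v : E => Real.exp (-N * ‖v‖ ^ 2) • v) z.1) / wt (G z.1) :=
      ((((norm_contG hP.loc).comp continuous_fst).clm_apply continuous_snd).clm_apply
        ((contDiff_pio hΦ hZ).continuous.comp continuous_fst)).div
        ((contDiff_wt hP.loc).continuous.comp continuous_fst)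
        fun z => (wt_pos (posB_of_loc hP.loc z.1)).ne'
    have h4 := h3.continuousOn.integrableOn_compact (μ := D.μ) (isCompact_UB hP.loc hK)
    rw [IntegrableOn, Measure.restrict_eq_self_of_ae_mem D.supp] at h4
    have h5 : ∀ᵐ z ∂D.μ, 0 < G z.1 z.2 (pio (fun x => P (L p x))
        (fun v : E => Real.exp (-N * ‖v‖ ^ 2) • v) z.1) / wt (G z.1) := h.mono fun z hz => by
      have a1 : fderiv ℝ (fun x => P (L p x)) z.1 (-L z.1 p) = P (L p z.1) := by
        refine (DFunLike.congr_fun (P.comp_fderiv (f := L p) (x := z.1)) _).trans ?_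
        rw [ContinuousLinearMap.comp_apply, map_neg, hP.radial, neg_neg]
        rfl
      have a2 : (fderiv ℝ (fun x => P (L p x)) z.1).inverse (P (L p z.1)) = -L z.1 p := by
        rw [← a1]
        exact (isInvertible_of_det (hΦ.det_ne z.1)).inverse_apply_self _
      refine div_pos ?_ (wt_pos (posB_of_loc hP.loc z.1))
      simp only [pio, map_smul, a2, map_neg, field_ca hP, neg_neg, smul_eq_mul, hz.1]
      exact mul_pos (abs_pos.2 (hΦ.det_ne z.1)) (mul_pos (Real.exp_pos _) (mul_pos hρ hz.2))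
    have h6 := (integral_eq_zero_iff_of_nonneg_ae (h5.mono fun z hz => hz.le) h4).1
      (h2.antisymm (integral_nonneg_of_ae (h5.mono fun z hz => hz.le)))
    have h7 : ∀ᵐ z ∂D.μ, False := (h5.and h6).mono fun z hz => hz.1.ne' hz.2
    rw [eventually_false_iff_eq_bot, ae_eq_bot] at h7
    simp [NDom.A, h7] at hA
  · have h2 : Continuous (rr G L p) := hP.continuous_rr.comp (Continuous.prodMk_right p)
    have h3 := rg2_null hP hc (S := {x | rr G L p x < ρ} \ D.Ω)
      ((isOpen_lt h2 continuous_const).measurableSet.diff D.meas) (measure_mono_null (by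
        rintro _ ⟨x, hx, rfl⟩
        refine ⟨mem_ball_zero_iff.2 ((hn x).trans_lt hx.1), ?_⟩
        rintro ⟨y, hy, he⟩
        exact hx.2 (hΦ.inj he ▸ hy)) h1)
    exact (measure_eq_zero_iff_ae_notMem.1 h3).mono fun x hx hr => not_not.1 fun a => hx ⟨hr, a⟩

end Vale.Agent.P219
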