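import Vale.Agent.P219.S.Base

/-!
# The upper density bound  (TASK)

Take `t₀ = 1 / (b² + 1)`; then `t ≤ k² ≤ 2 t`.  Write `R = u x + t`, `n = m - 1`.
Step 1 (subcritical bound): `J t = ∫ (√R)^(-n)` (`= R^(-n/2)`, use `Real.rpow` with `N = n / 2`) is bounded uniformly in `x ∈ K`, `t`: `fv` for `φ = R^(-N)` gives
`∫ (m (1 + b² u) R - N Gt u u) R^(-N-1) ≤ m H₀ ∫ w R^(-N)`; `Gt u u ≤ u (2 + b² u) ≤ 2 (1 + b² u) R`, so the left side is `≥ (m - 2 N) J = J`; `|w| ≤ √(C₀ R)` on `K` (`wn_sq_le`, `u_le`), and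
`m |H₀| √(C₀ R) R^(-N) ≤ R^(-N) / 2 + const` (distinguish `√R` small or not).
Step 2: `U t = ∫ k^(m-2) / R^(m-1)` has derivative `k^(m-4) ∫ ((m-2) a R - (m-1) k²) / R^m` (`a = 1 - b² t`; write `k^(m-2) / k²`; differentiate under the integral as in `S/Der`).  `fv` for `φ = R^(1-m)`, `eik` and
`m (1 + b² u) R - (m-1) u (2 + b² u) = b² R² - (m-2) a R + (m-1) k²` give `∫ ((m-2) a R - (m-1) k²) / R^m ≥ ∫ ((m-1) w² - m H₀ w R) / R^m ≥ -C₁ ∫ R^(2-m)`, and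
`k^(m-2) / k² * R^(2-m) ≤ C₂ t^(-1/2) R^(-N)` since `R ≥ t`.  So `U t + 2 C₃ √t` is monotone on `(0, t₀]` (`monotoneOn_of_deriv_nonneg`), and `U t₀` is bounded by `A k^(m-2) / t₀^(m-1)`.
-/

namespace Vale.Agent.P219

open scoped ContDiff Topology RealInnerProductSpace ENNReal
open MeasureTheory Set Filter Vale.Agent.P255
open St (sn gmod)

variable {E : Type*} [NormedAddCommGroup E] [InnerProductSpace ℝ E] [FiniteDimensional ℝ E]
  [MeasurableSpace E] [BorelSpace E] {G : E → Bil E} {L : E → E → E} {K : Set E} {m : ℕ}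
  {b H₀ σ t₀ C S c : ℝ} {u : E → E → ℝ} {μ : Measure (E × E)}

theorem Ud_pos (h : Sp0 m b H₀ G u K μ) (x y : E) {t : ℝ} (ht : 0 < t) : 0 < u x y + t :=
  add_pos_of_nonneg_of_pos (h.nonneg _ _) ht

theorem Ud_contu (h : Sp0 m b H₀ G u K μ) (x : E) : Continuous fun z : E × E => u x z.1 :=
  (h.contDiff x).continuous.comp continuous_fst

theorem Ud_contR (h : Sp0 m b H₀ G u K μ) (x : E) {t : ℝ} (ht : 0 < t) (q : ℝ) :
    Continuous fun z : E × E => (u x z.1 + t) ^ q :=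
  ((Ud_contu h x).add continuous_const).rpow_const fun z => Or.inl (Ud_pos h x z.1 ht).ne'

theorem Ud_cd1 (h : Sp0 m b H₀ G u K μ) (x : E) : ContDiff ℝ 1 (u x) :=
  (h.cd2 x).of_le (by norm_num)

theorem Ud_hd {v t : ℝ} (hv : 0 < v + t) (q : ℝ) :
    HasDerivAt (fun v : ℝ => (v + t) ^ (-q)) (-q * (v + t) ^ (-q - 1)) v := by
  have := ((hasDerivAt_id' v).add_const t).rpow_const (p := -q) (Or.inl hv.ne')
  simpa only [one_mul] using this

theorem Ud_hd' {v t : ℝ} (hv : 0 < v + t) (q : ℝ) :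
    HasDerivAt (fun t : ℝ => (v + t) ^ (-q)) (-q * (v + t) ^ (-q - 1)) t := by
  have := ((hasDerivAt_id' t).const_add v).rpow_const (p := -q) (Or.inl hv.ne')
  simpa only [one_mul] using this

/-- The integrand of the first variation inequality for `R ^ (-q)`. -/
noncomputable def UdF (m : ℕ) (b H₀ q R v w g : ℝ) : ℝ :=
  m * H₀ * (R ^ (-q) * w) - (m * (1 + b ^ 2 * v) * R ^ (-q) + -q * R ^ (-q - 1) * g)

theorem Ud_fv (h : Sp0 m b H₀ G u K μ) {x : E} (hx : x ∈ K) {t : ℝ} (ht : 0 < t) (q : ℝ)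
    {φ : E × E → ℝ} (hφ : Continuous φ)
    (hle : ∀ z : E × E, z.1 ∈ K → G z.1 z.2 z.2 = 1 →
      UdF m b H₀ q (u x z.1 + t) (u x z.1) (wn (u x) z) (Gt G (u x) (u x) z) ≤ φ z) :
    0 ≤ ∫ z, φ z ∂μ := by
  have hcd : ContDiff ℝ 2 fun y => (u x y + t) ^ (-q) :=
    ((h.cd2 x).add contDiff_const).rpow_const_of_ne fun y => (Ud_pos h x y ht).ne'
  have h0 := h.fv x hx _ hcd fun y _ => (Real.rpow_pos_of_pos (Ud_pos h x y ht) _).le
  have hG : ∀ z : E × E, Gt G (fun y => (u x y + t) ^ (-q)) (u x) z =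
      -q * (u x z.1 + t) ^ (-q - 1) * Gt G (u x) (u x) z := fun z =>
    Gt_comp (φ := fun v : ℝ => (v + t) ^ (-q)) (f := u x) (Ud_hd (Ud_pos h x z.1 ht) q)
      ((Ud_cd1 h x).differentiable one_ne_zero z.1) (u x)
  unfold Tf at h0
  simp only [hG] at h0
  have c1 : Continuous fun z : E × E => (u x z.1 + t) ^ (-q) * wn (u x) z :=
    (Ud_contR h x ht _).mul (continuous_wn (Ud_cd1 h x))
  have c2 : Continuous fun z : E × E => m * (1 + b ^ 2 * u x z.1) * (u x z.1 + t) ^ (-q) +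
      -q * (u x z.1 + t) ^ (-q - 1) * Gt G (u x) (u x) z :=
    ((continuous_const.mul (continuous_const.add (continuous_const.mul (Ud_contu h x)))).mul
      (Ud_contR h x ht _)).add ((continuous_const.mul (Ud_contR h x ht _)).mul
        (continuous_Gt h.loc (Ud_cd1 h x) (Ud_cd1 h x)))
  rw [← integral_const_mul, ← integral_sub ((h.integrable c1).const_mul _) (h.integrable c2)] at h0
  refine h0.trans (integral_mono_ae (((h.integrable c1).const_mul _).sub (h.integrable c2))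
    (h.integrable hφ) ?_)
  filter_upwards [h.ae_mem] with z hz
  exact hle z hz.1 hz.2

theorem Ud_deriv (h : Sp0 m b H₀ G u K μ) (x : E) {t : ℝ} (ht : 0 < t) {q : ℝ} (hq : 0 ≤ q) :
    HasDerivAt (fun s => ∫ z, (u x z.1 + s) ^ (-q) ∂μ)
      (-q * ∫ z, (u x z.1 + t) ^ (-q - 1) ∂μ) t := by
  have := h.fin
  rw [← integral_const_mul]
  have ht2 : 0 < t / 2 := by linarith
  refine (hasDerivAt_integral_of_dominated_loc_of_deriv_le (s := Ioi (t / 2))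
    (F := fun s (z : E × E) => (u x z.1 + s) ^ (-q))
    (F' := fun s (z : E × E) => -q * (u x z.1 + s) ^ (-q - 1))
    (bound := fun _ => q * (t / 2) ^ (-q - 1)) (Ioi_mem_nhds (by linarith)) ?_
    (h.integrable (Ud_contR h x ht _))
    (continuous_const.mul (Ud_contR h x ht _)).aestronglyMeasurable ?_ (integrable_const _) ?_).2
  · filter_upwards [Ioi_mem_nhds ht] with s hs
    exact (Ud_contR h x hs _).aestronglyMeasurable
  · refine Eventually.of_forall fun z s hs => ?_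
    have hs' : t / 2 < s := hs
    have hp := Ud_pos h x z.1 (ht2.trans hs')
    rw [Real.norm_eq_abs, abs_mul, abs_neg, abs_of_nonneg hq,
      abs_of_pos (Real.rpow_pos_of_pos hp _)]
    refine mul_le_mul_of_nonneg_left (Real.rpow_le_rpow_of_nonpos ht2 ?_ (by linarith)) hq
    have := h.nonneg x z.1
    linarith
  · refine Eventually.of_forall fun z s hs => ?_
    have hs' : t / 2 < s := hs
    exact Ud_hd' (Ud_pos h x z.1 (ht2.trans hs')) q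

theorem Ud_pt1 {M b H₀ v t w g U r r' δ D P : ℝ} (hM : 3 ≤ M) (hv : 0 ≤ v) (ht : 0 < t)
    (ht1 : t ≤ 1) (hU : v ≤ U) (hr' : 0 < r') (hr : r = r' * (v + t))
    (hg : g ≤ v * (2 + b ^ 2 * v)) (hw : w ^ 2 ≤ v * (2 + b ^ 2 * v))
    (hD : D = (M * H₀) ^ 2 * (2 + b ^ 2 * U)) (hδ : D * δ ≤ 1 / 4) (hP : 0 ≤ P)
    (hrP : δ ≤ v + t → r ≤ P) :
    M * H₀ * (r * w) - (M * (1 + b ^ 2 * v) * r + -((M - 1) / 2) * r' * g) ≤
      D * (U + 1) * P - r / 2 := by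
  have hb : 0 ≤ b ^ 2 := sq_nonneg b
  have hR : 0 < v + t := by linarith
  have hr0 : 0 < r := by rw [hr]; positivity
  have hbv : 0 ≤ b ^ 2 * v := mul_nonneg hb hv
  have hbU : b ^ 2 * v ≤ b ^ 2 * U := mul_le_mul_of_nonneg_left hU hb
  have hD0 : 0 ≤ D := by
    rw [hD]
    exact mul_nonneg (sq_nonneg _) (by linarith)
  have h1 : g ≤ 2 * (1 + b ^ 2 * v) * (v + t) := by
    refine hg.trans ?_
    rw [mul_comm (2 * (1 + b ^ 2 * v))]
    exact mul_le_mul (by linarith) (by linarith) (by linarith) hR.le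
  have h2 : (M - 1) / 2 * r' * g ≤ (M - 1) * ((1 + b ^ 2 * v) * r) := by
    have := mul_le_mul_of_nonneg_left h1 (mul_nonneg (by linarith : 0 ≤ (M - 1) / 2) hr'.le)
    rw [hr]
    linarith
  have h3 : r ≤ (1 + b ^ 2 * v) * r := le_mul_of_one_le_left hr0.le (by linarith)
  have h4 : w ^ 2 ≤ (v + t) * (2 + b ^ 2 * U) :=
    hw.trans (mul_le_mul (by linarith) (by linarith) (by linarith) hR.le)
  have h5 : M * H₀ * w ≤ 1 / 4 + D * (v + t) := by
    have e1 := mul_le_mul_of_nonneg_left h4 (sq_nonneg (M * H₀))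
    have e2 := sq_nonneg (M * H₀ * w - 1 / 2)
    rw [hD]
    linarith
  have h6 : D * (v + t) * r ≤ r / 4 + D * (U + 1) * P := by
    have hU1 : 0 ≤ U + 1 := by linarith
    have hpos : 0 ≤ D * (U + 1) * P := by positivity
    rcases le_total δ (v + t) with hc | hc
    · have e1 : D * (v + t) * r ≤ D * (U + 1) * P :=
        mul_le_mul (mul_le_mul_of_nonneg_left (by linarith) hD0) (hrP hc) hr0.le (by positivity)
      linarith
    · have e1 : D * (v + t) ≤ 1 / 4 := (mul_le_mul_of_nonneg_left hc hD0).trans hδ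
      have e2 := mul_le_mul_of_nonneg_right e1 hr0.le
      linarith
  have h7 := mul_le_mul_of_nonneg_right h5 hr0.le
  linarith

theorem Ud_sub (h : Sp0 m b H₀ G u K μ) : ∃ A : ℝ, 0 ≤ A ∧ ∀ x ∈ K, ∀ t : ℝ, 0 < t → t ≤ 1 →
    ∫ z, (u x z.1 + t) ^ (-(((m : ℝ) - 1) / 2)) ∂μ ≤ A := by
  have := h.fin
  obtain ⟨U, hU0, hU⟩ := h.u_le
  have hM : (3 : ℝ) ≤ m := by exact_mod_cast h.three
  obtain ⟨D, hD⟩ : ∃ D : ℝ, D = (m * H₀) ^ 2 * (2 + b ^ 2 * U) := ⟨_, rfl⟩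
  have hD0 : 0 ≤ D := by rw [hD]; positivity
  obtain ⟨δ, hδ0, hδ⟩ : ∃ δ : ℝ, 0 < δ ∧ D * δ ≤ 1 / 4 := by
    refine ⟨1 / (4 * (D + 1)), by positivity, ?_⟩
    rw [mul_one_div, div_le_div_iff₀ (by positivity) (by norm_num)]
    linarith
  obtain ⟨P, hP⟩ : ∃ P : ℝ, P = δ ^ (-(((m : ℝ) - 1) / 2)) := ⟨_, rfl⟩
  have hP0 : 0 ≤ P := by rw [hP]; exact (Real.rpow_pos_of_pos hδ0 _).le
  refine ⟨2 * (μ.real univ * (D * (U + 1) * P)), by positivity, fun x hx t ht ht1 => ?_⟩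
  have cR := Ud_contR h x ht (-(((m : ℝ) - 1) / 2))
  have h0 := Ud_fv h hx ht (((m : ℝ) - 1) / 2)
    (φ := fun z => D * (U + 1) * P - (u x z.1 + t) ^ (-(((m : ℝ) - 1) / 2)) / 2)
    (continuous_const.sub (cR.div_const _)) fun z hz hz1 => by
      have hp := Ud_pos h x z.1 ht
      refine Ud_pt1 hM (h.nonneg _ _) ht ht1 (hU x hx _ hz) (Real.rpow_pos_of_pos hp _) ?_
        (h.Gt_u_le x z) (h.wn_sq_le x hz1) hD hδ hP0 fun hc => ?_
      · rw [Real.rpow_sub_one hp.ne', div_mul_cancel₀ _ hp.ne']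
      · rw [hP]
        exact Real.rpow_le_rpow_of_nonpos hδ0 hc (by linarith)
  rw [integral_sub (integrable_const _) ((h.integrable cR).div_const _), integral_div,
    integral_const, smul_eq_mul] at h0
  linarith

theorem Ud_pt2 {M b H₀ v t w g k r r' Q : ℝ} (hM : 3 ≤ M) (hr' : 0 < r') (hr : r = r' * (v + t))
    (hg : g + w ^ 2 = v * (2 + b ^ 2 * v)) (hk : k ^ 2 = t * (2 - b ^ 2 * t))
    (hQ : r' * (v + t) ^ 2 ≤ Q) :
    M * H₀ * (r * w) - (M * (1 + b ^ 2 * v) * r + -(M - 1) * r' * g) ≤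
      (M * H₀) ^ 2 * Q + ((M - 2) * (1 - b ^ 2 * t) * r - (M - 1) * k ^ 2 * r') := by
  have e0 : g = v * (2 + b ^ 2 * v) - w ^ 2 := by linarith
  have e1 := mul_le_mul_of_nonneg_left hQ (sq_nonneg (M * H₀))
  have e2 : 0 ≤ r' * ((M * H₀ * (v + t) - w / 2) ^ 2 + (M - 1 - 1 / 4) * w ^ 2 +
      b ^ 2 * (v + t) ^ 2) := by
    have : 0 ≤ M - 1 - 1 / 4 := by linarith
    positivity
  rw [hk, hr, e0]
  linarith

theorem Ud_main (h : Sp0 m b H₀ G u K μ) {x : E} (hx : x ∈ K) {t : ℝ} (ht : 0 < t)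
    (ht2 : b ^ 2 * t ≤ 2) :
    0 ≤ (m * H₀) ^ 2 * (t ^ (-(((m : ℝ) - 3) / 2)) *
        ∫ z, (u x z.1 + t) ^ (-(((m : ℝ) - 1) / 2)) ∂μ) +
      ((m - 2) * (1 - b ^ 2 * t) * ∫ z, (u x z.1 + t) ^ (-((m : ℝ) - 1)) ∂μ -
        (m - 1) * kk b t ^ 2 * ∫ z, (u x z.1 + t) ^ (-((m : ℝ) - 1) - 1) ∂μ) := by
  have hM : (3 : ℝ) ≤ m := by exact_mod_cast h.three
  have c1 := Ud_contR h x ht (-(((m : ℝ) - 1) / 2))
  have c2 := Ud_contR h x ht (-((m : ℝ) - 1))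
  have c3 := Ud_contR h x ht (-((m : ℝ) - 1) - 1)
  have h0 := Ud_fv h hx ht ((m : ℝ) - 1)
    (φ := fun z => (m * H₀) ^ 2 * (t ^ (-(((m : ℝ) - 3) / 2)) *
        (u x z.1 + t) ^ (-(((m : ℝ) - 1) / 2))) +
      ((m - 2) * (1 - b ^ 2 * t) * (u x z.1 + t) ^ (-((m : ℝ) - 1)) -
        (m - 1) * kk b t ^ 2 * (u x z.1 + t) ^ (-((m : ℝ) - 1) - 1)))
    ((continuous_const.mul (continuous_const.mul c1)).add
      ((continuous_const.mul c2).sub (continuous_const.mul c3))) fun z hz hz1 => by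
      have hp := Ud_pos h x z.1 ht
      refine Ud_pt2 hM (Real.rpow_pos_of_pos hp _) ?_ (h.eik x z) (kk_sq ht.le ht2) ?_
      · rw [Real.rpow_sub_one hp.ne', div_mul_cancel₀ _ hp.ne']
      · have e : (u x z.1 + t) ^ (-((m : ℝ) - 1) - 1) * (u x z.1 + t) ^ 2 =
            (u x z.1 + t) ^ (-(((m : ℝ) - 3) / 2)) * (u x z.1 + t) ^ (-(((m : ℝ) - 1) / 2)) := by
          rw [← Real.rpow_two, ← Real.rpow_add hp, ← Real.rpow_add hp]
          congr 1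
          ring
        rw [e]
        refine mul_le_mul_of_nonneg_right (Real.rpow_le_rpow_of_nonpos ht ?_ (by linarith))
          (Real.rpow_pos_of_pos hp _).le
        have := h.nonneg x z.1
        linarith
  rw [integral_add (((h.integrable c1).const_mul _).const_mul _)
    (by exact ((h.integrable c2).const_mul _).sub ((h.integrable c3).const_mul _)),
    integral_sub ((h.integrable c2).const_mul _) ((h.integrable c3).const_mul _)] at h0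
  simpa only [integral_const_mul] using h0

theorem Ud_kk {n : ℕ} {t : ℝ} (ht : 0 < t) (ht1 : b ^ 2 * t ≤ 1) :
    kk b t ^ n / kk b t * t ^ (-((n : ℝ) / 2)) ≤ √2 ^ n / √t := by
  have hs : 0 < √t := Real.sqrt_pos.2 ht
  have h1 : √t ≤ kk b t := Real.sqrt_le_iff.2 ⟨kk_nonneg _ _, le_kk_sq ht.le ht1⟩
  have h2 : kk b t ≤ √2 * √t := by
    rw [← Real.sqrt_mul (by norm_num)]
    exact kk_le ht.le
  have h3 : t ^ (-((n : ℝ) / 2)) = (√t ^ n)⁻¹ := by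
    rw [Real.rpow_neg ht.le, Real.sqrt_eq_rpow, ← Real.rpow_natCast, ← Real.rpow_mul ht.le]
    congr 2
    ring
  have h4 : kk b t ^ n / kk b t ≤ (√2 * √t) ^ n / √t :=
    div_le_div₀ (by positivity) (pow_le_pow_left₀ (kk_nonneg _ _) h2 n) hs h1
  rw [h3]
  refine (mul_le_mul_of_nonneg_right h4 (by positivity)).trans (le_of_eq ?_)
  rw [mul_pow]
  field_simp

theorem Sp0.exists_sp1 (h : Sp0 m b H₀ G u K μ) : ∃ t₀ C : ℝ, Sp1 m b H₀ G u K μ t₀ C := by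
  have := h.fin
  obtain ⟨A, hA0, hA⟩ := Ud_sub h
  obtain ⟨n, rfl⟩ : ∃ n, m = n + 3 := ⟨m - 3, by have := h.three; omega⟩
  obtain ⟨t₀, ht0, hb0, ht1⟩ : ∃ t₀ : ℝ, 0 < t₀ ∧ b ^ 2 * t₀ ≤ 1 ∧ t₀ ≤ 1 := by
    refine ⟨1 / (b ^ 2 + 1), by positivity, ?_, ?_⟩
    · rw [mul_one_div, div_le_one (by positivity)]
      linarith
    · rw [div_le_one (by positivity)]
      have := sq_nonneg b
      linarith
  obtain ⟨B, hB⟩ : ∃ B : ℝ, B = (((n + 3 : ℕ) : ℝ) * H₀) ^ 2 * √2 ^ n * A := ⟨_, rfl⟩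
  have hB0 : 0 ≤ B := by rw [hB]; positivity
  have hn : (0 : ℝ) ≤ ((n + 3 : ℕ) : ℝ) - 1 := by
    push_cast
    have : (0 : ℝ) ≤ n := Nat.cast_nonneg n
    linarith
  have hk0 := kk_nonneg b t₀
  refine ⟨t₀, kk b t₀ ^ (n + 1) * (μ.real univ * t₀ ^ (-(((n + 3 : ℕ) : ℝ) - 1))) +
    2 * B * √t₀ + 1, h, ht0, hb0, by positivity, fun x hx t ht htt => ?_⟩
  have hd : ∀ s ∈ Icc t t₀, ∃ d : ℝ, 0 ≤ d ∧ HasDerivAt (fun s => kk b s ^ (n + 1) *
      (∫ z, (u x z.1 + s) ^ (-(((n + 3 : ℕ) : ℝ) - 1)) ∂μ) + 2 * B * √s) d s := by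
    intro s hs
    have hs0 : 0 < s := ht.trans_le hs.1
    have hs1 : b ^ 2 * s ≤ 1 := (mul_le_mul_of_nonneg_left hs.2 (sq_nonneg b)).trans hb0
    have hk : 0 < kk b s := kk_pos hs0 (by linarith)
    have hsq : 0 < √s := Real.sqrt_pos.2 hs0
    refine ⟨_, ?_, ((((hasDerivAt_kk hs0 (by linarith)).fun_pow (n + 1)).fun_mul
      (Ud_deriv h x hs0 hn)).fun_add ((Real.hasDerivAt_sqrt hs0.ne').const_mul (2 * B)))⟩
    have e1 := Ud_main h hx hs0 (by linarith : b ^ 2 * s ≤ 2)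
    have e2 := hA x hx s hs0 (hs.2.trans ht1)
    have e3 := Ud_kk (n := n) hs0 hs1
    have e4 : -((((n + 3 : ℕ) : ℝ) - 3) / 2) = -((n : ℝ) / 2) := by push_cast; ring
    rw [e4] at e1
    have e5 : 0 ≤ ∫ z, (u x z.1 + s) ^ (-((((n + 3 : ℕ) : ℝ) - 1) / 2)) ∂μ :=
      integral_nonneg fun z => (Real.rpow_pos_of_pos (Ud_pos h x z.1 hs0) _).le
    generalize ∫ z, (u x z.1 + s) ^ (-((((n + 3 : ℕ) : ℝ) - 1) / 2)) ∂μ = J at e1 e2 e5
    generalize ∫ z, (u x z.1 + s) ^ (-(((n + 3 : ℕ) : ℝ) - 1)) ∂μ = J₁ at e1 ⊢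
    generalize ∫ z, (u x z.1 + s) ^ (-(((n + 3 : ℕ) : ℝ) - 1) - 1) ∂μ = J₂ at e1 ⊢
    have hT : 0 < s ^ (-((n : ℝ) / 2)) := Real.rpow_pos_of_pos hs0 _
    generalize s ^ (-((n : ℝ) / 2)) = T at e1 e3 hT
    generalize kk b s = k at *
    have e6 := mul_nonneg (by positivity : 0 ≤ k ^ n / k) e1
    have e7 : k ^ n / k * T * J ≤ √2 ^ n / √s * A :=
      mul_le_mul e3 e2 e5 (by positivity)
    have e8 := mul_le_mul_of_nonneg_left e7 (sq_nonneg (((n + 3 : ℕ) : ℝ) * H₀))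
    have e9 : 2 * B * (1 / (2 * √s)) = (((n + 3 : ℕ) : ℝ) * H₀) ^ 2 * (√2 ^ n / √s * A) := by
      rw [hB]
      field_simp
    have e10 : ((n + 1 : ℕ) : ℝ) * k ^ (n + 1 - 1) * ((1 - b ^ 2 * s) / k) * J₁ +
        k ^ (n + 1) * (-(((n + 3 : ℕ) : ℝ) - 1) * J₂) =
        k ^ n / k * ((((n + 3 : ℕ) : ℝ) - 2) * (1 - b ^ 2 * s) * J₁ -
          (((n + 3 : ℕ) : ℝ) - 1) * k ^ 2 * J₂) := by
      rw [Nat.add_sub_cancel]
      push_cast
      field_simp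
      ring
    rw [e9, e10]
    linarith
  have hmono : MonotoneOn (fun s => kk b s ^ (n + 1) *
      (∫ z, (u x z.1 + s) ^ (-(((n + 3 : ℕ) : ℝ) - 1)) ∂μ) + 2 * B * √s) (Icc t t₀) := by
    refine monotoneOn_of_deriv_nonneg (convex_Icc _ _) (fun s hs => ?_) (fun s hs => ?_)
      fun s hs => ?_
    · obtain ⟨d, -, hd⟩ := hd s hs
      exact hd.continuousAt.continuousWithinAt
    · obtain ⟨d, -, hd⟩ := hd s (interior_subset hs)
      exact hd.differentiableAt.differentiableWithinAt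
    · obtain ⟨d, hd0, hd⟩ := hd s (interior_subset hs)
      rw [hd.deriv]
      exact hd0
  have e1 := hmono ⟨le_rfl, htt⟩ ⟨htt, le_rfl⟩ htt
  beta_reduce at e1
  have e2 : ∫ z, (u x z.1 + t₀) ^ (-(((n + 3 : ℕ) : ℝ) - 1)) ∂μ ≤
      μ.real univ * t₀ ^ (-(((n + 3 : ℕ) : ℝ) - 1)) := by
    rw [← smul_eq_mul, ← integral_const]
    refine integral_mono (h.integrable (Ud_contR h x ht0 _)) (integrable_const _) fun z => ?_
    refine Real.rpow_le_rpow_of_nonpos ht0 ?_ (by linarith)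
    have := h.nonneg x z.1
    linarith
  have e3 := mul_le_mul_of_nonneg_left e2 (pow_nonneg hk0 (n + 1))
  have e4 : ∫ z, kk b t ^ (n + 3 - 2) / (u x z.1 + t) ^ (n + 3 - 1) ∂μ =
      kk b t ^ (n + 1) * ∫ z, (u x z.1 + t) ^ (-(((n + 3 : ℕ) : ℝ) - 1)) ∂μ := by
    rw [← integral_const_mul]
    refine integral_congr_ae (Eventually.of_forall fun z => ?_)
    have e : ((n + 3 : ℕ) : ℝ) - 1 = ((n + 2 : ℕ) : ℝ) := by push_cast; ring
    beta_reduce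
    rw [e, Real.rpow_neg (Ud_pos h x z.1 ht).le, Real.rpow_natCast, div_eq_mul_inv]
    rfl
  have e5 : 0 ≤ 2 * B * √t := by positivity
  rw [e4]
  linarith

end Vale.Agent.P219
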