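import Vale.Agent.P219.S.U1
import Vale.Agent.P219.S.Kk

/-!
# The conformal factor has small volume integral  (TASK)

`cf^m ≤ e t (rr y x)` with `e t r = (√(2t) / (r² / 2 + t))^m` (`kk_le`, `le_ww`).  `Pack.radial_bound`.  `e t r ≤ 1 / r^m` (AM-GM: `r √(2t) ≤ r² / 2 + t`), integrable on the ball in dimension `m + 1`
(`integrableOn_ball_of_norm_le_rpow` or `integrable_fun_norm_addHaar`), and `e t r → 0` as `t → 0` for `r ≠ 0`: dominated convergence (`tendsto_integral_filter_of_dominated_convergence`).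
Or directly: `e t r ≤ min (1 / r^m) ((√(2t) 2 / δ²)^m)` and split at `r = δ`.
-/

namespace Vale.Agent.P219

open scoped ContDiff Topology RealInnerProductSpace ENNReal
open MeasureTheory Set Filter Vale.Agent.P255
open St (sn gmod)

variable {E : Type*} [NormedAddCommGroup E] [InnerProductSpace ℝ E] [FiniteDimensional ℝ E]
  [MeasurableSpace E] [BorelSpace E] {G : E → Bil E} {L : E → E → E} {K : Set E} {m : ℕ}
  {b H₀ σ t₀ C S c : ℝ} {u : E → E → ℝ} {μ : Measure (E × E)}

theorem vsm_le {t : ℝ} (ht : 0 < t) {r : ℝ} (hr : 0 < r) : √(2 * t) / (r ^ 2 / 2 + t) ≤ r⁻¹ := by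
  rw [div_le_iff₀ (by positivity), inv_mul_eq_div, le_div_iff₀ hr]
  nlinarith [sq_nonneg (√(2 * t) - r), Real.sq_sqrt (show 0 ≤ 2 * t by positivity)]

theorem vsm_int (hE : Module.finrank ℝ E = m + 1) (R : ℝ) :
    IntegrableOn (fun v : E => (‖v‖ ^ m)⁻¹) (Metric.closedBall 0 R) := by
  refine IntegrableOn.mono_set (t := Metric.ball 0 (R + 1)) ?_
    (Metric.closedBall_subset_ball (by linarith))
  refine integrableOn_ball_of_norm_le_rpow (C := 1) (α := m) (by omega)
    (by rw [hE]; push_cast; linarith) (Eventually.of_forall fun x => ?_)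
    (Measurable.aestronglyMeasurable (by fun_prop))
  rw [one_mul, Real.rpow_neg (norm_nonneg _), Real.rpow_natCast, Real.norm_of_nonneg (by positivity)]

theorem vsm_lim (hE : Module.finrank ℝ E = m + 1) (hm : 1 ≤ m) (R : ℝ) :
    Tendsto (fun t : ℝ => ∫ v in Metric.closedBall (0 : E) R, (√(2 * t) / (‖v‖ ^ 2 / 2 + t)) ^ m)
      (𝓝[>] 0) (𝓝 0) := by
  haveI : Nontrivial E := Module.nontrivial_of_finrank_pos (R := ℝ) (by omega)
  have h0 : ∀ᵐ v : E ∂(volume.restrict (Metric.closedBall (0 : E) R)), v ≠ 0 :=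
    ae_restrict_of_ae (by simp [ae_iff])
  have h := tendsto_integral_filter_of_dominated_convergence
    (μ := volume.restrict (Metric.closedBall (0 : E) R)) (l := 𝓝[>] (0 : ℝ))
    (F := fun t v => (√(2 * t) / (‖v‖ ^ 2 / 2 + t)) ^ m) (f := fun _ => 0)
    (fun v : E => (‖v‖ ^ m)⁻¹)
    (Eventually.of_forall fun t => Measurable.aestronglyMeasurable (by fun_prop))
    (eventually_mem_nhdsWithin.mono fun t ht => h0.mono fun v hv => by
      have ht' : 0 < t := ht
      rw [Real.norm_of_nonneg (by positivity), ← inv_pow]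
      exact pow_le_pow_left₀ (by positivity) (vsm_le ht' (norm_pos_iff.2 hv)) m)
    (vsm_int hE R) (h0.mono fun v hv => by
      have hv' : ‖v‖ ^ 2 / 2 + 0 ≠ 0 := by
        have := norm_pos_iff.2 hv
        positivity
      have hc : ContinuousAt (fun t : ℝ => (√(2 * t) / (‖v‖ ^ 2 / 2 + t)) ^ m) 0 :=
        (ContinuousAt.div (by fun_prop) (by fun_prop) hv').pow m
      have := hc.tendsto.mono_left (nhdsWithin_le_nhds (s := Ioi 0))
      simpa [zero_pow (show m ≠ 0 by omega)] using this)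
  simpa using h

theorem Pack.vsm (hE : Module.finrank ℝ E = m + 1) (hm : 1 ≤ m) (hP : Pack G L) (hK : IsCompact K)
    {l : ℝ} (hl : 0 < l) : ∃ t₁ : ℝ, 0 < t₁ ∧ ∀ t : ℝ, 0 < t → t ≤ t₁ → ∀ y ∈ K, ∀ T : Set E,
      MeasurableSet T → T ⊆ K → ∫ x in T, cf b (uu b G L y) t x ^ m * wt (G x) ≤ l := by
  obtain ⟨J, R, hJ, -, -, h⟩ := hP.radial_bound hK
  have h1 := (vsm_lim hE hm R).eventually (gt_mem_nhds (div_pos hl hJ))
  obtain ⟨t₁, ht₁, h2⟩ := (mem_nhdsGT_iff_exists_Ioc_subset (a := (0 : ℝ))).1 h1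
  refine ⟨t₁, ht₁, fun t ht ht' y hy T hT hTK => ?_⟩
  have hc : Continuous fun r : ℝ => (√(2 * t) / (r ^ 2 / 2 + t)) ^ m :=
    (continuous_const.div (by fun_prop) fun r => by positivity).pow m
  obtain ⟨h3, h4⟩ := h y hy T hT hTK (fun r => (√(2 * t) / (r ^ 2 / 2 + t)) ^ m) hc.measurable
    (fun r => by positivity)
    ((hc.comp continuous_norm).continuousOn.integrableOn_compact (isCompact_closedBall _ _))
  have h5 : J * ∫ v in Metric.closedBall (0 : E) R, (√(2 * t) / (‖v‖ ^ 2 / 2 + t)) ^ m ≤ l :=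
    ((lt_div_iff₀' hJ).1 (h2 ⟨ht, ht'⟩)).le
  have hw : ∀ x, 0 ≤ wt (G x) := fun x => Real.sqrt_nonneg _
  refine le_trans (integral_mono_of_nonneg (Eventually.of_forall fun x => ?_) h3
    (Eventually.of_forall fun x => ?_)) (h4.trans h5)
  · exact mul_nonneg (pow_nonneg (cf_nonneg (uu_nonneg b G L y) ht x) m) (hw x)
  · refine mul_le_mul_of_nonneg_right
      (pow_le_pow_left₀ (cf_nonneg (uu_nonneg b G L y) ht x) ?_ m) (hw x)
    exact div_le_div₀ (Real.sqrt_nonneg _) (kk_le ht.le) (by positivity)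
      (by linarith [le_ww b (rr G L y x), show uu b G L y x = ww b (rr G L y x) from rfl])

end Vale.Agent.P219
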