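import Vale.Agent.P219.S.Up1
import Vale.Agent.P219.S.Vsm

/-!
# The upper density bound for the flux  (TASK)

`div_wt` for the field `κ • Z`, `κ = cf^m`; `covD_smul`, `trc_add`, `trc_smul`, `trc_smulRight`; `dκ = -(m k^m / R^(m+1)) du`.  `|trc (covD Z)| ≤ B` on `K` (`continuous_covD`, `continuous_trc`), `vsm`, `up1`.
-/

namespace Vale.Agent.P219

open scoped ContDiff Topology RealInnerProductSpace ENNReal
open MeasureTheory Set Filter Vale.Agent.P255
open St (sn gmod)

variable {E : Type*} [NormedAddCommGroup E] [InnerProductSpace ℝ E] [FiniteDimensional ℝ E]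
  [MeasurableSpace E] [BorelSpace E] {G : E → Bil E} {L : E → E → E} {K : Set E} {m : ℕ}
  {b H₀ σ t₀ C S c : ℝ} {u : E → E → ℝ} {μ : Measure (E × E)}

theorem up2_der (k : ℝ) {t v : ℝ} (hm : 1 ≤ m) (h : v + t ≠ 0) :
    HasDerivAt (fun w => (k / (w + t)) ^ m) (-(m * k ^ m / (v + t) ^ (m + 1))) v := by
  obtain ⟨n, rfl⟩ : ∃ n, m = n + 1 := ⟨m - 1, by omega⟩
  refine (((hasDerivAt_const v k).fun_div ((hasDerivAt_id' v).add_const t) h).fun_pow
    (n + 1)).congr_deriv ?_
  rw [Nat.add_sub_cancel, div_pow]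
  field_simp
  ring

theorem Pack.up2 (hE : Module.finrank ℝ E = m + 1) (hm : 1 ≤ m) (hP : Pack G L) (hK : IsCompact K)
    (D : NDom G K) {Z : E → E} (hZ : ContDiff ℝ 1 Z) (h1 : ∀ y ∈ K, G y (Z y) (Z y) ≤ 1) {l : ℝ}
    (hl : 0 < l) : ∃ t₁ : ℝ, 0 < t₁ ∧ ∀ t : ℝ, 0 < t → t ≤ t₁ → ∀ y ∈ K,
      ∫ z, cf b (uu b G L y) t z.1 ^ m * G z.1 z.2 (Z z.1) ∂D.μ ≤ (m + 1) * om E + l := by
  have hc : Continuous fun x => trc (covD G Z x) :=
    continuous_trc.comp (continuous_covD hP.loc hZ)
  obtain ⟨B, hB⟩ := hK.exists_bound_of_continuousOn hc.continuousOn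
  have hB0 : 0 < max B 0 + 1 := by positivity
  obtain ⟨t₁, ht₁, H1⟩ := hP.up1 (b := b) hE hm hK hZ.continuous h1 (half_pos hl)
  obtain ⟨t₂, ht₂, H2⟩ := hP.vsm (b := b) hE hm hK (div_pos (half_pos hl) hB0)
  refine ⟨min t₁ t₂, lt_min ht₁ ht₂, fun t ht htt y hy => ?_⟩
  have h2 := H1 t ht (htt.trans (min_le_left _ _)) y hy D.Ω D.meas D.sub
  have h3 := (le_div_iff₀ hB0).1 (H2 t ht (htt.trans (min_le_right _ _)) y hy D.Ω D.meas D.sub)
  have hu : ContDiff ℝ 2 (uu b G L y) := ((hP.contDiff_uu b).comp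
    (f := fun x : E => (y, x)) (contDiff_const.prodMk contDiff_id)).of_le ENat.LEInfty.out
  have hR : ∀ x, 0 < uu b G L y x + t := fun x => add_pos_of_nonneg_of_pos (uu_nonneg b G L y x) ht
  have hκ : ContDiff ℝ 1 fun x => cf b (uu b G L y) t x ^ m :=
    ((contDiff_cf (uu_nonneg b G L y) hu ht).of_le one_le_two).pow m
  have hw : Continuous fun x => wt (G x) := (contDiff_wt hP.loc).continuous
  have hd : Continuous (fderiv ℝ (uu b G L y)) := hu.continuous_fderiv two_ne_zero
  have e := D.div_wt hP.loc (Z := fun x => cf b (uu b G L y) t x ^ m • Z x) (hκ.smul hZ)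
  simp only [map_smul, smul_eq_mul] at e
  have i1 : IntegrableOn (fun x => m * kk b t ^ m / (uu b G L y x + t) ^ (m + 1) *
      -fderiv ℝ (uu b G L y) x (Z x) * wt (G x)) D.Ω :=
    ((((continuous_const.div ((hu.continuous.add continuous_const).pow _)
      fun x => (pow_pos (hR x) _).ne').mul (hd.clm_apply hZ.continuous).neg).mul
        hw).continuousOn.integrableOn_compact hK).mono_set D.sub
  have i2 : IntegrableOn (fun x => cf b (uu b G L y) t x ^ m * wt (G x)) D.Ω :=
    ((hκ.continuous.mul hw).continuousOn.integrableOn_compact hK).mono_set D.sub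
  have i3 : IntegrableOn (fun x => wt (G x) *
      trc (covD G (fun x => cf b (uu b G L y) t x ^ m • Z x) x)) D.Ω :=
    ((hw.mul (continuous_trc.comp
      (continuous_covD hP.loc (hκ.smul hZ)))).continuousOn.integrableOn_compact hK).mono_set D.sub
  have h4 := setIntegral_mono_on i3 (i1.add (i2.mul_const (max B 0 + 1))) D.meas fun x hx => by
    have a1 := (up2_der (kk b t) hm (hR x).ne').comp_hasFDerivAt x
      (hu.differentiable two_ne_zero x).hasFDerivAt
    have a2 : trc (covD G Z x) ≤ max B 0 + 1 :=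
      ((le_abs_self _).trans (hB x (D.sub hx))).trans ((le_max_left _ _).trans (lt_add_one _).le)
    have a3 := mul_le_mul_of_nonneg_left a2 (mul_nonneg
      (pow_nonneg (cf_nonneg (b := b) (uu_nonneg b G L y) ht x) m) (wt_pos (posB_of_loc hP.loc x)).le)
    rw [covD_smul (f := fun x => cf b (uu b G L y) t x ^ m) a1 (hZ.differentiable one_ne_zero x),
      trc_add, trc_smul, trc_smulRight]
    simp only [Pi.add_apply, smul_apply, smul_eq_mul]
    linarith
  simp only [Pi.add_apply] at h4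
  rw [e, integral_add i1 (i2.mul_const _), integral_mul_const] at h4
  linarith

end Vale.Agent.P219
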