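import Vale.Agent.P219.S.U2
import Vale.Agent.P219.S.Ud
import Vale.Agent.P219.S.Bal5
import Vale.Agent.P219.S.Dual
import Vale.Agent.P219.S.Up2
import Vale.Agent.P219.S.Low
import Vale.Agent.P219.S.Dens
import Vale.Agent.P219.S.Rg1
import Vale.Agent.P219.S.Rg2
import Vale.Agent.P219.G.Stat

/-!
# The core statements

`sp2`: `sp0`, `exists_sp1`, `dens_of` with `low`, and `φ z = G z.1 z.2 (Z z.1)` from `dual`, `up2` (`φ ≤ 1` by `PosB.sq_le`), `bal`.  `core_ineq`: `area` with `σ = sn b ρ`, `hh_sq`.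
`core_rig`: `rigid`, `sn_sq`, `strictMono_sn`, `fderiv_uu`, `ball_sub`.  `ineqS`, `rigidS`: copy `ineq_gen`, `rigid_gen` (`G/Ineq`).
-/

namespace Vale.Agent.P219

open scoped ContDiff Topology RealInnerProductSpace ENNReal
open MeasureTheory Set Filter Vale.Agent.P255
open St (sn gmod)

variable {E : Type*} [NormedAddCommGroup E] [InnerProductSpace ℝ E] [FiniteDimensional ℝ E]
  [MeasurableSpace E] [BorelSpace E] {G : E → Bil E} {L : E → E → E} {K : Set E} {m : ℕ}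
  {b H₀ σ t₀ C S c : ℝ} {u : E → E → ℝ} {μ : Measure (E × E)}

theorem PackK.sp2 (hE : Module.finrank ℝ E = m + 1) (hm : 3 ≤ m) (hP : PackK b G L) (hc : 0 < c)
    {D : NDom G (KB G L c)} (hD : NDom.Stat L c D (m * H₀)) (hT : D.Tight) :
    ∃ t₀ C : ℝ, Sp2 m b H₀ G (uu b G L) (KB G L c) D.μ t₀ C ((m + 1) * om E) := by
  obtain ⟨t₀, C, h⟩ := (hP.sp0 hE hm hD).exists_sp1
  have hK := hP.toPack.isCompact_KB c
  have ho := om_pos (E := E)
  refine ⟨t₀, C, h, by positivity, fun t ht ht0 => ?_, hP.bal hE hc h⟩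
  refine h.dens_of (fun t ht ht0 => hP.toPack.low hE hD hT h ht ht0) (fun l hl => ?_) ht ht0
  obtain ⟨Z, hZ, h1, h2⟩ := hT.dual hP.loc hK hl
  obtain ⟨t₁, h3, h4⟩ := hP.toPack.up2 (b := b) hE (by omega) hK D hZ h1 hl
  refine ⟨fun z => G z.1 z.2 (Z z.1), t₁, ?_, D.supp.mono fun z hz => ?_, h2, h3, h4⟩
  · exact (((norm_contG hP.loc).comp continuous_fst).clm_apply continuous_snd).clm_apply
      (hZ.continuous.comp continuous_fst)
  · have h5 := (posB_of_loc hP.loc z.1).sq_le z.2 (Z z.1)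
    rw [hz.2, one_mul] at h5
    exact (abs_le.1 ((sq_le_one_iff_abs_le_one _).1 (h5.trans (h1 _ hz.1)))).2

theorem PackK.core_ineq (hE : Module.finrank ℝ E = m + 1) (hm : 3 ≤ m) (hP : PackK b G L)
    (hc : 0 < c) {ρ : ℝ} (hρ : 0 < ρ) {D : NDom G (KB G L c)}
    (hD : NDom.Stat L c D (m * hh b ρ)) (hT : D.Tight) (hA : 0 < D.A) : Am (om E) m b ρ ≤ D.A := by
  obtain ⟨t₀, C, h⟩ := hP.sp2 hE hm hc hD hT
  exact h.area (hh_sq b hρ) (sn_pos b hρ) hA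

theorem PackK.core_rig (hE : Module.finrank ℝ E = m + 1) (hm : 3 ≤ m) (hP : PackK b G L)
    (hc : 0 < c) {ρ : ℝ} (hρ : 0 < ρ) {D : NDom G (KB G L c)}
    (hD : NDom.Stat L c D (m * hh b ρ)) (hT : D.Tight) (hA : D.A = Am (om E) m b ρ) :
    ∃ o, ∀ᵐ x, rr G L o x < ρ → x ∈ D.Ω := by
  obtain ⟨t₀, C, h⟩ := hP.sp2 hE hm hc hD hT
  obtain ⟨p, -, hp⟩ := h.rigid (hh_sq b hρ) (sn_pos b hρ) (hh_pos b hρ) hA
  have hA0 : 0 < D.A := hA ▸ Am_pos (om_pos (E := E)) hρ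
  refine ⟨p, hP.toPack.ball_sub hE (hP.toPack.isCompact_KB c) D hA0 hρ (hp.mono fun z hz => ?_)⟩
  obtain ⟨h1, h2⟩ := hz
  have r0 := rr_nonneg G L p z.1
  have s0 : 0 ≤ sn b (rr G L p z.1) := r0.trans (le_sn b r0)
  rw [uu, ← sn_sq, pow_left_inj₀ s0 (sn_pos b hρ).le two_ne_zero] at h1
  rw [wn, hP.toPack.fderiv_uu, h1] at h2
  exact ⟨(strictMono_sn b).injective h1, (mul_pos_iff_of_pos_left (sn_pos b hρ)).1 h2⟩

theorem PackK.ineqS (hE : Module.finrank ℝ E = m + 1) (hm : 3 ≤ m) (hP : PackK b G L) (hc : 0 < c)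
    (D : NDom G (KB G L c)) : Ipr (om E) m b D.V ≤ D.A := by
  have hK := hP.toPack.isCompact_KB c
  have ho := om_pos (E := E)
  obtain ⟨D₀, h0⟩ := exists_min hP.loc hK (continuousOn_Ipr (m := m) (b := b) ho)
  suffices h : Ipr (om E) m b D₀.V ≤ D₀.A by linarith [h0 D]
  rcases D₀.V_nonneg.eq_or_lt with h | hV
  · rw [← h, Ipr_zero ho (by omega)]
    exact D₀.A_nonneg
  obtain ⟨r0, r1⟩ := rad_spec (m := m) (b := b) ho hV.le
  set ρ := rad (om E) m b D₀.V with hρ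
  have hρ0 : 0 < ρ := by
    refine r0.lt_of_ne fun h => ?_
    rw [← h, Vm_zero] at r1
    exact hV.ne r1
  have hS := h0.stat hE (by omega) hP.toPack hc (monotoneOn_Ipr ho) hV
    (r1 ▸ hasDerivAt_Ipr ho hρ0)
  exact hP.core_ineq hE hm hc hρ0 hS h0.tight (D₀.A_pos hP.loc hK hE hV)

theorem PackK.rigidS (hE : Module.finrank ℝ E = m + 1) (hm : 3 ≤ m) (hP : PackK b G L) (hc : 0 < c)
    (D : NDom G (KB G L c)) {ρ : ℝ} (hρ : 0 < ρ) (hV : D.V = Vm (om E) m b ρ)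
    (hA : D.A = Am (om E) m b ρ) : ∃ o, ∀ᵐ x, rr G L o x < ρ → x ∈ D.Ω := by
  have ho := om_pos (E := E)
  have h0 : D.IsMin (Ipr (om E) m b) := fun D' => by
    have := hP.ineqS hE hm hc D'
    rw [hV, Ipr_Vm ho hρ.le, hA]
    linarith
  have hS := h0.stat hE (by omega) hP.toPack hc (monotoneOn_Ipr ho) (hV ▸ Vm_pos ho hρ)
    (hV ▸ hasDerivAt_Ipr ho hρ)
  exact hP.core_rig hE hm hc hρ hS h0.tight hA

end Vale.Agent.P219
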