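import Vale.Agent.P219.G.Basic

/-!
# Sharp Sobolev inequality on the boundary: definitions (overview: `notes/P219S.md`)

`μ` is a finite measure on unit vectors `z = (y, ν)`; `u p y` plays the role of `ww b (rr p y)`;
`R = u p y + s`, `k = kk b s`, and `cf = k / R` is the conformal factor of a round sphere.
-/

namespace Vale.Agent.P219

open scoped ContDiff Topology RealInnerProductSpace ENNReal
open MeasureTheory Set Filter Vale.Agent.P255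
open St (sn)

/-- The critical exponent. -/
noncomputable def qE (m : ℕ) : ℝ := 2 * m / (m - 2)

/-- The constant of the conformal Laplacian. -/
noncomputable def cE (m : ℕ) : ℝ := m * (m - 2) / 4

/-- The conformal weight. -/
noncomputable def bE (m : ℕ) : ℝ := (m - 2) / 2

/-- The scale attached to the parameter `s`. -/
noncomputable def kk (b s : ℝ) : ℝ := √(s * (2 - b ^ 2 * s))

/-- The truncated Green kernel. -/
noncomputable def grn (m : ℕ) (b t t₁ v : ℝ) : ℝ :=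
  ∫ s in t..t₁, kk b s ^ (m - 2) / (v + s) ^ m

variable {E : Type*} [NormedAddCommGroup E] [InnerProductSpace ℝ E] [FiniteDimensional ℝ E]

/-- The inner product of the gradients tangential to the hyperplane orthogonal to `z.2`. -/
noncomputable def Gt (G : E → Bil E) (f g : E → ℝ) (z : E × E) : ℝ :=
  fderiv ℝ f z.1 ((G z.1).inverse (fderiv ℝ g z.1)) - fderiv ℝ f z.1 z.2 * fderiv ℝ g z.1 z.2

/-- The normal derivative. -/
noncomputable def wn (f : E → ℝ) (z : E × E) : ℝ := fderiv ℝ f z.1 z.2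

/-- The model radial function. -/
noncomputable def uu (b : ℝ) (G : E → Bil E) (L : E → E → E) (p y : E) : ℝ := ww b (rr G L p y)

/-- The conformal factor. -/
noncomputable def cf (b : ℝ) (v : E → ℝ) (s : ℝ) (y : E) : ℝ := kk b s / (v y + s)

/-- The conformal transform of a function. -/
noncomputable def Fq (m : ℕ) (b : ℝ) (v : E → ℝ) (s : ℝ) (f : E → ℝ) (y : E) : ℝ :=
  f y / cf b v s y ^ bE m

variable [MeasurableSpace E] [BorelSpace E]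

/-- The conformal mass of `g`. -/
noncomputable def Mk (m : ℕ) (b : ℝ) (μ : Measure (E × E)) (v : E → ℝ) (s : ℝ) (g : E → ℝ) : ℝ :=
  ∫ z, g z.1 * cf b v s z.1 ^ m ∂μ

/-- The conformal mass of a set. -/
noncomputable def cms (m : ℕ) (b : ℝ) (μ : Measure (E × E)) (v : E → ℝ) (s : ℝ)
    (T : Set (E × E)) : ℝ :=
  ∫ z in T, cf b v s z.1 ^ m ∂μ

/-- The slack in the first variation inequality for the field `φ ∇v`. -/
noncomputable def Tf (m : ℕ) (b H₀ : ℝ) (G : E → Bil E) (μ : Measure (E × E)) (v φ : E → ℝ) : ℝ :=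
  m * H₀ * ∫ z, φ z.1 * wn v z ∂μ - ∫ z, (m * (1 + b ^ 2 * v z.1) * φ z.1 + Gt G φ v z) ∂μ

/-- The quadratic form. -/
noncomputable def Yf (G : E → Bil E) (μ : Measure (E × E)) (α : ℝ) (f : E → ℝ) : ℝ :=
  ∫ z, (Gt G f f z + α * f z.1 ^ 2) ∂μ

/-- The critical norm to the critical power. -/
noncomputable def Nq (m : ℕ) (μ : Measure (E × E)) (f : E → ℝ) : ℝ := ∫ z, |f z.1| ^ qE m ∂μ

/-- First deficit. -/
noncomputable def df1 (m : ℕ) (b : ℝ) (G : E → Bil E) (μ : Measure (E × E)) (v : E → ℝ) (s : ℝ)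
    (f : E → ℝ) : ℝ :=
  ∫ z, cf b v s z.1 ^ (m - 2) * Gt G (Fq m b v s f) (Fq m b v s f) z ∂μ

/-- Second deficit. -/
noncomputable def df2 (H₀ : ℝ) (μ : Measure (E × E)) (v : E → ℝ) (s : ℝ) (f : E → ℝ) : ℝ :=
  ∫ z, f z.1 ^ 2 * (wn v z / (v z.1 + s) - H₀) ^ 2 ∂μ

/-- Third deficit. -/
noncomputable def df3 (m : ℕ) (b H₀ : ℝ) (G : E → Bil E) (μ : Measure (E × E)) (v : E → ℝ) (s : ℝ)
    (f : E → ℝ) : ℝ :=
  Tf m b H₀ G μ v fun y => f y ^ 2 / (v y + s)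

/-- The total deficit. -/
noncomputable def dfT (m : ℕ) (b H₀ ε : ℝ) (G : E → Bil E) (μ : Measure (E × E)) (v : E → ℝ)
    (s : ℝ) (f : E → ℝ) : ℝ :=
  ε * ∫ z, f z.1 ^ 2 ∂μ + df1 m b G μ v s f + cE m * df2 H₀ μ v s f + bE m * df3 m b H₀ G μ v s f

/-- All deficits and the `L²` norm are at most `δ`. -/
structure Small (m : ℕ) (b H₀ : ℝ) (G : E → Bil E) (μ : Measure (E × E)) (v : E → ℝ) (s : ℝ)
    (f : E → ℝ) (δ : ℝ) : Prop where
  l2 : ∫ z, f z.1 ^ 2 ∂μ ≤ δ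
  one : df1 m b G μ v s f ≤ δ
  two : df2 H₀ μ v s f ≤ δ
  three : df3 m b H₀ G μ v s f ≤ δ

/-- The Green potential of a set. -/
noncomputable def Kav (m : ℕ) (b : ℝ) (μ : Measure (E × E)) (u : E → E → ℝ) (T : Set (E × E))
    (t t₁ : ℝ) (x : E) : ℝ :=
  ∫ z in T, √(u x z.1 * (2 + b ^ 2 * u x z.1)) * grn m b t t₁ (u x z.1) ∂μ

/-- The error of the averaged monotonicity formula. -/
noncomputable def Er (m : ℕ) (b : ℝ) (G : E → Bil E) (μ : Measure (E × E)) (u : E → E → ℝ)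
    (g : E → ℝ) (T : Set (E × E)) (t t₁ : ℝ) : ℝ :=
  ∫ z in T, ∫ x, |Gt G g (u z.1) x| * grn m b t t₁ (u z.1 x.1) ∂μ ∂μ

/-- The Sobolev inequality with constant `lam`. -/
def SI (m : ℕ) (G : E → Bil E) (μ : Measure (E × E)) (α lam : ℝ) : Prop :=
  ∀ f : E → ℝ, ContDiff ℝ 2 f → lam * Nq m μ f ^ (2 / qE m) ≤ Yf G μ α f

/-- The basic properties of the boundary measure and of the radial functions. -/
structure Sp0 (m : ℕ) (b H₀ : ℝ) (G : E → Bil E) (u : E → E → ℝ) (K : Set E)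
    (μ : Measure (E × E)) : Prop where
  three : 3 ≤ m
  loc : LocMetric G univ
  cpt : IsCompact K
  fin : IsFiniteMeasure μ
  supp : ∀ᵐ z ∂μ, z ∈ UB G K
  smooth : ContDiff ℝ ∞ fun z : E × E => u z.1 z.2
  nonneg : ∀ p y, 0 ≤ u p y
  symm : ∀ p y, u p y = u y p
  self : ∀ p, u p p = 0
  sep : ∀ η : ℝ, 0 < η → ∃ δ : ℝ, 0 < δ ∧ ∀ x ∈ K, ∀ y ∈ K, u x y ≤ δ → ‖x - y‖ ≤ η
  tri : ∀ η : ℝ, 0 < η → ∃ C : ℝ, 0 < C ∧ ∀ p ∈ K, ∀ y ∈ K, ∀ x ∈ K,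
    u p x ≤ (1 + η) * u y x + C * u p y
  eik : ∀ (p : E) (z : E × E),
    Gt G (u p) (u p) z + wn (u p) z ^ 2 = u p z.1 * (2 + b ^ 2 * u p z.1)
  fv : ∀ p ∈ K, ∀ φ : E → ℝ, ContDiff ℝ 2 φ → (∀ y ∈ K, 0 ≤ φ y) → 0 ≤ Tf m b H₀ G μ (u p) φ

/-- With the upper density bound. -/
structure Sp1 (m : ℕ) (b H₀ : ℝ) (G : E → Bil E) (u : E → E → ℝ) (K : Set E)
    (μ : Measure (E × E)) (t₀ C : ℝ) : Prop extends Sp0 m b H₀ G u K μ where
  t_pos : 0 < t₀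
  t_le : b ^ 2 * t₀ ≤ 1
  C_pos : 0 < C
  ud : ∀ x ∈ K, ∀ t : ℝ, 0 < t → t ≤ t₀ →
    ∫ z, kk b t ^ (m - 2) / (u x z.1 + t) ^ (m - 1) ∂μ ≤ C

/-- A balanced map to the unit sphere. -/
structure Bal (m : ℕ) (b : ℝ) (G : E → Bil E) (μ : Measure (E × E)) (v : E → ℝ) (s : ℝ)
    (a : E → ℝ) (Θ : Fin (m + 2) → E → ℝ) : Prop where
  smooth : ∀ i, ContDiff ℝ 2 (Θ i)
  unit : ∀ y, ∑ i, Θ i y ^ 2 = 1
  grad : ∀ᵐ z ∂μ, ∑ i, Gt G (Θ i) (Θ i) z ≤ m * cf b v s z.1 ^ 2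
  zero : ∀ i, ∫ z, a z.1 * Θ i z.1 ∂μ = 0

/-- With the lower density bound and balancing. -/
structure Sp2 (m : ℕ) (b H₀ : ℝ) (G : E → Bil E) (u : E → E → ℝ) (K : Set E)
    (μ : Measure (E × E)) (t₀ C S : ℝ) : Prop extends Sp1 m b H₀ G u K μ t₀ C where
  S_pos : 0 < S
  dens : ∀ t : ℝ, 0 < t → t ≤ t₀ →
    ∀ᵐ z ∂μ, S ≤ Mk m b μ (u z.1) t (fun _ => 1) + m * H₀ ^ 2 / 4 * C * t
  bal : ∀ a : E → ℝ, Continuous a → (∀ y, 0 ≤ a y) → ∫ z, a z.1 ∂μ = 1 →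
    ∃ p ∈ K, ∃ s : ℝ, 0 < s ∧ b ^ 2 * s < 2 ∧ ∃ Θ, Bal m b G μ (u p) s a Θ

end Vale.Agent.P219
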