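import Vale.Agent.P219.S.Base

/-!
# The derivative of the conformal mass  (TASK)

`hasDerivAt_Mk`: `hasDerivAt_integral_of_dominated_loc_of_deriv_le` on a small ball around `t` inside `0 < s`, `b² s < 2`; `d/ds (k / R)^m = m k^(m-2) (a R - k²) / R^(m+1)` with
`a = 1 - b² s` (`hasDerivAt_kk`, `kk_sq`); the derivative is continuous in `(s, z)`, so bounded on a compact interval times `UB G K`.
`Mk_id`: unfold `Tf`; `Gt (g R^(-m)) u = Gt g u / R^m - m g Gt u u / R^(m+1)` (`Gt_lin` or `Gt_mul`, `Gt_comp`), `eik`, `kk_cs`; linearity of the integral.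
-/

namespace Vale.Agent.P219

open scoped ContDiff Topology RealInnerProductSpace ENNReal
open MeasureTheory Set Filter Vale.Agent.P255
open St (sn gmod)

variable {E : Type*} [NormedAddCommGroup E] [InnerProductSpace ℝ E] [FiniteDimensional ℝ E]
  [MeasurableSpace E] [BorelSpace E] {G : E → Bil E} {L : E → E → E} {K : Set E} {m : ℕ}
  {b H₀ σ t₀ C S c : ℝ} {u : E → E → ℝ} {μ : Measure (E × E)}

theorem Der_inv {v s : ℝ} (m : ℕ) (h : 0 < v + s) :
    HasDerivAt (fun s : ℝ => ((v + s) ^ m)⁻¹) (-(m / (v + s) ^ (m + 1))) s := by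
  have h1 := (((hasDerivAt_id s).const_add v).fun_pow m).fun_inv (pow_ne_zero m h.ne')
  refine h1.congr_deriv ?_
  rcases m with _ | m
  · simp
  · simp only [id, Nat.add_sub_cancel]
    field_simp
    ring

theorem Sp0.Der_cont (h : Sp0 m b H₀ G u K μ) (p : E) {t : ℝ} (ht : 0 < t) {φ : E × E → ℝ}
    (hφ : Continuous φ) (k : ℕ) : Continuous fun z : E × E => φ z / (u p z.1 + t) ^ k :=
  hφ.div ((((h.cd2 p).continuous.comp continuous_fst).add continuous_const).pow k) fun z =>
    pow_ne_zero _ (add_pos_of_nonneg_of_pos (h.nonneg p z.1) ht).ne'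

theorem Sp0.Der_int (h : Sp0 m b H₀ G u K μ) (p : E) {g : E → ℝ} (hg : Continuous g) {t : ℝ}
    (ht : 0 < t) : HasDerivAt (fun s => ∫ z, g z.1 / (u p z.1 + s) ^ m ∂μ)
      (∫ z, -(m * g z.1 / (u p z.1 + t) ^ (m + 1)) ∂μ) t := by
  have hg1 : Continuous fun z : E × E => g z.1 := hg.comp continuous_fst
  refine (hasDerivAt_integral_of_dominated_loc_of_deriv_le (s := Ioi (t / 2))
    (F' := fun s z => -(m * g z.1 / (u p z.1 + s) ^ (m + 1)))
    (bound := fun z => m * |g z.1| / (t / 2) ^ (m + 1)) (Ioi_mem_nhds (by linarith)) ?_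
    (h.integrable (h.Der_cont p ht hg1 m))
    (h.Der_cont p ht (continuous_const.mul hg1) (m + 1)).neg.aestronglyMeasurable
    (Eventually.of_forall fun z s hs => ?_)
    (h.integrable ((continuous_const.mul hg1.abs).div_const _))
    (Eventually.of_forall fun z s hs => ?_)).2
  · filter_upwards [Ioi_mem_nhds ht] with s hs
    exact (h.Der_cont p hs hg1 m).aestronglyMeasurable
  · have h0 := h.nonneg p z.1
    have h1 : t / 2 < s := hs
    have h2 : 0 < u p z.1 + s := by linarith
    rw [norm_neg, Real.norm_eq_abs, abs_div, abs_mul, Nat.abs_cast, abs_of_pos (pow_pos h2 _)]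
    gcongr
    linarith
  · have h0 := h.nonneg p z.1
    have h1 : t / 2 < s := hs
    have h2 : 0 < u p z.1 + s := by linarith
    have := (Der_inv m h2).const_mul (g z.1)
    simp only [div_eq_mul_inv]
    exact this.congr_deriv (by ring)

theorem Sp0.hasDerivAt_Mk (h : Sp0 m b H₀ G u K μ) (p : E) {g : E → ℝ} (hg : Continuous g) {t : ℝ}
    (ht : 0 < t) (ht2 : b ^ 2 * t < 2) :
    HasDerivAt (fun s => Mk m b μ (u p) s g) (kk b t ^ (m - 2) * ∫ z, g z.1 *
      (m * ((1 - b ^ 2 * t) * (u p z.1 + t) - kk b t ^ 2) / (u p z.1 + t) ^ (m + 1)) ∂μ) t := by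
  have hg1 : Continuous fun z : E × E => g z.1 := hg.comp continuous_fst
  have e : (fun s => Mk m b μ (u p) s g) =
      fun s => kk b s ^ m * ∫ z, g z.1 / (u p z.1 + s) ^ m ∂μ := by
    funext s
    rw [Mk, ← integral_const_mul]
    refine integral_congr_ae (Eventually.of_forall fun z => ?_)
    simp only [cf, div_pow]
    ring
  rw [e]
  refine (((hasDerivAt_kk ht ht2).fun_pow m).fun_mul (h.Der_int p hg ht)).congr_deriv ?_
  have hk := kk_pos ht ht2
  obtain ⟨j, rfl⟩ : ∃ j, m = j + 2 := ⟨m - 2, by have := h.three; omega⟩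
  rw [← integral_const_mul, ← integral_const_mul, ← integral_const_mul]
  refine (integral_add ((h.integrable (h.Der_cont p ht hg1 _)).const_mul _)
      ((h.integrable (h.Der_cont p ht (continuous_const.mul hg1) _).neg).const_mul _)).symm.trans ?_
  refine integral_congr_ae (Eventually.of_forall fun z => ?_)
  have h2 : 0 < u p z.1 + t := add_pos_of_nonneg_of_pos (h.nonneg p z.1) ht
  simp only [Nat.add_sub_cancel, show j + 2 - 1 = j + 1 from rfl, Pi.neg_apply, Pi.mul_apply]
  field_simp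
  ring

theorem Sp0.Mk_id (h : Sp0 m b H₀ G u K μ) (p : E) {g : E → ℝ} (hg : ContDiff ℝ 2 g) {t : ℝ}
    (ht : 0 < t) (ht2 : b ^ 2 * t < 2) :
    ∫ z, g z.1 * (m * ((1 - b ^ 2 * t) * (u p z.1 + t) - kk b t ^ 2) / (u p z.1 + t) ^ (m + 1)) ∂μ =
      m * ∫ z, g z.1 * wn (u p) z ^ 2 / (u p z.1 + t) ^ (m + 1) ∂μ -
        m * H₀ * ∫ z, g z.1 * wn (u p) z / (u p z.1 + t) ^ m ∂μ +
        ∫ z, Gt G g (u p) z / (u p z.1 + t) ^ m ∂μ +
        Tf m b H₀ G μ (u p) fun y => g y / (u p y + t) ^ m := by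
  have hg1 : Continuous fun z : E × E => g z.1 := hg.continuous.comp continuous_fst
  have hu1 : ContDiff ℝ 1 (u p) := (h.cd2 p).of_le (by norm_num)
  have hu0 : Continuous fun z : E × E => u p z.1 := hu1.continuous.comp continuous_fst
  have hw := continuous_wn hu1
  have hG := continuous_Gt h.loc (hg.of_le (by norm_num)) hu1
  have hU := continuous_Gt h.loc hu1 hu1
  have hR : ∀ z : E × E, 0 < u p z.1 + t := fun z => add_pos_of_nonneg_of_pos (h.nonneg p z.1) ht
  have e1 : ∀ z : E × E, Gt G (fun y => g y / (u p y + t) ^ m) (u p) z =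
      Gt G g (u p) z / (u p z.1 + t) ^ m -
        m * g z.1 * Gt G (u p) (u p) z / (u p z.1 + t) ^ (m + 1) := fun z => by
    have d1 : HasDerivAt (fun v : ℝ => ((v + t) ^ m)⁻¹) (-(m / (u p z.1 + t) ^ (m + 1)))
        (u p z.1) := by
      have := Der_inv (v := t) (s := u p z.1) m (by rw [add_comm]; exact hR z)
      simpa only [add_comm t] using this
    have du : DifferentiableAt ℝ (u p) z.1 := hu1.differentiable one_ne_zero _
    have d2 := Gt_comp (G := G) d1 du (u p)
    have d3 := Gt_mul (G := G) (z := z) (hg.differentiable two_ne_zero _)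
      (d1.differentiableAt.comp z.1 du) (u p)
    simp only [Function.comp_def] at d3
    simp only [div_eq_mul_inv]
    rw [d3, d2]
    ring
  have e2 : ∫ z, g z.1 / (u p z.1 + t) ^ m * wn (u p) z ∂μ =
      ∫ z, g z.1 * wn (u p) z / (u p z.1 + t) ^ m ∂μ :=
    integral_congr_ae (Eventually.of_forall fun z => by simp only []; ring)
  have i1 := (h.integrable (h.Der_cont p ht (hg1.mul (hw.pow 2)) (m + 1))).const_mul (m : ℝ)
  have i2 := h.integrable (h.Der_cont p ht hG m)
  have i3 : Integrable (fun z : E × E => m * (1 + b ^ 2 * u p z.1) * (g z.1 / (u p z.1 + t) ^ m) +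
      (Gt G g (u p) z / (u p z.1 + t) ^ m -
        m * g z.1 * Gt G (u p) (u p) z / (u p z.1 + t) ^ (m + 1))) μ :=
    h.integrable (((continuous_const.mul (continuous_const.add (continuous_const.mul hu0))).mul
      (h.Der_cont p ht hg1 m)).add ((h.Der_cont p ht hG m).sub
        (h.Der_cont p ht ((continuous_const.mul hg1).mul hU) (m + 1))))
  have e3 := integral_sub (i1.add i2) i3
  simp only [Pi.add_apply, Pi.mul_apply, Pi.pow_apply] at e3
  have e4 := integral_add i1 i2
  simp only [Pi.mul_apply, Pi.pow_apply] at e4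
  rw [e4, integral_const_mul] at e3
  simp only [Tf, e1]
  rw [e2]
  refine Eq.trans ?_ (e3.trans (by ring))
  refine integral_congr_ae (Eventually.of_forall fun z => ?_)
  have k1 := h.eik p z
  have k2 := kk_cs (b := b) ht.le ht2.le (u p z.1)
  have k3 : (1 - b ^ 2 * t) * (u p z.1 + t) - kk b t ^ 2 =
      Gt G (u p) (u p) z + wn (u p) z ^ 2 - (1 + b ^ 2 * u p z.1) * (u p z.1 + t) := by linarith
  have k4 := (hR z).ne'
  simp only [k3]
  field_simp
  ring

end Vale.Agent.P219
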