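import Vale.Agent.P219.S.Kk

/-!
# Dyadic summation  (TASK)

Let `σ j = μ {2^j κ ≤ |f|}`, `a j = (2^j κ)^q σ j ≤ ∫ |f|^q = 1`, `e j` the integral of `e` over the `j`-th shell (disjoint shells: `∑ e j ≤ ∫ e`).  As `q (1 - 2 / m) = 2` (`one_sub_qE`, `cE_mul`, or direct),
the hypothesis gives `a (j+1)² ≤ C' 4^q a j^(1 + 2/m) e j ≤ C' 4^q a j e j`.  Pointwise, for `J` with `M < 2^J κ`: `|f|^q ≤ (2κ)^(q-2) f² + 2^q ∑ j < J, (2^(j+1) κ)^q 1{2^(j+1) κ ≤ |f|}` and
`∑ j < J, (2^j κ)^q 1{2^j κ ≤ |f|} ≤ 2 |f|^q` (induction on `J`, `2^q ≥ 2`).  Cauchy-Schwarz (`Finset.sum_mul_sq_le_sq_mul_sq`): `∑ a (j+1) ≤ √(C' 4^q) √2 √(∫ e)`.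
-/

namespace Vale.Agent.P219

open scoped ContDiff Topology RealInnerProductSpace ENNReal
open MeasureTheory Set Filter Vale.Agent.P255
open St (sn gmod)

theorem dy_w {q κ : ℝ} (hκ : 0 < κ) (j : ℕ) :
    (2 ^ (j + 1) * κ) ^ q = 2 ^ q * (2 ^ j * κ) ^ q := by
  rw [← Real.mul_rpow zero_le_two (by positivity), pow_succ', mul_assoc]

theorem dy_Q {q : ℝ} (hq : 2 < q) : (2 : ℝ) ≤ 2 ^ q := by
  simpa using Real.rpow_le_rpow_of_exponent_le one_le_two (show (1 : ℝ) ≤ q by linarith)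

theorem dy_p1 {q κ t : ℝ} (hq : 2 < q) (hκ : 0 < κ) (ht : 0 ≤ t) (J : ℕ) :
    ∑ j ∈ Finset.range J, (2 ^ j * κ) ^ q * (if 2 ^ j * κ ≤ t then 1 else 0) ≤ 2 * t ^ q := by
  have h1 : ∀ J, ∑ j ∈ Finset.range J, (2 ^ j * κ) ^ q * (if 2 ^ j * κ ≤ t then 1 else 0) ≤
      (2 ^ J * κ) ^ q := fun J => by
    induction J with
    | zero => rw [Finset.sum_range_zero]; positivity
    | succ J ih =>
      have : 0 < (2 ^ J * κ) ^ q := by positivity
      rw [Finset.sum_range_succ, dy_w hκ]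
      split_ifs <;> nlinarith [dy_Q hq]
  induction J with
  | zero => rw [Finset.sum_range_zero]; positivity
  | succ J ih =>
    rw [Finset.sum_range_succ]
    split_ifs with h
    · have := Real.rpow_le_rpow (by positivity) h (show 0 ≤ q by linarith)
      linarith [h1 J]
    · linarith

theorem dy_p2 {q κ t : ℝ} (hq : 2 < q) (hκ : 0 < κ) (ht : 0 ≤ t) (J : ℕ)
    (h : t < 2 ^ (J + 1) * κ) : t ^ q ≤ (2 * κ) ^ (q - 2) * t ^ 2 + 2 ^ q *
      ∑ j ∈ Finset.range J, (2 ^ (j + 1) * κ) ^ q * (if 2 ^ (j + 1) * κ ≤ t then 1 else 0) := by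
  induction J with
  | zero =>
    rw [Finset.sum_range_zero, mul_zero, add_zero, ← Real.rpow_two, ← sub_add_cancel q 2,
      Real.rpow_add' ht (by linarith), add_sub_cancel_right]
    exact mul_le_mul_of_nonneg_right (Real.rpow_le_rpow ht (by simpa using h.le) (by linarith))
      (by positivity)
  | succ J ih =>
    rw [Finset.sum_range_succ]
    split_ifs with h1
    · have h2 := Real.rpow_le_rpow ht h.le (show 0 ≤ q by linarith)
      rw [dy_w hκ] at h2
      have : 0 ≤ ∑ j ∈ Finset.range J, (2 ^ (j + 1) * κ) ^ q *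
          (if 2 ^ (j + 1) * κ ≤ t then (1 : ℝ) else 0) :=
        Finset.sum_nonneg fun j _ => by positivity
      have h3 : 0 ≤ (2 * κ) ^ (q - 2) * t ^ 2 := by positivity
      have h4 := mul_nonneg (Real.rpow_nonneg zero_le_two q) this
      linarith
    · rw [mul_zero, add_zero]
      exact ih (not_le.1 h1)

theorem dy_p3 {κ t : ℝ} (hκ : 0 < κ) (J : ℕ) :
    ∑ j ∈ Finset.range J, (if 2 ^ j * κ ≤ t ∧ t < 2 ^ (j + 1) * κ then (1 : ℝ) else 0) ≤
      if t < 2 ^ J * κ then 1 else 0 := by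
  induction J with
  | zero => rw [Finset.sum_range_zero]; positivity
  | succ J ih =>
    have : 2 ^ J * κ ≤ 2 ^ (J + 1) * κ := by gcongr <;> simp
    rw [Finset.sum_range_succ]
    by_cases h1 : t < 2 ^ J * κ
    · rw [if_pos h1] at ih
      rwa [if_neg fun h => h.1.not_gt h1, if_pos (h1.trans_le this), add_zero]
    · rw [if_neg h1] at ih
      simp only [not_lt.1 h1, true_and]
      linarith

theorem dy_alg {m : ℕ} (hm : 3 ≤ m) {C' r s s' e : ℝ} (hC : 0 < C') (hr : 0 < r) (hs : 0 ≤ s)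
    (hs' : 0 ≤ s') (he : 0 ≤ e) (h1 : r ^ qE m * s ≤ 2)
    (h : s' ^ 2 ≤ C' * s ^ (1 + 2 / m : ℝ) * e / r ^ 2) :
    r ^ qE m * s' ≤ √(2 * C') * (√(r ^ qE m * s) * √e) := by
  have hq := qE_gt hm
  have m3 : (3 : ℝ) ≤ m := by exact_mod_cast hm
  have e1 : qE m * (1 + 2 / m) + 2 = qE m * 2 := by
    rw [← one_sub_qE hm]
    field_simp
    ring
  have e2 : (r ^ qE m) ^ 2 = (r ^ qE m) ^ (1 + 2 / m : ℝ) * r ^ 2 := by
    rw [← Real.rpow_two, ← Real.rpow_two, ← Real.rpow_mul hr.le, ← Real.rpow_mul hr.le,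
      ← Real.rpow_add hr, e1]
  have a0 : 0 ≤ r ^ qE m * s := by positivity
  have e3 : (r ^ qE m * s) ^ (1 + 2 / m : ℝ) ≤ 2 * (r ^ qE m * s) := by
    rw [Real.rpow_add' a0 (by positivity), Real.rpow_one, mul_comm]
    refine mul_le_mul_of_nonneg_right ((Real.rpow_le_rpow a0 h1 (by positivity)).trans ?_) a0
    simpa using Real.rpow_le_rpow_of_exponent_le one_le_two
      (show (2 / m : ℝ) ≤ 1 from div_le_one_of_le₀ (by linarith) (by linarith))
  rw [← Real.sqrt_mul a0, ← Real.sqrt_mul (by positivity)]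
  refine Real.le_sqrt_of_sq_le ?_
  rw [mul_pow, e2]
  rw [le_div_iff₀ (by positivity)] at h
  rw [Real.mul_rpow (by positivity) hs] at e3
  have h2 := mul_le_mul_of_nonneg_left h (Real.rpow_nonneg (Real.rpow_nonneg hr.le (qE m))
    (1 + 2 / m : ℝ))
  have h3 := mul_le_mul_of_nonneg_left e3 (mul_nonneg hC.le he)
  linarith

theorem dy {X : Type*} [MeasurableSpace X] {m : ℕ} (hm : 3 ≤ m) {C' : ℝ} (hC : 0 < C') :
    ∃ C'' : ℝ, 0 < C'' ∧ ∀ (ν : Measure X), IsFiniteMeasure ν → ∀ (f e : X → ℝ) (κ M : ℝ),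
      Measurable f → Integrable e ν → (∀ᵐ x ∂ν, 0 ≤ e x) → (∀ᵐ x ∂ν, |f x| ≤ M) → 0 < κ →
      ∫ x, |f x| ^ qE m ∂ν = 1 →
      (∀ j : ℕ, ν.real {x | 2 ^ (j + 1) * κ ≤ |f x|} ^ 2 ≤
        C' * ν.real {x | 2 ^ j * κ ≤ |f x|} ^ (1 + 2 / m : ℝ) *
          (∫ x in {x | 2 ^ j * κ ≤ |f x| ∧ |f x| < 2 ^ (j + 1) * κ}, e x ∂ν) / (2 ^ j * κ) ^ 2) →
      1 ≤ (2 * κ) ^ (qE m - 2) * ∫ x, f x ^ 2 ∂ν + C'' * √(∫ x, e x ∂ν) := by
  have hq := qE_gt hm
  refine ⟨2 ^ qE m * (2 ^ qE m * (√(2 * C') * √2)), by positivity,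
    fun ν _ f e κ M hf he he0 hM hκ h1 h => ?_⟩
  have mS : ∀ r, MeasurableSet {x | r ≤ |f x|} := fun r => measurableSet_le measurable_const hf.abs
  have mT : ∀ r r', MeasurableSet {x | r ≤ |f x| ∧ |f x| < r'} := fun r r' =>
    (mS r).inter (measurableSet_lt hf.abs measurable_const)
  have iS : ∀ r, Integrable (fun x => if r ≤ |f x| then (1 : ℝ) else 0) ν := fun r =>
    (integrable_const 1).indicator (mS r)
  have eS : ∀ r, ∫ x, (if r ≤ |f x| then (1 : ℝ) else 0) ∂ν = ν.real {x | r ≤ |f x|} := fun r =>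
    integral_indicator_one (mS r)
  have iq : Integrable (fun x => |f x| ^ qE m) ν := Integrable.of_integral_ne_zero (by simp [h1])
  have i2 : Integrable (fun x => f x ^ 2) ν := by
    refine (integrable_const (M ^ 2)).mono' (hf.pow_const 2).aestronglyMeasurable
      (hM.mono fun x hx => ?_)
    rw [norm_pow]
    exact pow_le_pow_left₀ (norm_nonneg _) hx 2
  have s1 : ∀ J, ∑ j ∈ Finset.range J, (2 ^ j * κ) ^ qE m * ν.real {x | 2 ^ j * κ ≤ |f x|} ≤ 2 :=
    fun J => by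
      have := integral_mono (integrable_finsetSum _ fun j _ => (iS _).const_mul _)
        (iq.const_mul 2) fun x => dy_p1 hq hκ (abs_nonneg (f x)) J
      rw [integral_finsetSum _ fun j _ => (iS _).const_mul _] at this
      simpa only [integral_const_mul, eS, h1, mul_one] using this
  have s2 : ∀ j, (2 ^ j * κ) ^ qE m * ν.real {x | 2 ^ j * κ ≤ |f x|} ≤ 2 := fun j =>
    le_trans (Finset.single_le_sum (f := fun j : ℕ => (2 ^ j * κ) ^ qE m *
      ν.real {x | 2 ^ j * κ ≤ |f x|}) (fun j _ => by positivity) (Finset.self_mem_range_succ j))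
      (s1 (j + 1))
  have s3 : ∀ J, ∑ j ∈ Finset.range J,
      ∫ x in {x | 2 ^ j * κ ≤ |f x| ∧ |f x| < 2 ^ (j + 1) * κ}, e x ∂ν ≤ ∫ x, e x ∂ν := fun J => by
    simp only [← integral_indicator (mT _ _)]
    rw [← integral_finsetSum _ fun j _ => he.indicator (mT _ _)]
    refine integral_mono_ae (integrable_finsetSum _ fun j _ => he.indicator (mT _ _)) he
      (he0.mono fun x hx => ?_)
    have h2 : (if |f x| < 2 ^ J * κ then (1 : ℝ) else 0) ≤ 1 := by split_ifs <;> simp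
    have h3 := mul_le_mul_of_nonneg_right ((dy_p3 hκ J).trans h2) hx
    rw [Finset.sum_mul, one_mul] at h3
    refine le_trans (le_of_eq (Finset.sum_congr rfl fun j _ => ?_)) h3
    simp only [indicator_apply, mem_ofPred_eq, ite_mul, one_mul, zero_mul]
  have e0 : ∀ T, 0 ≤ ∫ x in T, e x ∂ν := fun T => integral_nonneg_of_ae (ae_restrict_of_ae he0)
  obtain ⟨J, hJ⟩ := pow_unbounded_of_one_lt (M / κ) (one_lt_two (α := ℝ))
  have hJ' : M < 2 ^ (J + 1) * κ := ((div_lt_iff₀ hκ).1 hJ).trans_le (by gcongr <;> simp)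
  have s4 := integral_mono_ae iq ((i2.const_mul _).add ((integrable_finsetSum _
    fun j _ => (iS _).const_mul _).const_mul _)) (hM.mono fun x hx => by
      have := dy_p2 hq hκ (abs_nonneg (f x)) J (hx.trans_lt hJ')
      rwa [sq_abs] at this)
  rw [integral_add' (i2.const_mul _) ((integrable_finsetSum _
    fun j _ => (iS _).const_mul _).const_mul _), integral_const_mul, integral_const_mul,
    integral_finsetSum _ fun j _ => (iS _).const_mul _, h1] at s4
  simp only [integral_const_mul, eS] at s4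
  refine s4.trans (add_le_add_right ?_ _)
  rw [mul_assoc]
  refine mul_le_mul_of_nonneg_left ?_ (by positivity)
  simp only [dy_w hκ, mul_assoc, ← Finset.mul_sum]
  refine mul_le_mul_of_nonneg_left ?_ (by positivity)
  refine (Finset.sum_le_sum fun j _ => dy_alg hm hC (by positivity) measureReal_nonneg
    measureReal_nonneg (e0 _) (s2 j) (h j)).trans ?_
  rw [← Finset.mul_sum]
  refine mul_le_mul_of_nonneg_left ((Real.sum_sqrt_mul_sqrt_le _ (fun j => by positivity)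
    fun j => e0 _).trans ?_) (by positivity)
  exact mul_le_mul (Real.sqrt_le_sqrt (s1 J)) (Real.sqrt_le_sqrt (s3 J)) (Real.sqrt_nonneg _)
    (Real.sqrt_nonneg _)

end Vale.Agent.P219
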