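import Vale.Agent.P219.S.Kk

/-!
# The end game (measure theory)

Let `n = ∫ |θ F|^q W`.  Hölder (`integral_mul_le_Lp_mul_Lq_of_nonneg` for the measure `ν.withDensity W`, or for the functions `θ² W^(2/q)` and `1{κ < |F|} W^(2/m)`; or Young's inequality
pointwise after normalising): `∫ θ(F)² W ≤ n^(2/q) (∫ W over {κ < |F|})^(2/m)` (`one_sub_qE`).  So `lam / 2 * n^(2/q) ≤ δ`, `n ≤ (2 δ / lam)^(q/2)`.  Pointwise:
`|F|^q ≤ (κ + 2τ)^(q-2) F²` if `|F| ≤ κ + 2τ`, otherwise `|θ F| ≥ |F| - κ - τ ≥ |F| τ / (κ + 2τ)`.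
-/

namespace Vale.Agent.P219

open scoped ContDiff Topology RealInnerProductSpace ENNReal
open MeasureTheory Set Filter Vale.Agent.P255
open St (sn gmod)

theorem eg_int {X : Type*} [MeasurableSpace X] {ν : Measure X} {F W : X → ℝ}
    (hF : Measurable F) (hW : Integrable W ν) {M : ℝ} (hM : ∀ᵐ x ∂ν, |F x| ≤ M) {φ : ℝ → ℝ}
    (hφ : Continuous φ) : Integrable (fun x => φ (F x) * W x) ν := by
  obtain ⟨B, hB⟩ := isCompact_Icc.exists_bound_of_continuousOn (hφ.continuousOn (s := Icc (-M) M))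
  exact hW.bdd_mul (hφ.measurable.comp hF).aestronglyMeasurable
    (hM.mono fun x hx => hB _ (abs_le.1 hx))

theorem eg_young {α β q n V t : ℝ} (hα : 0 ≤ α) (hβ : 0 ≤ β) (h : α + β = 1) (hq : q * α = 2)
    (hn : 0 < n) (hV : 0 < V) :
    t ^ 2 ≤ n ^ α * V ^ β * (α / n * |t| ^ q + β / V) := by
  have h1 := Real.geom_mean_le_arith_mean2_weighted hα hβ
    (div_nonneg (Real.rpow_nonneg (abs_nonneg t) q) hn.le) (inv_nonneg.2 hV.le) h
  rw [Real.div_rpow (Real.rpow_nonneg (abs_nonneg t) q) hn.le, ← Real.rpow_mul (abs_nonneg t), hq,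
    Real.inv_rpow hV.le, Real.rpow_two, sq_abs] at h1
  have h2 : 0 < n ^ α := Real.rpow_pos_of_pos hn _
  have h3 : 0 < V ^ β := Real.rpow_pos_of_pos hV _
  calc t ^ 2 = n ^ α * V ^ β * (t ^ 2 / n ^ α * (V ^ β)⁻¹) := by field_simp
    _ ≤ n ^ α * V ^ β * (α * (|t| ^ q / n) + β * V⁻¹) := by gcongr
    _ = _ := by ring

theorem eg_pt {q κ τ x t : ℝ} (hq : 2 < q) (hκ : 0 < κ) (hτ : 0 < τ) (h : |x| - κ - τ ≤ |t|) :
    |x| ^ q ≤ (κ + 2 * τ) ^ (q - 2) * x ^ 2 + ((κ + 2 * τ) / τ) ^ q * |t| ^ q := by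
  have hk : 0 < κ + 2 * τ := by positivity
  rcases le_total |x| (κ + 2 * τ) with h1 | h1
  · have h2 : |x| ^ q = |x| ^ (q - 2) * x ^ 2 := by
      rw [← sq_abs, ← Real.rpow_two, ← Real.rpow_add' (abs_nonneg x) (by linarith)]
      congr 1
      ring
    have h3 : |x| ^ (q - 2) ≤ (κ + 2 * τ) ^ (q - 2) :=
      Real.rpow_le_rpow (abs_nonneg x) h1 (by linarith)
    have h4 : 0 ≤ ((κ + 2 * τ) / τ) ^ q * |t| ^ q := by positivity
    rw [h2]
    nlinarith [mul_le_mul_of_nonneg_right h3 (sq_nonneg x)]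
  · have h2 : |x| ≤ (κ + 2 * τ) / τ * |t| := by
      rw [div_mul_eq_mul_div, le_div_iff₀ hτ]
      nlinarith
    have h3 := Real.rpow_le_rpow (abs_nonneg x) h2 (by linarith : 0 ≤ q)
    rw [Real.mul_rpow (by positivity) (abs_nonneg t)] at h3
    have h4 : 0 ≤ (κ + 2 * τ) ^ (q - 2) * x ^ 2 := by positivity
    linarith

theorem endg {X : Type*} [MeasurableSpace X] {m : ℕ} (hm : 3 ≤ m) {ν : Measure X} {F W : X → ℝ}
    (hF : Measurable F) (hW : Integrable W ν) (hW0 : ∀ x, 0 ≤ W x) {M : ℝ}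
    (hM : ∀ᵐ x ∂ν, |F x| ≤ M) {θ : ℝ → ℝ} (hθ : Continuous θ) {κ τ lam δ v : ℝ} (hκ : 0 < κ)
    (hτ : 0 < τ) (hl : 0 < lam) (hδ : 0 ≤ δ) (h0 : ∀ x, |x| ≤ κ → θ x = 0)
    (h1 : ∀ x, |θ x| ≤ |x|) (h2 : ∀ x, |x| - κ - τ ≤ |θ x|)
    (hN : ∫ x, |F x| ^ qE m * W x ∂ν = 1)
    (hS : lam * (∫ x, |θ (F x)| ^ qE m * W x ∂ν) ^ (2 / qE m) ≤
      δ + cE m * ∫ x, θ (F x) ^ 2 * W x ∂ν)
    (hv : ∫ x in {x | κ < |F x|}, W x ∂ν ≤ v) (hv' : cE m * v ^ (2 / m : ℝ) ≤ lam / 2) :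
    1 ≤ (κ + 2 * τ) ^ (qE m - 2) * ∫ x, F x ^ 2 * W x ∂ν +
      ((κ + 2 * τ) / τ) ^ qE m * (2 * δ / lam) ^ (qE m / 2) := by
  have hq := qE_gt hm
  have hc := cE_pos hm
  have hm0 : (0 : ℝ) < m := by exact_mod_cast (by omega : 0 < m)
  have cq : Continuous fun x : ℝ => |x| ^ qE m :=
    continuous_abs.rpow_const fun _ => Or.inr (by linarith)
  have i1 := eg_int hF hW hM (cq.comp hθ)
  have i2 := eg_int hF hW hM (hθ.pow 2)
  have i3 := eg_int hF hW hM cq
  have i4 := eg_int hF hW hM (continuous_pow 2)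
  simp only [Function.comp_apply] at i1
  set n := ∫ x, |θ (F x)| ^ qE m * W x ∂ν with hn
  have hn0 : 0 ≤ n := integral_nonneg fun x => mul_nonneg (by positivity) (hW0 x)
  have hT : MeasurableSet {x | κ < |F x|} :=
    measurableSet_lt measurable_const (continuous_abs.measurable.comp hF)
  have key : n ≤ (2 * δ / lam) ^ (qE m / 2) := by
    rcases hn0.eq_or_lt with h | hpos
    · rw [← h]; positivity
    set V := (lam / (2 * cE m)) ^ (m / 2 : ℝ) with hV
    have hV0 : 0 < V := by positivity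
    have hV1 : V ^ (2 / m : ℝ) = lam / (2 * cE m) := by
      rw [hV, ← Real.rpow_mul (by positivity), show (m / 2 * (2 / m) : ℝ) = 1 by field_simp,
        Real.rpow_one]
    have hv0 : 0 ≤ v := (setIntegral_nonneg hT fun x _ => hW0 x).trans hv
    have hvV : v ≤ V := by
      refine (Real.rpow_le_rpow_iff hv0 hV0.le (by positivity : (0 : ℝ) < 2 / m)).1 ?_
      rw [hV1, le_div_iff₀ (by positivity)]
      linarith
    have hab : 2 / qE m + 2 / m = 1 := by linarith [one_sub_qE hm]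
    have hA : 0 < n ^ (2 / qE m) := Real.rpow_pos_of_pos hpos _
    have h3 : ∫ x, θ (F x) ^ 2 * W x ∂ν ≤ ∫ x, n ^ (2 / qE m) * V ^ (2 / m : ℝ) *
        (2 / qE m / n * (|θ (F x)| ^ qE m * W x) +
          2 / m / V * {x | κ < |F x|}.indicator W x) ∂ν := by
      refine integral_mono i2 (((i1.const_mul _).add ((hW.indicator hT).const_mul _)).const_mul _)
        fun x => ?_
      by_cases hx : κ < |F x|
      · have h4 := mul_le_mul_of_nonneg_right (eg_young (t := θ (F x)) (q := qE m) (by positivity)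
          (by positivity) hab (by field_simp) hpos hV0) (hW0 x)
        simp only
        rw [indicator_of_mem (show x ∈ {x | κ < |F x|} from hx)]
        linarith
      · simp only
        rw [indicator_of_notMem (show x ∉ {x | κ < |F x|} from hx), h0 _ (not_lt.1 hx), abs_zero,
          Real.zero_rpow (by linarith)]
        simp
    rw [integral_const_mul, integral_add (i1.const_mul _) ((hW.indicator hT).const_mul _),
      integral_const_mul, integral_const_mul, integral_indicator hT, ← hn, hV1] at h3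
    have h5 : 2 / qE m / n * n + 2 / m / V * ∫ x in {x | κ < |F x|}, W x ∂ν ≤ 1 := by
      have h6 : 2 / m / V * ∫ x in {x | κ < |F x|}, W x ∂ν ≤ 2 / m / V * V :=
        mul_le_mul_of_nonneg_left (hv.trans hvV) (by positivity)
      rw [div_mul_cancel₀ _ hV0.ne'] at h6
      rw [div_mul_cancel₀ _ hpos.ne']
      linarith
    have h7 : cE m * ∫ x, θ (F x) ^ 2 * W x ∂ν ≤ lam / 2 * n ^ (2 / qE m) := by
      calc _ ≤ cE m * (n ^ (2 / qE m) * (lam / (2 * cE m)) * 1) :=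
            mul_le_mul_of_nonneg_left (h3.trans (mul_le_mul_of_nonneg_left h5 (by positivity))) hc.le
        _ = _ := by field_simp
    have h8 : n ^ (2 / qE m) ≤ 2 * δ / lam := by
      rw [le_div_iff₀ hl]
      linarith
    have h9 := Real.rpow_le_rpow hA.le h8 (by positivity : 0 ≤ qE m / 2)
    rwa [← Real.rpow_mul hn0, show 2 / qE m * (qE m / 2) = 1 by field_simp, Real.rpow_one] at h9
  have h3 : ∫ x, |F x| ^ qE m * W x ∂ν ≤ ∫ x, ((κ + 2 * τ) ^ (qE m - 2) * (F x ^ 2 * W x) +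
      ((κ + 2 * τ) / τ) ^ qE m * (|θ (F x)| ^ qE m * W x)) ∂ν := by
    refine integral_mono i3 ((i4.const_mul _).add (i1.const_mul _)) fun x => ?_
    have h4 := mul_le_mul_of_nonneg_right (eg_pt hq hκ hτ (h2 (F x))) (hW0 x)
    simp only
    linarith
  rw [integral_add (i4.const_mul _) (i1.const_mul _), integral_const_mul, integral_const_mul, ← hn,
    hN] at h3
  have h4 := mul_le_mul_of_nonneg_left key (by positivity : 0 ≤ ((κ + 2 * τ) / τ) ^ qE m)
  linarith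

end Vale.Agent.P219
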