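import Vale.Agent.P219.S.Kb

/-!
# The error term at good points  (TASK)

`swap`, `kb`, `√(Gt g g) ≤ B √(Gt F F)` (`Gt_comp_sq`), and `√(Gt F F) cf^(m-1) ≤ cf^(m-2) Gt F F / (2η) + η / 2 * cf^m`; `Mk_le`.  Choose `η`, then `δ`.
-/

namespace Vale.Agent.P219

open scoped ContDiff Topology RealInnerProductSpace ENNReal
open MeasureTheory Set Filter Vale.Agent.P255
open St (sn gmod)

variable {E : Type*} [NormedAddCommGroup E] [InnerProductSpace ℝ E] [FiniteDimensional ℝ E]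
  [MeasurableSpace E] [BorelSpace E] {G : E → Bil E} {L : E → E → E} {K : Set E} {m : ℕ}
  {b H₀ σ t₀ C S c : ℝ} {u : E → E → ℝ} {μ : Measure (E × E)}

theorem err_amgm {r c η : ℝ} (hc : 0 ≤ c) (hη : 0 < η) (hm : 3 ≤ m) :
    r * c ^ (m - 1) ≤ 1 / (2 * η) * (c ^ (m - 2) * r ^ 2) + η / 2 * c ^ m := by
  obtain ⟨j, rfl⟩ : ∃ j, m = j + 2 := ⟨m - 2, by omega⟩
  have h1 : r * c ≤ 1 / (2 * η) * r ^ 2 + η / 2 * c ^ 2 := by
    have h2 : 1 / (2 * η) * r ^ 2 + η / 2 * c ^ 2 - r * c = (r - η * c) ^ 2 / (2 * η) := by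
      field_simp
      ring
    have h3 : 0 ≤ (r - η * c) ^ 2 / (2 * η) := by positivity
    linarith
  have h4 := mul_le_mul_of_nonneg_left h1 (pow_nonneg hc j)
  rw [show j + 2 - 1 = j + 1 from rfl, Nat.add_sub_cancel]
  calc r * c ^ (j + 1) = c ^ j * (r * c) := by ring
    _ ≤ _ := h4
    _ = _ := by ring

theorem Sp1.err (h : Sp1 m b H₀ G u K μ t₀ C) {Λ D B τ : ℝ} (hΛ : 1 ≤ Λ) (hD : 0 < D)
    (hB : 0 < B) (hτ : 0 < τ) : ∃ δ : ℝ, 0 < δ ∧ ∀ p ∈ K, ∀ s : ℝ, 0 < s → Λ * s ≤ t₀ →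
      ∀ f : E → ℝ, ContDiff ℝ 2 f → df1 m b G μ (u p) s f ≤ δ → ∀ χ : ℝ → ℝ, ContDiff ℝ 2 χ →
        (∀ x, |deriv χ x| ≤ B) → ∀ T : Set (E × E), MeasurableSet T →
          (∀ z ∈ T, u p z.1 ≤ D * s) → ∀ t : ℝ, 0 < t → t ≤ Λ * s →
            Er m b G μ u (fun y => χ (Fq m b (u p) s f y)) T t (Λ * s) ≤ τ * kk b s ^ m := by
  obtain ⟨C', C0, hk⟩ := h.kb hΛ hD
  have hC := h.C_pos
  obtain ⟨η, η0, η1⟩ : ∃ η : ℝ, 0 < η ∧ C' * B * (η / 2 * (2 * C)) = τ / 2 :=
    ⟨τ / (2 * (C' * B) * C), by positivity, by field_simp⟩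
  refine ⟨τ * η / (C' * B), by positivity, fun p hp s hs hΛs f hf hd χ hχ hχB T hT hTD t ht htΛ => ?_⟩
  have hs0 : s ≤ t₀ := (le_mul_of_one_le_left hs.le hΛ).trans hΛs
  have hb : b ^ 2 * s < 2 := by
    have := mul_le_mul_of_nonneg_left hs0 (sq_nonneg b)
    linarith [h.t_le]
  have hF : ContDiff ℝ 2 (Fq m b (u p) s f) :=
    contDiff_Fq (h.nonneg p) (h.toSp0.cd2 p) hs hb hf
  have hg : ContDiff ℝ 2 fun y => χ (Fq m b (u p) s f y) := hχ.comp hF
  have hc : Continuous fun z : E × E => cf b (u p) s z.1 :=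
    (contDiff_cf (h.nonneg p) (h.toSp0.cd2 p) hs).continuous.comp continuous_fst
  have i1 : Integrable (fun z : E × E => cf b (u p) s z.1 ^ (m - 2) *
      Gt G (Fq m b (u p) s f) (Fq m b (u p) s f) z) μ := h.toSp0.integrable
    ((hc.pow _).mul (continuous_Gt h.loc (hF.of_le one_le_two) (hF.of_le one_le_two)))
  have i2 : Integrable (fun z : E × E => cf b (u p) s z.1 ^ m) μ := h.toSp0.integrable (hc.pow _)
  have k0 : 0 ≤ kk b s ^ m := pow_nonneg (kk_nonneg b s) m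
  refine (h.toSp0.swap hg T ht htΛ).trans ?_
  refine (integral_mono_ae (g := fun z : E × E => C' * B * kk b s ^ m *
    (1 / (2 * η) * (cf b (u p) s z.1 ^ (m - 2) * Gt G (Fq m b (u p) s f) (Fq m b (u p) s f) z) +
      η / 2 * cf b (u p) s z.1 ^ m)) (h.toSp0.integrable
    ((continuous_Gt h.loc (hg.of_le one_le_two) (hg.of_le one_le_two)).sqrt.mul
      ((h.toSp0.continuous_Kav T ht htΛ).comp continuous_fst)))
    (((i1.const_mul _).add (i2.const_mul _)).const_mul _) ?_).trans ?_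
  · filter_upwards [h.toSp0.ae_mem] with z hz
    have c0 := cf_nonneg (b := b) (h.nonneg p) hs z.1
    have a1 := hk p hp s hs hΛs T hT hTD t ht htΛ z.1 hz.1
    have a2 := Gt_comp_sq (z := z) h.loc
      (hχ.differentiable two_ne_zero (Fq m b (u p) s f z.1)).hasDerivAt
      (hF.differentiable two_ne_zero z.1)
    have a3 := Gt_nonneg h.loc (Fq m b (u p) s f) hz.2
    have a4 := err_amgm (r := √(Gt G (Fq m b (u p) s f) (Fq m b (u p) s f) z)) c0 η0 h.three
    rw [Real.sq_sqrt a3] at a4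
    rw [Pi.mul_apply, Function.comp_apply]
    rw [a2, Real.sqrt_mul (sq_nonneg _), Real.sqrt_sq_eq_abs]
    calc _ ≤ B * √(Gt G (Fq m b (u p) s f) (Fq m b (u p) s f) z) *
          (C' * kk b s ^ m * cf b (u p) s z.1 ^ (m - 1)) :=
          (mul_le_mul_of_nonneg_left a1 (by positivity)).trans (mul_le_mul_of_nonneg_right
            (mul_le_mul_of_nonneg_right (hχB _) (Real.sqrt_nonneg _)) (by positivity))
      _ = C' * B * kk b s ^ m * (√(Gt G (Fq m b (u p) s f) (Fq m b (u p) s f) z) *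
          cf b (u p) s z.1 ^ (m - 1)) := by ring
      _ ≤ _ := mul_le_mul_of_nonneg_left a4 (by positivity)
  · rw [integral_const_mul, integral_add (i1.const_mul _) (i2.const_mul _), integral_const_mul,
      integral_const_mul]
    have a1 := h.Mk_le hp hs hs0
    have a2 : C' * B * (1 / (2 * η) * (τ * η / (C' * B))) = τ / 2 := by field_simp
    calc _ ≤ C' * B * kk b s ^ m * (1 / (2 * η) * (τ * η / (C' * B)) + η / 2 * (2 * C)) :=
          mul_le_mul_of_nonneg_left (add_le_add (mul_le_mul_of_nonneg_left hd (by positivity))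
            (mul_le_mul_of_nonneg_left a1 (by positivity))) (by positivity)
      _ = (C' * B * (1 / (2 * η) * (τ * η / (C' * B))) + C' * B * (η / 2 * (2 * C))) *
          kk b s ^ m := by ring
      _ = _ := by rw [a2, η1, add_halves]

end Vale.Agent.P219
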