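import Vale.Agent.P219.S.FluxW0
import Vale.Agent.P219.G.FluxC

/-! P219 S/FluxW3 (TASK, owner helper14; helper names start with fw3_). Weighted form of fluxC: copy the proof of
Pack.fluxC and fluxC_J in G/FluxC.lean with the extra factor φ p.1 (min (φ x) (φ y) ≤ φ y, y in Ω the outer variable,
φ y ≤ B in the two error terms).  In the step that used fluxA: for (x, e) in UB,
∫ y in Ω, φ y * (ψ' * -ca * wt) ≤ φ x * (∫ ψ + CA M ε^(m+1)) + δ M' W Cv ε^(m+1), since |φ y - φ x| ≤ δ where ψ' is nonzero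
(rr ≤ ε), |ca| ≤ 1 (ca_sq_le), wt ≤ W on K and vol_ball. -/

namespace Vale.Agent.P219

open scoped ContDiff Topology RealInnerProductSpace ENNReal
open MeasureTheory Set Filter Vale.Agent.P255
open St (sn gmod)

variable {E : Type*} [NormedAddCommGroup E] [InnerProductSpace ℝ E] [FiniteDimensional ℝ E]
  [MeasurableSpace E] [BorelSpace E] {G : E → Bil E} {L : E → E → E} {K : Set E} {m : ℕ} {b : ℝ}
  {ρ ε c H : ℝ} {τ : ℝ → ℝ}

theorem fw3_A (hE : Module.finrank ℝ E = m + 1) (hP : Pack G L) (hK : IsCompact K) :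
    ∃ C : ℝ, 0 < C ∧ ∀ (D : NDom G K) (φ : E → ℝ) (ψ : ℝ → ℝ) (B δ M M' ε : ℝ),
      Continuous φ → (∀ x, 0 ≤ φ x) → 0 ≤ δ → (∀ x ∈ K, φ x ≤ B) →
      (∀ x ∈ K, ∀ y ∈ K, rr G L x y ≤ ε → |φ x - φ y| ≤ δ) → Bump ψ M ε → 0 < ε → ε ≤ 1 →
      (∀ r, |deriv ψ r| ≤ M') → ∀ x e, (x, e) ∈ UB G K →
        ∫ y in D.Ω, deriv ψ (rr G L x y) * -ca G L x y e * (φ y * wt (G y)) ≤
          φ x * ∫ z, ψ (rr G L x z.1) ∂D.μ + C * (B * (M * ε ^ (m + 1)) + δ * M' * ε ^ (m + 1)) := by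
  obtain ⟨CA, cA, hA⟩ := hP.fluxA hE hK
  obtain ⟨Cv, cv, hv⟩ := hP.vol_ball hE hK
  have hw := (contDiff_wt hP.loc).continuous
  obtain ⟨W, hW⟩ := hK.exists_bound_of_continuousOn hw.continuousOn
  refine ⟨CA + |W| * Cv, by positivity,
    fun D φ ψ B δ M M' ε hφ φ0 hδ hB hu hψ h0 h1 hM' x e hx => ?_⟩
  have hM : 0 ≤ M := (hψ.mem 0).1.trans (hψ.mem 0).2
  have hM0 : 0 ≤ M' := (abs_nonneg _).trans (hM' 0)
  have hB0 : 0 ≤ B := (φ0 x).trans (hB x hx.1)
  obtain ⟨c1, -, ⟨α, hα, hz⟩, hfar⟩ := fluxC_d1 hψ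
  have hF : Continuous fun y => deriv ψ (rr G L x y) * -ca G L x y e * wt (G y) :=
    (hP.cont_cut continuous_const continuous_id
      (cont_ca hP continuous_const continuous_id continuous_const).neg c1 hα hz).mul hw
  have hi : ∀ {f : E → ℝ}, Continuous f → IntegrableOn f D.Ω := fun h =>
    (h.continuousOn.integrableOn_compact hK).mono_set D.sub
  have hs := (measure_mono (inter_subset_right (s := D.Ω))).trans (hv x hx.1 ε h0 h1)
  have e2 := norm_setIntegral_le_of_norm_le_const (C := δ * (M' * 1 * |W|))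
    (hs.trans_lt ENNReal.ofReal_lt_top)
    (f := fun y => (φ y - φ x) * (deriv ψ (rr G L x y) * -ca G L x y e * wt (G y))) fun y hy =>
      norm_mul_le_of_le ((abs_sub_comm _ _).trans_le (hu x hx.1 y (D.sub hy.1) hy.2))
        (norm_mul_le_of_le (norm_mul_le_of_le (hM' _) ((norm_neg _).trans_le
          ((sq_le_one_iff_abs_le_one _).1 ((hP.ca_sq_le x y e).trans_eq hx.2))))
          ((hW y (D.sub hy.1)).trans (le_abs_self W)))
  rw [← setIntegral_eq_of_subset_of_forall_sdiff_eq_zero D.meas inter_subset_left fun y hy => by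
    rw [(hfar _ (not_le.1 fun h => hy.2 ⟨hy.1, h⟩)).1, zero_mul, zero_mul, mul_zero]] at e2
  have e3 := mul_le_mul_of_nonneg_left (ENNReal.toReal_le_of_le_ofReal (by positivity) hs)
    (show 0 ≤ δ * (M' * 1 * |W|) by positivity)
  have e1 : ∀ y, deriv ψ (rr G L x y) * -ca G L x y e * (φ y * wt (G y)) =
      φ x * (deriv ψ (rr G L x y) * -ca G L x y e * wt (G y)) +
        (φ y - φ x) * (deriv ψ (rr G L x y) * -ca G L x y e * wt (G y)) := fun y => by ring
  have e4 := mul_le_mul_of_nonneg_left (hA D ψ M ε hψ h0 h1 x e hx) (φ0 x)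
  have e5 := (le_abs_self _).trans (e2.trans e3)
  have e6 := mul_le_mul_of_nonneg_right (hB x hx.1) (show 0 ≤ CA * M * ε ^ (m + 1) by positivity)
  have e7 : 0 ≤ CA * (δ * M' * ε ^ (m + 1)) := by positivity
  have e8 : 0 ≤ |W| * Cv * (B * (M * ε ^ (m + 1))) := by positivity
  simp only [e1]
  rw [integral_add (hi (hF.const_mul _)) (hi ((hφ.fun_sub continuous_const).fun_mul hF)),
    integral_const_mul]
  linarith

theorem fw3_J (hP : Pack G L) (hK : IsCompact K) (D : NDom G K) {ψ : ℝ → ℝ} {M ε B : ℝ}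
    (hψ : Bump ψ M ε) {φ χ : E → ℝ} (hφ : Continuous φ) (hw : Continuous χ) (w0 : ∀ y, 0 ≤ χ y)
    {Γ : E × E → ℝ} (hΓ : Integrable (fun p : E × E => Γ p * χ p.1)
      ((volume.restrict D.Ω).prod (volume.restrict D.Ωᶜ)))
    (hA : ∀ x e, (x, e) ∈ UB G K →
      ∫ y in D.Ω, deriv ψ (rr G L x y) * -ca G L x y e * χ y ≤
        φ x * ∫ z, ψ (rr G L x z.1) ∂D.μ + B)
    (hB : ∀ y ∈ K, ∫ x in D.Ωᶜ, Γ (y, x) ≤ ∫ z, deriv ψ (rr G L z.1 y) * -ca G L z.1 y z.2 ∂D.μ) :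
    ∫ p : E × E, Γ p * χ p.1 ∂(volume.restrict D.Ω).prod (volume.restrict D.Ωᶜ) ≤
      ∫ z, φ z.1.1 * ψ (rr G L z.1.1 z.2.1) ∂D.μ.prod D.μ + B * D.A := by
  obtain ⟨c1, -, ⟨α, hα, h0⟩, -⟩ := fluxC_d1 hψ
  have hF : Continuous fun q : E × (E × E) =>
      deriv ψ (rr G L q.2.1 q.1) * -ca G L q.2.1 q.1 q.2.2 * χ q.1 :=
    (hP.cont_cut continuous_snd.fst continuous_fst
      (cont_ca hP continuous_snd.fst continuous_fst continuous_snd.snd).neg c1 hα h0).mul
      (hw.comp continuous_fst)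
  have hfin : IsFiniteMeasure (volume.restrict D.Ω) :=
    isFiniteMeasure_restrict.2 ((measure_mono D.sub).trans_lt hK.measure_lt_top).ne
  have hFi : Integrable (fun q : E × (E × E) =>
      deriv ψ (rr G L q.2.1 q.1) * -ca G L q.2.1 q.1 q.2.2 * χ q.1)
      ((volume.restrict D.Ω).prod D.μ) := by
    obtain ⟨C, hC⟩ := (hK.prod (isCompact_UB hP.loc hK)).exists_bound_of_continuousOn
      hF.continuousOn
    refine (integrable_const C).mono' hF.aestronglyMeasurable ?_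
    filter_upwards [Measure.quasiMeasurePreserving_fst.ae (ae_restrict_mem D.meas),
      Measure.quasiMeasurePreserving_snd.ae D.supp] with q h1 h2
    exact hC q ⟨D.sub h1, h2⟩
  have hψi : Integrable (fun z : (E × E) × (E × E) => φ z.1.1 * ψ (rr G L z.1.1 z.2.1))
      (D.μ.prod D.μ) :=
    D.integrable_prod hP.loc hK ((hφ.comp continuous_fst.fst).mul
      (hψ.smooth.continuous.comp (cont_r hP continuous_fst.fst continuous_snd.fst)))
  rw [integral_prod _ hΓ, integral_prod _ hψi]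
  calc _ ≤ ∫ y in D.Ω, ∫ z, deriv ψ (rr G L z.1 y) * -ca G L z.1 y z.2 * χ y ∂D.μ := by
        refine setIntegral_mono_on hΓ.integral_prod_left hFi.integral_prod_left D.meas
          fun y hy => ?_
        simp only [integral_mul_const]
        exact mul_le_mul_of_nonneg_right (hB y (D.sub hy)) (w0 y)
    _ = ∫ z, (∫ y in D.Ω, deriv ψ (rr G L z.1 y) * -ca G L z.1 y z.2 * χ y) ∂D.μ :=
        integral_integral_swap (f := fun (y : E) (z : E × E) =>
          deriv ψ (rr G L z.1 y) * -ca G L z.1 y z.2 * χ y) hFi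
    _ ≤ ∫ z, (∫ z', φ z.1 * ψ (rr G L z.1 z'.1) ∂D.μ + B) ∂D.μ :=
        integral_mono_ae hFi.integral_prod_right
          (hψi.integral_prod_left.add (integrable_const B)) (D.supp.mono fun z hz =>
            (hA z.1 z.2 hz).trans_eq (congrArg (· + B) (integral_const_mul _ _).symm))
    _ = _ := by
        rw [integral_add hψi.integral_prod_left (integrable_const B), integral_const, smul_eq_mul,
          NDom.A, mul_comm]

theorem Pack.fluxCW (hE : Module.finrank ℝ E = m + 1) (hP : Pack G L) (hK : IsCompact K) :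
    ∃ C : ℝ, 0 < C ∧ ∀ (D : NDom G K) (φ : E → ℝ) (ψ K₀ : ℝ → ℝ) (B δ M M' c' ε t : ℝ),
      Continuous φ → (∀ x, 0 ≤ φ x) → 0 ≤ B → 0 ≤ δ → (∀ x ∈ K, φ x ≤ B) →
      (∀ x ∈ K, ∀ y ∈ K, rr G L x y ≤ ε → |φ x - φ y| ≤ δ) → Bump ψ M ε → Ker K₀ →
      0 < t → t ≤ ε → ε ≤ 1 → 0 ≤ c' → (∀ r, |deriv ψ r| ≤ M') →
      (∀ r, 0 < r → K₀ (r / ε) / ε ^ (m + 2) - (if r ≤ t then c' else 0) ≤
        deriv (deriv ψ) r + m * deriv ψ r / r) →
      QW m G L K₀ φ D.Ω ε ≤ ENNReal.ofReal (∫ z, φ z.1.1 * ψ (rr G L z.1.1 z.2.1) ∂D.μ.prod D.μ +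
        C * (B * (M * ε ^ (m + 1) + M' * ε ^ (m + 2) + c' * t ^ (m + 2)) + δ * M' * ε ^ (m + 1)) *
          D.A) := by
  obtain ⟨CA, cA, hA⟩ := fw3_A hE hP hK
  obtain ⟨CB, cB, hB⟩ := hP.fluxB hE hK
  obtain ⟨Cc, cc, hc⟩ := hP.crude hE hK
  refine ⟨CA + CB * Cc + Cc, by positivity,
    fun D φ ψ K₀ B δ M M' c' ε t hφ φ0 hB0 hδ φB hu hψ hk ht htε hε1 hc' hM' hmain => ?_⟩
  have hε : 0 < ε := ht.trans_le htε
  have hM : 0 ≤ M := (hψ.mem 0).1.trans (hψ.mem 0).2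
  have hM0 : 0 ≤ M' := (abs_nonneg _).trans (hM' 0)
  have hA0 := D.A_nonneg
  obtain ⟨c1, c2, ⟨α, hα, h0⟩, hfar⟩ := fluxC_d1 hψ
  have hw := (contDiff_wt hP.loc).continuous
  have hr : Continuous fun p : E × E => rr G L p.2 p.1 := cont_r hP continuous_snd continuous_fst
  set Γ : E × E → ℝ := fun p => (deriv (deriv ψ) (rr G L p.2 p.1) +
    m * deriv ψ (rr G L p.2 p.1) / rr G L p.2 p.1 - CB * |deriv ψ (rr G L p.2 p.1)|) * wt (G p.2)
    with hΓ
  have hq : Continuous fun p : E × E => deriv ψ (rr G L p.2 p.1) * (rr G L p.2 p.1)⁻¹ :=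
    hP.cont_cut continuous_snd continuous_fst (hr.continuousOn.inv₀ (cont_ne hP)) c1 hα h0
  have hΓc : Continuous Γ := by
    have := (((c2.comp hr).add (hq.const_mul (m : ℝ))).sub
      ((c1.comp hr).abs.const_mul CB)).mul (hw.comp continuous_snd)
    refine this.congr fun p => ?_
    simp only [hΓ, Function.comp_apply, Pi.mul_apply, Pi.add_apply, Pi.sub_apply, div_eq_mul_inv,
      mul_assoc]
  have hΓi : Integrable (fun p : E × E => Γ p * (φ p.1 * wt (G p.1))) _ :=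
    fluxC_int hP hK D (hΓc.mul ((hφ.mul hw).comp continuous_fst)) fun p hp => by
      obtain ⟨k1, k2⟩ := hfar _ (hε1.trans_lt hp)
      simp only [hΓ, k1, k2]
      simp
  have hJ := fw3_J hP hK D hψ hφ (χ := fun y => φ y * wt (G y)) (hφ.mul hw)
    (fun y => mul_nonneg (φ0 y) (Real.sqrt_nonneg _)) hΓi
    (hA D φ ψ B δ M M' ε hφ φ0 hδ φB hu hψ hε hε1 hM') (hB D ψ M ε hψ hε1)
  obtain ⟨i1, j1⟩ := fluxC_ind hP D (by positivity) (hc D t ht (htε.trans hε1))
  obtain ⟨i2, j2⟩ := fluxC_ind hP D (by positivity) (hc D ε hε hε1)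
  have hi := (hΓi.add (i1.const_mul (B * c'))).add (i2.const_mul (B * (CB * M')))
  have hkn : ∀ p : E × E, 0 ≤ K₀ (rr G L p.2 p.1 / ε) / ε ^ (m + 2) * (wt (G p.2) * wt (G p.1)) :=
    fun p => mul_nonneg (div_nonneg (hk.nonneg _) (by positivity))
      (mul_nonneg (Real.sqrt_nonneg _) (Real.sqrt_nonneg _))
  have hle : ∀ᵐ p : E × E ∂(volume.restrict D.Ω).prod (volume.restrict D.Ωᶜ),
      min (φ p.2) (φ p.1) * (K₀ (rr G L p.2 p.1 / ε) / ε ^ (m + 2) * (wt (G p.2) * wt (G p.1))) ≤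
        Γ p * (φ p.1 * wt (G p.1)) +
          B * c' * (if rr G L p.2 p.1 ≤ t then wt (G p.2) * wt (G p.1) else 0) +
          B * (CB * M') * (if rr G L p.2 p.1 ≤ ε then wt (G p.2) * wt (G p.1) else 0) := by
    filter_upwards [Measure.quasiMeasurePreserving_fst.ae (ae_restrict_mem D.meas),
      Measure.quasiMeasurePreserving_snd.ae (ae_restrict_mem D.meas.compl)] with p h1 h2
    have hne : p.1 ≠ p.2 := fun e => h2 (e ▸ h1)
    have h3 := hmain _ (hP.rr_pos hne)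
    have hW : 0 ≤ wt (G p.2) * wt (G p.1) := mul_nonneg (Real.sqrt_nonneg _) (Real.sqrt_nonneg _)
    have h4 : |deriv ψ (rr G L p.2 p.1)| ≤ if rr G L p.2 p.1 ≤ ε then M' else 0 := by
      split_ifs with h
      · exact hM' _
      · rw [(hfar _ (not_le.1 h)).1, abs_zero]
    have h5 := mul_le_mul_of_nonneg_left (mul_le_mul_of_nonneg_right h3 hW) (φ0 p.1)
    have h6 := mul_le_mul_of_nonneg_left
      (mul_le_mul_of_nonneg_right (mul_le_mul_of_nonneg_left h4 cB.le) hW) (φ0 p.1)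
    have h7 := mul_le_mul_of_nonneg_right (min_le_right (φ p.2) (φ p.1)) (hkn p)
    have h8 := mul_le_mul_of_nonneg_right (φB _ (D.sub h1)) (mul_nonneg hc' hW)
    have h9 := mul_le_mul_of_nonneg_right (φB _ (D.sub h1)) (mul_nonneg (mul_nonneg cB.le hM0) hW)
    simp only [hΓ]
    split_ifs at h5 h6 ⊢ <;> linarith
  have hm : Measurable fun p : E × E => ENNReal.ofReal (min (φ p.2) (φ p.1) *
      (K₀ (rr G L p.2 p.1 / ε) / ε ^ (m + 2) * (wt (G p.2) * wt (G p.1)))) :=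
    ((((hφ.comp continuous_snd).min (hφ.comp continuous_fst)).mul
      (((hk.cont.comp (hr.div_const ε)).div_const _).mul
        ((hw.comp continuous_snd).mul (hw.comp continuous_fst)))).measurable).ennreal_ofReal
  have e1 : QW m G L K₀ φ D.Ω ε = ∫⁻ p : E × E, ENNReal.ofReal (min (φ p.2) (φ p.1) *
      (K₀ (rr G L p.2 p.1 / ε) / ε ^ (m + 2) * (wt (G p.2) * wt (G p.1))))
        ∂(volume.restrict D.Ω).prod (volume.restrict D.Ωᶜ) :=
    (lintegral_prod _ hm.aemeasurable).symm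
  rw [e1]
  refine (lintegral_mono_ae (hle.mono fun p hp => ENNReal.ofReal_le_ofReal hp)).trans ?_
  have e2 := ofReal_integral_eq_lintegral_ofReal hi
    (hle.mono fun p hp => (mul_nonneg (le_min (φ0 _) (φ0 _)) (hkn p)).trans hp)
  refine le_trans (le_of_eq e2.symm) (ENNReal.ofReal_le_ofReal ?_)
  rw [integral_add' (hΓi.add (i1.const_mul (B * c'))) (i2.const_mul (B * (CB * M'))),
    integral_add' hΓi (i1.const_mul (B * c')), integral_const_mul, integral_const_mul]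
  have k1 := mul_le_mul_of_nonneg_left j1 (mul_nonneg hB0 hc')
  have k2 := mul_le_mul_of_nonneg_left j2 (mul_nonneg hB0 (mul_nonneg cB.le hM0))
  have a1 : 0 ≤ (B * (M * ε ^ (m + 1)) + δ * M' * ε ^ (m + 1)) * D.A := by positivity
  have a2 : 0 ≤ B * (M' * ε ^ (m + 2)) * D.A := by positivity
  have a3 : 0 ≤ B * (c' * t ^ (m + 2)) * D.A := by positivity
  have b1 := mul_nonneg (add_pos (mul_pos cB cc) cc).le a1
  have b2 := mul_nonneg (add_pos cA cc).le a2
  have b3 := mul_nonneg (add_pos cA (mul_pos cB cc)).le a3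
  refine le_trans (add_le_add (add_le_add hJ k1) k2) ?_
  linarith

end Vale.Agent.P219
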