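import Vale.Agent.P219.S.FluxW2
import Vale.Agent.P219.S.FluxW3
import Vale.Agent.P219.G.Flux

/-! P219 S/FluxW (TASK, owner helper14; helper names start with fw4_). Weighted form of fluxN: copy the proof of Pack.fluxN in
G/Flux.lean with gamW, fluxCW in place of gam, fluxC.  B > 0 bounds φ on K; order of choices: θ with
C B C₁ θ (A + 1) ≤ l I₀ / 5, then ψ, M₁, M₂, then δ > 0 with C δ M₂ (A + 1) ≤ l I₀ / 5, then ε small (also so small that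
rr x y ≤ ε gives |φ x - φ y| ≤ δ on K: dist_cmp and dist_uc).  In the fin_small step use φ ≤ B a.e. (ae_prod).
No case distinction on A is needed. -/

namespace Vale.Agent.P219

open scoped ContDiff Topology RealInnerProductSpace ENNReal
open MeasureTheory Set Filter Vale.Agent.P255
open St (sn gmod)

variable {E : Type*} [NormedAddCommGroup E] [InnerProductSpace ℝ E] [FiniteDimensional ℝ E]
  [MeasurableSpace E] [BorelSpace E] {G : E → Bil E} {L : E → E → E} {K : Set E} {m : ℕ} {b : ℝ}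
  {ρ ε c H : ℝ} {τ : ℝ → ℝ}

theorem fw4_small {a b : ℝ} (ha : 0 ≤ a) (hb : 0 < b) :
    ∃ t : ℝ, 0 < t ∧ ∀ s, s ≤ t → a * s ≤ b := by
  refine ⟨b / (a + 1), by positivity, fun s hs => (mul_le_mul_of_nonneg_left hs ha).trans ?_⟩
  rw [← mul_div_assoc, div_le_iff₀ (by positivity)]
  linarith

omit [MeasurableSpace E] [BorelSpace E] in
theorem fw4_uc (hP : Pack G L) (hK : IsCompact K) {φ : E → ℝ} (hφ : Continuous φ) {δ : ℝ}
    (hδ : 0 < δ) : ∃ e : ℝ, 0 < e ∧ ∀ x ∈ K, ∀ y ∈ K, rr G L x y ≤ e → |φ x - φ y| ≤ δ := by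
  obtain ⟨C, hC, h1⟩ := hP.dist_cmp hK
  obtain ⟨η, hη, h2⟩ := dist_uc hK hφ hδ
  refine ⟨η / C, by positivity, fun x hx y hy h => h2 x hx y ?_⟩
  rw [dist_eq_norm]
  exact (h1 x hx y hy).1.trans ((le_div_iff₀' hC).1 h)

theorem Pack.fluxW (hE : Module.finrank ℝ E = m + 1) (hm : 2 ≤ m) (hP : Pack G L)
    {D : NDom G (KB G L c)} (hD : NDom.Stat L c D H) (hT : D.Tight) {φ : E → ℝ}
    (hφ : Continuous φ) (h0 : ∀ x, 0 ≤ φ x) {l ε₀ : ℝ} (hl : 0 < l) (hε : 0 < ε₀) :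
    ∃ (τ : ℝ → ℝ) (ε : ℝ), ε ≤ ε₀ ∧ Cut τ ε ∧
      cm E m * ∫ z, φ z.1 ∂D.μ - l ≤ ∫ z, φ z.1.1 * (deriv τ (rr G L z.1.1 z.2.1) /
        rr G L z.1.1 z.2.1 ^ (m - 1) * (1 - ca G L z.2.1 z.1.1 z.2.2 ^ 2)) ∂D.μ.prod D.μ := by
  have hK := hP.isCompact_KB c
  have hA := D.A_nonneg
  obtain ⟨B₀, hB₀⟩ := hK.exists_bound_of_continuousOn hφ.continuousOn
  obtain ⟨B, B0, hφB⟩ : ∃ B : ℝ, 0 < B ∧ ∀ x ∈ KB G L c, φ x ≤ B := ⟨max B₀ 1, by positivity,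
    fun x hx => (le_abs_self _).trans ((hB₀ x hx).trans (le_max_left _ _))⟩
  obtain ⟨K₀, C₁, I₀, hK₀, hC₁, hI₀, hk⟩ := exists_kern hm
  obtain ⟨C, hC, hf⟩ := hP.fluxCW hE hK
  have l0 : 0 < l * I₀ / 5 := by positivity
  obtain ⟨θ₀, θ₀0, hθ₀⟩ := fw4_small (a := C * B * C₁ * D.A) (by positivity) l0
  obtain ⟨θ, θ0, θ1, θ2⟩ : ∃ θ : ℝ, 0 < θ ∧ θ ≤ 1 / 2 ∧ C * B * C₁ * D.A * θ ≤ l * I₀ / 5 :=
    ⟨min (1 / 2) θ₀, by positivity, min_le_left _ _, hθ₀ _ (min_le_right _ _)⟩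
  obtain ⟨ψ, p1, p2, p3, p4, p5, p6, p7⟩ := hk θ θ0 θ1
  have cs : HasCompactSupport ψ := HasCompactSupport.intro (isCompact_Icc (a := 0) (b := 1))
    fun r hr => by
      rcases not_and_or.1 hr with h | h
      · exact p3 r ((not_le.1 h).le.trans (by positivity))
      · exact p4 r (not_le.1 h).le
  have p1' : ContDiff ℝ 1 (deriv ψ) := p1.deriv'
  obtain ⟨N₁, hN₁⟩ := p1.continuous.bounded_above_of_compact_support cs
  obtain ⟨M₂, hM₂⟩ := p1'.continuous.bounded_above_of_compact_support cs.deriv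
  obtain ⟨M₁, M0, hM₁⟩ : ∃ M₁, 0 < M₁ ∧ ∀ r, ψ r ≤ M₁ := ⟨max N₁ 1, by positivity, fun r =>
    (le_abs_self _).trans ((hN₁ r).trans (le_max_left _ _))⟩
  have M0' : 0 ≤ M₂ := (norm_nonneg _).trans (hM₂ 0)
  obtain ⟨δ, δ0, hδ⟩ := fw4_small (a := C * M₂ * D.A) (by positivity) l0
  have δ1 := hδ δ le_rfl
  obtain ⟨e₁, he₁, hg⟩ := hP.gamW hE (by omega) hK hT hK₀ hφ h0 l0
  obtain ⟨e₂, he₂, hs⟩ := hP.fin_small hE (by omega) hD (l := l * I₀ / 5 / B / M₁)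
    (by positivity)
  obtain ⟨e₃, he₃, hu⟩ := fw4_uc hP hK hφ δ0
  obtain ⟨e₄, he₄, hv⟩ := fw4_small (a := C * B * (M₁ + M₂) * D.A) (by positivity) l0
  obtain ⟨ε, ε0, ε1, ε2, ε3, ε4, ε6, ε5⟩ : ∃ ε : ℝ, 0 < ε ∧ ε ≤ ε₀ ∧ ε ≤ e₁ ∧ ε ≤ e₂ ∧ ε ≤ 1 ∧
      ε ≤ e₃ ∧ C * B * (M₁ + M₂) * D.A * ε ≤ l * I₀ / 5 :=
    ⟨min (min (min ε₀ e₁) (min e₂ 1)) (min e₃ e₄), by positivity,
      by simp, by simp, by simp, by simp, by simp, hv _ (by simp)⟩
  obtain ⟨n, rfl⟩ : ∃ n, m = n + 1 := ⟨m - 1, by omega⟩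
  rw [Nat.add_sub_cancel] at p5 p6 ⊢
  obtain ⟨I, hI⟩ : ∃ I, ∫ r in (0 : ℝ)..1, ψ r * r ^ n = I := ⟨_, rfl⟩
  rw [hI] at p5 p6
  have I0 : 0 < I := hI₀.trans_le p5
  obtain ⟨τ, hτ, hd⟩ := flux_cut n θ0 ε0 p1 p2 p3 p4 hI I0
  refine ⟨τ, ε, ε1, hτ, ?_⟩
  have z0 : ∀ r, r ≤ θ / 2 * ε → ψ (r / ε) / ε ^ (n + 1) = 0 := fun r hr => by
    rw [p3 _ ((div_le_iff₀ ε0).2 hr), zero_div]
  have z1 : ∀ r, ε ≤ r → ψ (r / ε) / ε ^ (n + 1) = 0 := fun r hr => by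
    rw [p4 _ ((one_le_div ε0).2 hr), zero_div]
  have hB : Bump (fun r => ψ (r / ε) / ε ^ (n + 1)) (M₁ / ε ^ (n + 1)) ε :=
    ⟨(p1.comp (contDiff_id.div_const ε)).div_const _, fun r => ⟨div_nonneg (p2 _) (by positivity),
      div_le_div_of_nonneg_right (hM₁ _) (by positivity)⟩, ⟨θ / 2 * ε, by positivity, z0⟩, z1⟩
  have d1 := flux_der (p1.differentiable (by simp)) ε (ε ^ (n + 1))
  have d2 := flux_der (p1'.differentiable (by simp)) ε (ε ^ (n + 1) * ε)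
  have k1 := (hg ε ε0 ε2).trans (hf D φ _ K₀ B δ _ (M₂ / (ε ^ (n + 1) * ε))
    (C₁ / θ ^ (n + 1 + 1) / ε ^ (n + 1 + 2)) ε (θ * ε) hφ h0 B0.le δ0.le hφB
    (fun x hx y hy h => hu x hx y hy (h.trans ε6)) hB hK₀ (by positivity)
    (mul_le_of_le_one_left ε0.le (by linarith)) ε4
    (by positivity) (fun r => by
      rw [d1, abs_div, abs_of_pos (by positivity : 0 < ε ^ (n + 1) * ε)]
      exact div_le_div_of_nonneg_right (hM₂ _) (by positivity)) fun r hr => by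
      have := div_le_div_of_nonneg_right (p7 (r / ε) (by positivity)) (pow_pos ε0 (n + 1 + 2)).le
      rw [sub_div, ite_div, zero_div] at this
      rw [d1, d2]
      simp only [← div_le_iff₀ ε0]
      refine this.trans_eq ?_
      field_simp
      ring)
  have cψ : Continuous fun r => ψ (r / ε) / ε ^ (n + 1) := hB.smooth.continuous
  have hx : Continuous fun z : (E × E) × (E × E) => z.1.1 := continuous_fst.fst
  have hy : Continuous fun z : (E × E) × (E × E) => z.2.1 := continuous_snd.fst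
  have i1 : Integrable (fun z : (E × E) × (E × E) =>
      φ z.1.1 * (ψ (rr G L z.1.1 z.2.1 / ε) / ε ^ (n + 1))) (D.μ.prod D.μ) :=
    D.integrable_prod hP.loc hK ((hφ.comp hx).mul (cψ.comp (cont_r hP hx hy)))
  have c2 : Continuous fun z : (E × E) × (E × E) => ψ (rr G L z.1.1 z.2.1 / ε) / ε ^ (n + 1) *
      ca G L z.2.1 z.1.1 z.2.2 ^ 2 := hP.cont_cut hx hy
    ((cont_ca' hP hx hy continuous_snd.snd).pow 2) cψ (by positivity) z0
  have i2 : Integrable (fun z : (E × E) × (E × E) => φ z.1.1 * (ψ (rr G L z.1.1 z.2.1 / ε) /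
      ε ^ (n + 1) * ca G L z.2.1 z.1.1 z.2.2 ^ 2)) (D.μ.prod D.μ) :=
    D.integrable_prod hP.loc hK ((hφ.comp hx).mul c2)
  have k2 := hs (fun r => ψ (r / ε) / ε ^ (n + 1) / M₁) (cψ.div_const _)
    ⟨θ / 2 * ε, by positivity, fun r hr => by rw [z0 r hr, zero_div]⟩
    (fun r hr => by rw [z1 r (ε3.trans hr), zero_div]) fun r hr => by
      rcases le_total ε r with h | h
      · rw [z1 r h, zero_div]
        positivity
      · rw [div_right_comm]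
        exact div_le_div₀ zero_le_one (div_le_one_of_le₀ (hM₁ _) M0.le) (by positivity)
          (pow_le_pow_left₀ hr.le h _)
  simp only [div_mul_eq_mul_div _ M₁] at k2
  rw [integral_div, div_le_div_iff_of_pos_right M0, le_div_iff₀' B0, ← integral_const_mul] at k2
  have k4 := (integral_mono_ae i2 ((D.integrable_prod hP.loc hK c2).const_mul B)
    ((D.ae_prod hP.loc hK).mono fun z hz => mul_le_mul_of_nonneg_right (hφB _ hz.1.1)
      (mul_nonneg (hB.mem _).1 (sq_nonneg _)))).trans k2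
  have n1 : 0 ≤ ∫ z, φ z.1.1 * (ψ (rr G L z.1.1 z.2.1 / ε) / ε ^ (n + 1)) ∂D.μ.prod D.μ :=
    integral_nonneg fun z => mul_nonneg (h0 _) (hB.mem _).1
  have n2 : 0 ≤ ∫ z, φ z.1 ∂D.μ := integral_nonneg fun z => h0 _
  rw [ENNReal.ofReal_le_ofReal_iff (by positivity),
    show M₁ / ε ^ (n + 1) * ε ^ (n + 1 + 1) + M₂ / (ε ^ (n + 1) * ε) * ε ^ (n + 1 + 2) +
      C₁ / θ ^ (n + 1 + 1) / ε ^ (n + 1 + 2) * (θ * ε) ^ (n + 1 + 2) = (M₁ + M₂) * ε + C₁ * θ by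
      field_simp
      ring,
    show δ * (M₂ / (ε ^ (n + 1) * ε)) * ε ^ (n + 1 + 1) = δ * M₂ by
      field_simp
      ring] at k1
  have k3 : cm E (n + 1) * I ≤ cm E (n + 1) / (n + 1 : ℕ) *
      ∫ r in (0 : ℝ)..1, K₀ r * r ^ (n + 1 + 1) := by
    rw [div_mul_eq_mul_div, mul_div_assoc]
    exact mul_le_mul_of_nonneg_left ((le_div_iff₀' (by positivity)).2 p6) (cm_pos E _).le
  simp only [hd, div_mul_eq_mul_div _ I, ← mul_div_assoc _ _ I, mul_sub, mul_one]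
  rw [integral_div, integral_sub i1 i2, le_div_iff₀ I0]
  have q1 := mul_le_mul_of_nonneg_right k3 n2
  have q3 := mul_le_mul_of_nonneg_left p5 hl.le
  linarith

end Vale.Agent.P219
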