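import Vale.Agent.P219.G.Gam1

/-! P219 S/FluxW0 (helper14): the weighted nonlocal perimeter. -/

namespace Vale.Agent.P219

open scoped ContDiff Topology RealInnerProductSpace ENNReal
open MeasureTheory Set Filter Vale.Agent.P255
open St (sn gmod)

variable {E : Type*} [NormedAddCommGroup E] [InnerProductSpace ℝ E] [FiniteDimensional ℝ E]
  [MeasurableSpace E] [BorelSpace E] {G : E → Bil E} {L : E → E → E} {K : Set E} {m : ℕ} {b : ℝ}
  {ρ ε c H : ℝ} {τ : ℝ → ℝ}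

/-- The weighted nonlocal perimeter at scale `ε`. -/
noncomputable def QW (m : ℕ) (G : E → Bil E) (L : E → E → E) (K₀ : ℝ → ℝ) (φ : E → ℝ) (S : Set E)
    (ε : ℝ) : ℝ≥0∞ :=
  ∫⁻ y in S, ∫⁻ x in Sᶜ, ENNReal.ofReal
    (min (φ x) (φ y) * (K₀ (rr G L x y / ε) / ε ^ (m + 2) * (wt (G x) * wt (G y))))

end Vale.Agent.P219
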