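import Vale.Agent.P219.G.Exist
import Vale.Agent.P219.G.Dist

/-! P219 S/FluxW1 (TASK, owner helper14; helper names start with fw1_). Weighted form of Tight.low.
upW: mol β Ω x = ∫ y in Ω, ρ (x - y) with ρ = β.normed volume, so for a fixed vector v,
fderiv (mol β Ω) x v = ∫ y in Ω, fderiv ρ (x - y) v = -∫ y in Ω, dvg (fun y => ρ (x - y) • v) y
= -∫ z, ρ (x - z.1) * G z.1 z.2 v / wt (G z.1) ∂μ (D.div; for the derivative of the convolution use
HasCompactSupport.hasFDerivAt_convolution_left or differentiate under the integral).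
ad B N = wt B * N (nu B N) with nu B N a unit vector when N ≠ 0 (ad_zero otherwise; see LinAlg files), Cauchy-Schwarz
PosB.sq_le, and uniform continuity near the compact K (dist_uc, exists_bounds) give
ad (G x) (fderiv (mol ..) x) ≤ (1 + δ) ∫ z, ρ (x - z.1) ∂μ for rOut small.  Fubini, ∫ ρ = 1 and uniform continuity of ψ
give the claim.  lowW: B > 0 bounds φ on cthickening 1 K; apply upW to ψ = max (B - φ) 0 and Tight.low
(times B); the derivative of mol vanishes off cthickening 1 K (tsupport_mol). -/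

namespace Vale.Agent.P219

open scoped ContDiff Topology RealInnerProductSpace ENNReal
open MeasureTheory Set Filter Vale.Agent.P255
open St (sn gmod)

variable {E : Type*} [NormedAddCommGroup E] [InnerProductSpace ℝ E] [FiniteDimensional ℝ E]
  [MeasurableSpace E] [BorelSpace E] {G : E → Bil E} {L : E → E → E} {K : Set E} {m : ℕ} {b : ℝ}
  {ρ ε c H : ℝ} {τ : ℝ → ℝ}

theorem fw1_der (D : NDom G K) (β : ContDiffBump (0 : E)) (x v : E) :
    fderiv ℝ (mol β D.Ω) x v =
      -∫ z, β.normed volume (x - z.1) * ((wt (G z.1))⁻¹ • G z.1 z.2) v ∂D.μ := by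
  have h1 : ContDiff ℝ 1 (β.normed volume) := β.contDiff_normed
  have h2 : LocallyIntegrable (ind D.Ω) := (locallyIntegrable_const (1 : ℝ)).indicator D.meas
  have h3 : ∀ y, HasFDerivAt (fun y => β.normed volume (x - y))
      (-fderiv ℝ (β.normed volume) (x - y)) y := fun y => by
    refine ((h1.differentiable one_ne_zero (x - y)).hasFDerivAt.comp y
      ((hasFDerivAt_id y).const_sub x)).congr_fderiv ?_
    simp
  have h4 := D.div (fun y => β.normed volume (x - y) • v)
    ((h1.comp (contDiff_const.sub contDiff_id)).smul contDiff_const)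
  have h5 : ∀ y, dvg (fun y => β.normed volume (x - y) • v) y =
      -fderiv ℝ (β.normed volume) (x - y) v := fun y => by
    rw [dvg_smul (Z := fun _ => v) (h3 y).differentiableAt (differentiableAt_const v),
      (h3 y).fderiv]
    simp [dvg]
  simp only [h5, integral_neg] at h4
  rw [← exist_int D.meas, neg_eq_iff_eq_neg] at h4
  rw [mol, ← convolution_flip,
    (β.hasCompactSupport_normed.hasFDerivAt_convolution_right _ h2 h1 x).fderiv,
    convolution_precompR_apply _ h2 (β.hasCompactSupport_normed.fderiv ℝ)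
      (h1.continuous_fderiv one_ne_zero), convolution_def]
  refine Eq.trans (integral_congr_ae (ae_of_all _ fun z => ?_)) (h4.trans
    (congrArg Neg.neg (integral_congr_ae (ae_of_all _ fun z => ?_))))
  · simp [mul_comm]
  · simp only [map_smul, smul_apply, smul_eq_mul]
    ring

theorem fw1_cont (hG : LocMetric G univ) :
    Continuous fun z : E × E => (wt (G z.1))⁻¹ • G z.1 z.2 :=
  (((contDiff_wt hG).continuous.comp continuous_fst).inv₀
    fun z => (wt_pos (posB_of_loc hG z.1)).ne').smul
    (((norm_contG hG).comp continuous_fst).clm_apply continuous_snd)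

theorem fw1_one (hG : LocMetric G univ) {z : E × E} (hz : z ∈ UB G K) :
    ad (G z.1) ((wt (G z.1))⁻¹ • G z.1 z.2) = 1 := by
  have hB := posB_of_loc hG z.1
  rw [ad_smul hB, ad, dn, hB.inv.inverse_apply_self, hz.2, Real.sqrt_one, one_mul,
    abs_of_pos (inv_pos.2 (wt_pos hB)), inv_mul_cancel₀ (wt_pos hB).ne']

theorem fw1_pt (hG : LocMetric G univ) (hK : IsCompact K) (D : NDom G K)
    (β : ContDiffBump (0 : E)) (x : E) : ad (G x) (fderiv ℝ (mol β D.Ω) x) ≤
      ∫ z, β.normed volume (x - z.1) * ad (G x) ((wt (G z.1))⁻¹ • G z.1 z.2) ∂D.μ := by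
  have hB := posB_of_loc hG x
  have hρ : Continuous fun z : E × E => β.normed volume (x - z.1) :=
    β.continuous_normed.comp (by fun_prop)
  by_cases h : fderiv ℝ (mol β D.Ω) x = 0
  · rw [h, ad_zero]
    exact integral_nonneg fun z => mul_nonneg (β.nonneg_normed _) (ad_nonneg _ _)
  obtain ⟨-, h1, h2⟩ := nu_spec hB h
  have h3 := h2 (nu (G x) (fderiv ℝ (mol β D.Ω) x))
  rw [h1, mul_one] at h3
  rw [ad, ← h3, fw1_der, ← integral_neg, ← integral_mul_const]
  refine integral_mono (D.integrable hG hK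
    ((hρ.mul ((fw1_cont hG).clm_apply continuous_const)).neg.mul continuous_const))
    (D.integrable hG hK (hρ.mul ((continuous_ad hG).comp
      (continuous_const.prodMk (fw1_cont hG))))) fun z => ?_
  have h4 := abs_le_dn hB ((wt (G z.1))⁻¹ • G z.1 z.2) (nu (G x) (fderiv ℝ (mol β D.Ω) x))
  rw [h1, Real.sqrt_one, mul_one] at h4
  simp only [ad]
  rw [← mul_neg, mul_assoc]
  exact mul_le_mul_of_nonneg_left
    (mul_le_mul_of_nonneg_right ((neg_le_abs _).trans h4) (wt_pos hB).le) (β.nonneg_normed _)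

theorem NDom.upW (hG : LocMetric G univ) (hK : IsCompact K) (D : NDom G K) {ψ : E → ℝ}
    (hψ : Continuous ψ) (h0 : ∀ x, 0 ≤ ψ x) {l : ℝ} (hl : 0 < l) :
    ∃ η : ℝ, 0 < η ∧ ∀ β : ContDiffBump (0 : E), β.rOut ≤ η →
      ∫ x, ψ x * ad (G x) (fderiv ℝ (mol β D.Ω) x) ≤ ∫ z, ψ z.1 ∂D.μ + l := by
  have hA := D.A_nonneg
  have hε : 0 < l / (D.A + 1) := by positivity
  have hn := fw1_cont hG
  obtain ⟨δ, hδ, h1⟩ := dist_uc ((isCompact_UB hG hK).prod (isCompact_singleton (x := (0 : E))))
    (f := fun q : (E × E) × E =>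
      ψ (q.1.1 + q.2) * ad (G (q.1.1 + q.2)) ((wt (G q.1.1))⁻¹ • G q.1.1 q.1.2))
    ((hψ.comp (by fun_prop)).mul ((continuous_ad hG).comp
      ((continuous_fst.fst.add continuous_snd).prodMk (hn.comp continuous_fst)))) hε
  refine ⟨δ, hδ, fun β hβ => ?_⟩
  have hg : Continuous fun z : E × E => ψ z.1 + l / (D.A + 1) := by fun_prop
  have hρ := β.continuous_normed (μ := volume)
  have h2 : ∀ y, ∫ x, β.normed volume (x - y) = 1 := fun y => by
    rw [integral_sub_right_eq_self, β.integral_normed]
  have h3 : Integrable (Function.uncurry fun (x : E) (z : E × E) =>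
      β.normed volume (x - z.1) * (ψ z.1 + l / (D.A + 1))) (volume.prod D.μ) := by
    refine (integrable_prod_iff' (Continuous.aestronglyMeasurable ?_)).2
      ⟨ae_of_all _ fun z => ((β.integrable_normed (μ := volume)).comp_sub_right z.1).mul_const
        (ψ z.1 + l / (D.A + 1)), ?_⟩
    · exact (hρ.comp (by fun_prop)).mul (hg.comp continuous_snd)
    · simp only [Function.uncurry_apply_pair, norm_mul, integral_mul_const,
        Real.norm_of_nonneg (β.nonneg_normed _), h2, one_mul]
      exact D.integrable hG hK hg.norm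
  refine (integral_mono_of_nonneg (ae_of_all _ fun x => mul_nonneg (h0 x) (ad_nonneg _ _))
    h3.integral_prod_left (ae_of_all _ fun x => ?_)).trans ?_
  · refine (mul_le_mul_of_nonneg_left (fw1_pt hG hK D β x) (h0 x)).trans ?_
    rw [← integral_const_mul]
    refine integral_mono_of_nonneg (ae_of_all _ fun z => mul_nonneg (h0 x)
      (mul_nonneg (β.nonneg_normed _) (ad_nonneg _ _)))
      (D.integrable hG hK ((hρ.comp (by fun_prop)).mul hg)) ?_
    filter_upwards [D.supp] with z hz
    rw [mul_left_comm, Function.uncurry_apply_pair]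
    by_cases h4 : β.normed volume (x - z.1) = 0
    · rw [h4, zero_mul, zero_mul]
    refine mul_le_mul_of_nonneg_left ?_ (β.nonneg_normed _)
    have h5 : x - z.1 ∈ Metric.ball (0 : E) β.rOut := β.support_normed_eq (μ := volume) ▸ h4
    have h6 := h1 (z, 0) ⟨hz, rfl⟩ (z, x - z.1) (by
      rw [dist_prod_same_left]
      exact (Metric.mem_ball'.1 h5).le.trans hβ)
    simp only [add_zero, add_sub_cancel, fw1_one hG hz, mul_one, Real.dist_eq] at h6
    linarith [(abs_le.1 h6).1]
  · simp only [Function.uncurry_apply_pair]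
    rw [integral_integral_swap h3]
    simp only [integral_mul_const, h2, one_mul]
    rw [integral_add (D.integrable hG hK hψ.fst') (integrable_const _),
      integral_const, smul_eq_mul]
    refine add_le_add le_rfl ?_
    change D.A * _ ≤ l
    rw [← mul_div_assoc, div_le_iff₀ (by positivity)]
    nlinarith

theorem NDom.Tight.lowW (hG : LocMetric G univ) (hK : IsCompact K) {D : NDom G K} (h : D.Tight)
    {φ : E → ℝ} (hφ : Continuous φ) (h0 : ∀ x, 0 ≤ φ x) {l η : ℝ} (hl : 0 < l) (hη : 0 < η) :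
    ∃ β : ContDiffBump (0 : E), β.rOut ≤ η ∧
      ∫ z, φ z.1 ∂D.μ - l ≤ ∫ x, φ x * ad (G x) (fderiv ℝ (mol β D.Ω) x) := by
  obtain ⟨B₀, hB₀⟩ := (hK.cthickening (r := 1)).exists_bound_of_continuousOn hφ.continuousOn
  obtain ⟨B, hB, h1⟩ : ∃ B : ℝ, 0 < B ∧ ∀ x ∈ Metric.cthickening 1 K, max (B - φ x) 0 = B - φ x :=
    ⟨max B₀ 1, lt_max_of_lt_right one_pos, fun x hx => max_eq_left (sub_nonneg.2
      ((le_abs_self _).trans ((hB₀ x hx).trans (le_max_left _ _))))⟩
  obtain ⟨η₁, hη₁, h2⟩ := D.upW hG hK (ψ := fun x => max (B - φ x) 0) (by fun_prop)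
    (fun x => le_max_right _ _) (half_pos hl)
  obtain ⟨β, hβ, h3⟩ := h.low hG hK (l := l / 2 / B) (η := min η (min η₁ 1)) (by positivity)
    (by positivity)
  refine ⟨β, hβ.trans (min_le_left _ _), ?_⟩
  have h4 := h2 β (hβ.trans ((min_le_right _ _).trans (min_le_left _ _)))
  have h5 : ∀ x ∉ Metric.cthickening 1 K, ad (G x) (fderiv ℝ (mol β D.Ω) x) = 0 := fun x hx => by
    rw [Function.notMem_support.1 fun h6 => hx (Metric.cthickening_mono
      (hβ.trans ((min_le_right _ _).trans (min_le_right _ _))) K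
      (tsupport_mol β D.sub (support_fderiv_subset ℝ h6))), ad_zero]
  have h6 : Continuous fun x => ad (G x) (fderiv ℝ (mol β D.Ω) x) := (continuous_ad hG).comp
    (continuous_id.prodMk ((contDiff_mol β D.meas).continuous_fderiv (by simp)))
  have h7 := HasCompactSupport.intro (hK.cthickening (r := 1)) h5
  have h8 : ∫ x, max (B - φ x) 0 * ad (G x) (fderiv ℝ (mol β D.Ω) x) =
      B * (∫ x, ad (G x) (fderiv ℝ (mol β D.Ω) x)) -
        ∫ x, φ x * ad (G x) (fderiv ℝ (mol β D.Ω) x) := by
    rw [← integral_const_mul, ← integral_sub ((h6.integrable_of_hasCompactSupport h7).const_mul B)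
      ((hφ.fun_mul h6).integrable_of_hasCompactSupport h7.mul_left)]
    refine integral_congr_ae (ae_of_all _ fun x => ?_)
    by_cases hx : x ∈ Metric.cthickening 1 K
    · simp only [h1 x hx, sub_mul]
    · simp only [h5 x hx, mul_zero, sub_zero]
  have h9 : ∫ z, max (B - φ z.1) 0 ∂D.μ = D.A * B - ∫ z, φ z.1 ∂D.μ := by
    rw [integral_congr_ae (g := fun z => B - φ z.1)
      (D.supp.mono fun z hz => h1 _ (Metric.self_subset_cthickening K hz.1)),
      integral_sub (integrable_const _) (D.integrable hG hK hφ.fst'),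
      integral_const]
    rfl
  have h10 := mul_le_mul_of_nonneg_left h3 hB.le
  rw [mul_sub, mul_div_cancel₀ _ hB.ne'] at h10
  rw [h8, h9] at h4
  linarith

end Vale.Agent.P219
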