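import Vale.Agent.P219.S.FluxW0
import Vale.Agent.P219.S.FluxW1
import Vale.Agent.P219.G.Gam2

/-! P219 S/FluxW2 (helper14). Weighted form of gam. -/

namespace Vale.Agent.P219

open scoped ContDiff Topology RealInnerProductSpace ENNReal
open MeasureTheory Set Filter Vale.Agent.P255
open St (sn gmod)

variable {E : Type*} [NormedAddCommGroup E] [InnerProductSpace ℝ E] [FiniteDimensional ℝ E]
  [MeasurableSpace E] [BorelSpace E] {G : E → Bil E} {L : E → E → E} {K : Set E} {m : ℕ} {b : ℝ}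
  {ρ ε c H : ℝ} {τ : ℝ → ℝ}

theorem Pack.gam_avgW (hE : Module.finrank ℝ E = m + 1) (hP : Pack G L) {K₁ : Set E}
    (hK : IsCompact K₁) {K₀ : ℝ → ℝ} (h : Ker K₀) {a : E → ℝ} (ha : Continuous a)
    (a0 : ∀ x, 0 ≤ a x) {l : ℝ} (hl : 0 < l) (hl1 : l < 1) :
    ∃ η : ℝ, 0 < η ∧ ∀ φ : ContDiffBump (0 : E), φ.rOut ≤ η → ∀ ε : ℝ, 0 < ε → ε ≤ η →
      ∀ S : Set E, MeasurableSet S →
        ENNReal.ofReal ((1 - l) ^ 2 / 2) * ∫⁻ x in K₁, ∫⁻ v : E,
          ENNReal.ofReal (max (a x - l) 0 * (K₀ ((1 + l) * √(G x v v)) *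
            (|mol φ S x - mol φ S (x + ε • v)| / ε) * wt (G x) ^ 2)) ≤ QW m G L K₀ a S ε := by
  obtain ⟨η₁, hη₁, h1'⟩ := hP.dist_fine hK hl
  obtain ⟨η₂, hη₂, u1⟩ := dist_uc hK ha hl
  obtain ⟨η, hη, e1, e2⟩ : ∃ η : ℝ, 0 < η ∧ η ≤ η₁ ∧ 2 * η ≤ η₂ :=
    ⟨min η₁ (η₂ / 2), by positivity, min_le_left _ _, by linarith [min_le_right η₁ (η₂ / 2)]⟩
  have h1 := fun x hx z k (hz : ‖z‖ ≤ η) (hk : ‖k‖ ≤ η) => h1' x hx z k (hz.trans e1) (hk.trans e1)
  have u2 : ∀ x ∈ K₁, ∀ z k : E, ‖z‖ ≤ η → ‖k‖ ≤ η →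
      max (a x - l) 0 ≤ min (a (x - z)) (a (x + k - z)) := fun x hx z k hz hk => by
    have v1 := u1 x hx (x - z) (by rw [dist_eq_norm, sub_sub_cancel]; linarith)
    have v2 := u1 x hx (x + k - z) (by
      rw [dist_eq_norm, show x - (x + k - z) = z - k by abel]
      linarith [norm_sub_le z k])
    rw [Real.dist_eq, abs_le] at v1 v2
    exact le_min (max_le (by linarith) (a0 _)) (max_le (by linarith) (a0 _))
  obtain ⟨c, C, hc, -, h2⟩ := hP.loc.exists_bounds hK (subset_univ _)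
  have hc' := Real.sqrt_pos.2 hc
  refine ⟨min η (η * √c), by positivity, fun φ hφ ε hε hε' S hS => ?_⟩
  have hG : Continuous G := (contDiffOn_univ.1 hP.loc.smooth).continuous
  have hw : Continuous fun y => wt (G y) := (contDiff_wt hP.loc).continuous
  have hr := hP.continuous_rr
  have hk := h.cont
  have hf : Measurable (ind S) := measurable_one.indicator hS
  have h3 := gam1_sym (Φ := fun x y => ENNReal.ofReal (min (a x) (a y) *
    (K₀ (rr G L x y / ε) / ε ^ (m + 2) * (wt (G x) * wt (G y)))))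
    (((ha.comp continuous_fst).min (ha.comp continuous_snd)).mul
      (((hk.comp (hr.div_const ε)).div_const _).mul ((hw.comp continuous_fst).mul
      (hw.comp continuous_snd)))).measurable.ennreal_ofReal
    (fun x y => by rw [hP.rr_symm, mul_comm (wt (G x)), min_comm]) hS
  have h4 : Continuous fun q : (E × E) × E => max (a q.1.1 - l) 0 *
      (K₀ ((1 + l) * √(G q.1.1 q.2 q.2)) / ε * wt (G q.1.1) ^ 2) :=
    (((ha.comp continuous_fst.fst).sub continuous_const).max continuous_const).mul (((hk.comp (continuous_const.mul (((hG.comp continuous_fst.fst).clm_apply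
      continuous_snd).clm_apply continuous_snd).sqrt)).div_const ε).mul
      ((hw.comp continuous_fst.fst).pow 2))
  have h5 := gam1_avg φ (H := fun x v z =>
    ENNReal.ofReal (max (a x - l) 0 * (K₀ ((1 + l) * √(G x v v)) / ε * wt (G x) ^ 2)) *
      ENNReal.ofReal |ind S (x - z) - ind S (x + ε • v - z)|) K₁
    (h4.measurable.ennreal_ofReal.mul (by fun_prop)) (c := ENNReal.ofReal ((1 - l) ^ 2))
    (T := 2 * QW m G L K₀ a S ε) ENNReal.ofReal_ne_top fun z hz => by
      rw [QW, ← h3, gam1_shift hE _ hε z, ← lintegral_const_mul' _ _ ENNReal.ofReal_ne_top]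
      refine le_trans (setLIntegral_mono' hK.measurableSet fun x hx => ?_)
        (setLIntegral_le_lintegral K₁ _)
      rw [← lintegral_const_mul' _ _ ENNReal.ofReal_ne_top]
      refine lintegral_mono fun v => ?_
      beta_reduce
      rw [← mul_assoc, ← mul_assoc (ENNReal.ofReal (ε ^ (m + 1))),
        ← ENNReal.ofReal_mul (sq_nonneg _), ← ENNReal.ofReal_mul (pow_pos hε (m + 1)).le]
      refine mul_le_mul_left (ENNReal.ofReal_le_ofReal ?_) _
      have h6 := h.nonneg (rr G L (x - z) (x + ε • v - z) / ε)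
      have h7 : ∀ y, 0 ≤ wt (G y) := fun y => Real.sqrt_nonneg _
      have h8 := h7 (x - z)
      have h9 := h7 (x + ε • v - z)
      have h10 : 0 ≤ min (a (x - z)) (a (x + ε • v - z)) := le_min (a0 _) (a0 _)
      by_cases hv : ‖ε • v‖ ≤ η
      · obtain ⟨k1, k2, k3⟩ := h1 x hx z _ (hz.trans (hφ.trans (min_le_left _ _))) hv
        have k4 : √(G x (ε • v) (ε • v)) = ε * √(G x v v) := by
          simp only [map_smul, smul_apply, smul_eq_mul, ← mul_assoc]
          rw [Real.sqrt_mul (by positivity), Real.sqrt_mul_self hε.le]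
        rw [k4, mul_left_comm, ← div_le_iff₀' hε] at k1
        have k5 := h.anti (div_nonneg (rr_nonneg _ _ _ _) hε.le)
          (show (0 : ℝ) ≤ _ by positivity) k1
        have k6 := mul_nonneg (sub_pos.2 hl1).le (h7 x)
        have k7 := u2 x hx z _ (hz.trans (hφ.trans (min_le_left _ _))) hv
        have k8 := h.nonneg ((1 + l) * √(G x v v))
        calc _ = max (a x - l) 0 * (K₀ ((1 + l) * √(G x v v)) / ε *
              ((1 - l) * wt (G x) * ((1 - l) * wt (G x)))) := by ring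
          _ ≤ min (a (x - z)) (a (x + ε • v - z)) * (K₀ (rr G L (x - z) (x + ε • v - z) / ε) / ε *
              (wt (G (x - z)) * wt (G (x + ε • v - z)))) := by gcongr
          _ = _ := by field_simp; ring
      · rw [h.zero, zero_div, zero_mul, mul_zero, mul_zero]
        · positivity
        have k1 : √c * ‖v‖ ≤ √(G x v v) := by
          refine Real.le_sqrt_of_sq_le ?_
          rw [mul_pow, Real.sq_sqrt hc.le]
          exact (h2 x hx v).1
        rw [norm_smul, Real.norm_of_nonneg hε.le, not_le] at hv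
        have k2 : η * 1 ≤ η * (√c * ‖v‖) := by
          rw [← mul_assoc, mul_one]
          exact hv.le.trans (mul_le_mul_of_nonneg_right (hε'.trans (min_le_right _ _))
            (norm_nonneg _))
        have k3 := (le_of_mul_le_mul_left k2 hη).trans k1
        nlinarith
  rw [← ENNReal.mul_le_mul_iff_right two_ne_zero ENNReal.ofNat_ne_top, ← mul_assoc,
    ← ENNReal.ofReal_ofNat 2, ← ENNReal.ofReal_mul zero_le_two, mul_div_cancel₀ _ two_ne_zero,
    ENNReal.ofReal_ofNat]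
  refine le_trans (mul_le_mul_right (lintegral_mono fun x => lintegral_mono fun v => ?_) _) h5
  have h6 := h.nonneg ((1 + l) * √(G x v v))
  simp only [mul_left_comm (ENNReal.ofReal (φ.normed volume _))]
  rw [lintegral_const_mul' _ _ ENNReal.ofReal_ne_top]
  refine le_trans (le_of_eq ?_) (mul_le_mul_right (gam1_mol φ hS x (x + ε • v)) _)
  rw [← ENNReal.ofReal_mul (by positivity)]
  congr 1
  ring

theorem gam2_fatouW (hG : LocMetric G univ) (K₁ : Set E) {K₀ : ℝ → ℝ} (h : Continuous K₀) (c : ℝ)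
    {u : E → ℝ} (hu : Differentiable ℝ u) {a : E → ℝ} (ha : Continuous a) :
    ∫⁻ x in K₁, ∫⁻ v : E,
        ENNReal.ofReal (a x * (K₀ (c * √(G x v v)) * |fderiv ℝ u x v| * wt (G x) ^ 2)) ≤
      liminf (fun ε : ℝ => ∫⁻ x in K₁, ∫⁻ v : E, ENNReal.ofReal
        (a x * (K₀ (c * √(G x v v)) * (|u x - u (x + ε • v)| / ε) * wt (G x) ^ 2))) (𝓝[>] 0) := by
  have cG : Continuous G := (contDiffOn_univ.1 hG.smooth).continuous
  have c1 : Continuous fun z : E × E => G z.1 z.2 z.2 :=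
    ((cG.comp continuous_fst).clm_apply continuous_snd).clm_apply continuous_snd
  have c2 : Continuous fun z : E × E => K₀ (c * √(G z.1 z.2 z.2)) :=
    h.comp (continuous_const.mul c1.sqrt)
  have c3 : Continuous fun z : E × E => wt (G z.1) ^ 2 :=
    ((contDiff_wt hG).continuous.comp continuous_fst).pow 2
  have cu := hu.continuous
  have c4 : ∀ ε : ℝ, Continuous fun z : E × E => |u z.1 - u (z.1 + ε • z.2)| / ε := fun ε => by
    fun_prop
  refine gam2_two _ _ _ (fun ε x v => a x * (K₀ (c * √(G x v v)) * (|u x - u (x + ε • v)| / ε) *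
    wt (G x) ^ 2)) _ (fun ε => ((ha.comp continuous_fst).mul ((c2.mul (c4 ε)).mul c3)).measurable)
    fun x v => ?_
  refine ((Tendsto.const_mul _ ?_).mul_const _).const_mul _
  refine ((hu x).hasFDerivAt.hasLineDerivAt v).tendsto_slope_zero_right.abs.congr' ?_
  filter_upwards [self_mem_nhdsWithin] with ε hε
  rw [smul_eq_mul, abs_mul, abs_inv, abs_of_pos hε, abs_sub_comm, inv_mul_eq_div]

theorem Pack.gamW (hE : Module.finrank ℝ E = m + 1) (hm : 1 ≤ m) (hP : Pack G L)
    (hK : IsCompact K) {D : NDom G K} (hD : D.Tight) {K₀ : ℝ → ℝ} (h : Ker K₀) {φ : E → ℝ}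
    (hφ : Continuous φ) (h0 : ∀ x, 0 ≤ φ x) {l : ℝ} (hl : 0 < l) :
    ∃ ε₀ : ℝ, 0 < ε₀ ∧ ∀ ε : ℝ, 0 < ε → ε ≤ ε₀ →
      ENNReal.ofReal ((cm E m / m * ∫ r in (0 : ℝ)..1, K₀ r * r ^ (m + 1)) * ∫ z, φ z.1 ∂D.μ - l) ≤
        QW m G L K₀ φ D.Ω ε := by
  have hc0 : 0 ≤ cm E m / m * ∫ r in (0 : ℝ)..1, K₀ r * r ^ (m + 1) :=
    mul_nonneg (div_nonneg (cm_pos E m).le (Nat.cast_nonneg m))
      (intervalIntegral.integral_nonneg zero_le_one fun r hr =>
        mul_nonneg (h.nonneg r) (pow_nonneg hr.1 _))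
  have hA := fun (x : E) (N : E →L[ℝ] ℝ) (c : ℝ) (hc : 0 < c) =>
    gam2_ang hE hm (posB_of_loc hP.loc x) N h hc
  generalize cm E m / m * ∫ r in (0 : ℝ)..1, K₀ r * r ^ (m + 1) = c at hc0 hA
  have hi : ∀ {f : E → ℝ}, Continuous f → Integrable (fun z : E × E => f z.1) D.μ := fun hf =>
    D.integrable hP.loc hK (hf.comp continuous_fst)
  have hJ : ∀ t : ℝ, ∫ z, φ z.1 ∂D.μ - t * D.A ≤ ∫ z, max (φ z.1 - t) 0 ∂D.μ := fun t => by
    have := integral_mono (hi (hφ.sub (continuous_const (y := t))))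
      (hi ((hφ.sub (continuous_const (y := t))).max (continuous_const (y := 0))))
      fun z => le_max_left _ _
    simp only [Pi.sub_apply] at this
    rwa [integral_sub (hi hφ) (integrable_const t), integral_const, smul_eq_mul, mul_comm] at this
  generalize ∫ z, φ z.1 ∂D.μ = J at hJ
  clear hi
  have a0 := h0
  rcases le_or_gt (c * J - l) 0 with h0 | h0
  · exact ⟨1, one_pos, fun ε _ _ => by simp [ENNReal.ofReal_of_nonpos h0]⟩
  have ct : ContinuousAt (fun t : ℝ => (1 - t) ^ 2 / 2 * (2 * c / (1 + t) ^ (m + 2) * (J - t * D.A - t)))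
      0 := by
    refine ContinuousAt.mul (by fun_prop) (ContinuousAt.mul (ContinuousAt.div (by fun_prop)
      (by fun_prop) (by simp)) (by fun_prop))
  obtain ⟨t, ht, h1⟩ := ((show ∀ᶠ t in 𝓝[>] (0 : ℝ), t ∈ Ioo (0 : ℝ) 1 from
    Ioo_mem_nhdsGT one_pos).and ((ct.eventually (lt_mem_nhds (show c * J - l < _ by
      simp only [sub_zero, add_zero, one_pow, div_one, zero_mul]
      linarith))).filter_mono nhdsWithin_le_nhds)).exists
  obtain ⟨η, η0, hη⟩ := hP.gam_avgW hE (hK.cthickening (r := 1)) h hφ a0 ht.1 ht.2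
  have ca : Continuous fun x => max (φ x - t) 0 := (hφ.sub continuous_const).max continuous_const
  obtain ⟨β, hβ, hlow⟩ := hD.lowW hP.loc hK ca (fun x => le_max_right _ _) ht.1 (lt_min η0 one_pos)
  have hu := contDiff_mol β D.meas
  have ht0 : 0 < (1 - t) ^ 2 / 2 := by
    have := sub_pos.2 ht.2
    positivity
  have ha0 : 0 ≤ 2 * c / (1 + t) ^ (m + 2) := by
    have := ht.1
    positivity
  have mA : Measurable fun x => max (φ x - t) 0 * ad (G x) (fderiv ℝ (mol β D.Ω) x) :=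
    (ca.mul ((continuous_ad hP.loc).comp (continuous_id.prodMk
      (hu.continuous_fderiv (by simp))))).measurable
  have k1 : ENNReal.ofReal (J - t * D.A - t) ≤ ∫⁻ x in Metric.cthickening 1 K,
      ENNReal.ofReal (max (φ x - t) 0 * ad (G x) (fderiv ℝ (mol β D.Ω) x)) := by
    refine le_trans (ENNReal.ofReal_le_ofReal
      (((sub_le_sub_right (hJ t) t).trans hlow).trans_eq ?_))
      (gam2_ofReal (Eventually.of_forall fun x => mul_nonneg (le_max_right _ _) (ad_nonneg _ _)) mA)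
    refine (setIntegral_eq_integral_of_forall_compl_eq_zero fun x hx => ?_).symm
    rw [fderiv_of_notMem_tsupport, ad_zero, mul_zero]
    exact fun hx' => hx (Metric.cthickening_mono (hβ.trans (min_le_right _ _)) K
      (tsupport_mol β D.sub hx'))
  have hA' : ∀ x, ENNReal.ofReal (2 * c / (1 + t) ^ (m + 2)) *
      ENNReal.ofReal (max (φ x - t) 0 * ad (G x) (fderiv ℝ (mol β D.Ω) x)) ≤
      ∫⁻ v : E, ENNReal.ofReal (max (φ x - t) 0 * (K₀ ((1 + t) * √(G x v v)) *
        |fderiv ℝ (mol β D.Ω) x v| * wt (G x) ^ 2)) := fun x => by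
    simp only [ENNReal.ofReal_mul (le_max_right (φ x - t) 0)]
    rw [lintegral_const_mul' _ _ ENNReal.ofReal_ne_top, mul_left_comm]
    exact mul_le_mul_right (hA x (fderiv ℝ (mol β D.Ω) x) (1 + t) (by linarith [ht.1])) _
  have k2 := (lintegral_mono (μ := volume.restrict (Metric.cthickening 1 K)) hA').trans
    (gam2_fatouW hP.loc _ h.cont (1 + t) (hu.differentiable (by simp)) ca)
  rw [lintegral_const_mul' _ _ ENNReal.ofReal_ne_top] at k2
  have k3 := (mul_le_mul_right k1 _).trans k2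
  rw [← ENNReal.ofReal_mul ha0] at k3
  have k4 : (c * J - l) / ((1 - t) ^ 2 / 2) < 2 * c / (1 + t) ^ (m + 2) * (J - t * D.A - t) :=
    (div_lt_iff₀' ht0).2 h1
  have k5 := eventually_lt_of_lt_liminf
    (((ENNReal.ofReal_lt_ofReal_iff ((div_pos h0 ht0).trans k4)).2 k4).trans_le k3)
  obtain ⟨ε₀, e0, he⟩ := mem_nhdsGT_iff_exists_Ioc_subset.1 k5
  refine ⟨min ε₀ η, lt_min e0 η0, fun ε hε h2 => le_trans ?_
    (hη β (hβ.trans (min_le_left _ _)) ε hε (h2.trans (min_le_right _ _)) _ D.meas)⟩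
  refine le_trans (le_of_eq ?_)
    (mul_le_mul_right (le_of_lt (he ⟨hε, h2.trans (min_le_left _ _)⟩)) _)
  rw [← ENNReal.ofReal_mul ht0.le, mul_div_cancel₀ _ ht0.ne']

end Vale.Agent.P219
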