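import Vale.Agent.P219.S.Base

/-!
# The Hardy identity  (TASK)

With `R = u p + s`, `β = bE m`, `F = Fq f = f * cf^(-β)`: `dF = cf^(-β) (df + β f / R du)` (`HasFDerivAt.rpow_const` for `cf = k / R`), so by `Gt_quad`, `cf_rpow_sq`:
`cf^(m-2) Gt F F = Gt f f + 2 β f Gt f u / R + β² f² Gt u u / R²` (`df1_pt`).  For `φ = f² / R`: `Gt φ u = 2 f Gt f u / R - f² Gt u u / R²`.  Write both sides as one integral
(`integrable`, continuity) and check pointwise with `eik`, `bE_sq`, `bE_mul`, and `2 (1 + b² u) R - u (2 + b² u) = b² R² + k²` (`kk_sq`).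
-/

namespace Vale.Agent.P219

open scoped ContDiff Topology RealInnerProductSpace ENNReal
open MeasureTheory Set Filter Vale.Agent.P255
open St (sn gmod)

variable {E : Type*} [NormedAddCommGroup E] [InnerProductSpace ℝ E] [FiniteDimensional ℝ E]
  [MeasurableSpace E] [BorelSpace E] {G : E → Bil E} {L : E → E → E} {K : Set E} {m : ℕ}
  {b H₀ σ t₀ C S c : ℝ} {u : E → E → ℝ} {μ : Measure (E × E)}

theorem Hardy_int {X : Type*} [MeasurableSpace X] {ν : Measure X} {a₁ a₂ a₃ a₄ a₅ a₆ : X → ℝ}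
    (h₁ : Integrable a₁ ν) (h₂ : Integrable a₂ ν) (h₃ : Integrable a₃ ν) (h₄ : Integrable a₄ ν)
    (h₅ : Integrable a₅ ν) (h₆ : Integrable a₆ ν) (ε γ β d : ℝ) :
    ∫ z, (ε * a₁ z + a₂ z + γ * a₃ z + β * (d * a₄ z - a₅ z) + γ * a₆ z) ∂ν =
      ε * ∫ z, a₁ z ∂ν + ∫ z, a₂ z ∂ν + γ * ∫ z, a₃ z ∂ν +
        β * (d * ∫ z, a₄ z ∂ν - ∫ z, a₅ z ∂ν) + γ * ∫ z, a₆ z ∂ν := by
  have k₁ : Integrable (fun z => ε * a₁ z + a₂ z) ν := (h₁.const_mul ε).add h₂
  have k₂ : Integrable (fun z => ε * a₁ z + a₂ z + γ * a₃ z) ν := k₁.add (h₃.const_mul γ)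
  have k₃ : Integrable (fun z => β * (d * a₄ z - a₅ z)) ν := ((h₄.const_mul d).sub h₅).const_mul β
  have k₄ : Integrable (fun z => ε * a₁ z + a₂ z + γ * a₃ z + β * (d * a₄ z - a₅ z)) ν := k₂.add k₃
  rw [integral_add k₄ (h₆.const_mul γ), integral_add k₂ k₃, integral_add k₁ (h₃.const_mul γ),
    integral_add (h₁.const_mul ε) h₂, integral_const_mul, integral_const_mul, integral_const_mul,
    integral_const_mul, integral_sub (h₄.const_mul d) h₅, integral_const_mul]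

theorem Hardy_der {k s β t : ℝ} (hk : 0 < k) (hR : 0 < t + s) :
    HasDerivAt (fun x => ((k / (x + s)) ^ β)⁻¹) (β / (t + s) * ((k / (t + s)) ^ β)⁻¹) t := by
  have h0 := div_pos hk hR
  have h1 := Real.rpow_pos_of_pos h0 β
  refine ((((hasDerivAt_const t k).fun_div ((hasDerivAt_id' t).add_const s) hR.ne').rpow_const
    (p := β) (Or.inl h0.ne')).fun_inv h1.ne').congr_deriv ?_
  rw [Real.rpow_sub_one h0.ne']
  field_simp
  ring

theorem Sp0.df1_pt (h : Sp0 m b H₀ G u K μ) (p : E) {s : ℝ} (hs : 0 < s) (hs2 : b ^ 2 * s < 2)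
    {f : E → ℝ} (hf : ContDiff ℝ 2 f) (z : E × E) :
    cf b (u p) s z.1 ^ (m - 2) * Gt G (Fq m b (u p) s f) (Fq m b (u p) s f) z =
      Gt G f f z + 2 * bE m * f z.1 * Gt G f (u p) z / (u p z.1 + s) +
        bE m ^ 2 * f z.1 ^ 2 * Gt G (u p) (u p) z / (u p z.1 + s) ^ 2 := by
  have hR : 0 < u p z.1 + s := add_pos_of_nonneg_of_pos (h.nonneg p _) hs
  have hP := Real.rpow_pos_of_pos (cf_pos (h.nonneg p) hs hs2 z.1) (bE m)
  have h1 := ((hf.differentiable two_ne_zero z.1).hasFDerivAt.fun_mul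
    ((Hardy_der (β := bE m) (kk_pos hs hs2) hR).comp_hasFDerivAt z.1
      ((h.cd2 p).differentiable two_ne_zero z.1).hasFDerivAt)).fderiv
  have h2 : fderiv ℝ (Fq m b (u p) s f) z.1 = (cf b (u p) s z.1 ^ bE m)⁻¹ • fderiv ℝ f z.1 +
      (f z.1 * (bE m / (u p z.1 + s) * (cf b (u p) s z.1 ^ bE m)⁻¹)) • fderiv ℝ (u p) z.1 := by
    rw [add_comm, mul_smul]
    exact h1
  rw [Gt_quad h.loc h2, ← cf_rpow_sq h.three (h.nonneg p) hs hs2]
  field_simp

theorem Sp0.hardy (h : Sp0 m b H₀ G u K μ) (hσ : H₀ ^ 2 = b ^ 2 + 1 / σ ^ 2) (ε : ℝ) (p : E)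
    {s : ℝ} (hs : 0 < s) (hs2 : b ^ 2 * s < 2) {f : E → ℝ} (hf : ContDiff ℝ 2 f) :
    Yf G μ (cE m / σ ^ 2 + ε) f =
      dfT m b H₀ ε G μ (u p) s f + cE m * ∫ z, f z.1 ^ 2 * cf b (u p) s z.1 ^ 2 ∂μ := by
  have hR : ∀ y, u p y + s ≠ 0 := fun y => (add_pos_of_nonneg_of_pos (h.nonneg p y) hs).ne'
  have o : (1 : WithTop ℕ∞) ≤ 2 := one_le_two
  have hu := h.cd2 p
  have hF := contDiff_Fq (m := m) (h.nonneg p) hu hs hs2 hf
  have hφ : ContDiff ℝ 2 fun y => f y ^ 2 / (u p y + s) :=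
    (hf.pow 2).div (hu.add contDiff_const) hR
  have c1 : Continuous fun z : E × E => f z.1 ^ 2 := (hf.continuous.comp continuous_fst).pow 2
  have c2 : Continuous fun z : E × E => cf b (u p) s z.1 :=
    (contDiff_cf (h.nonneg p) hu hs).continuous.comp continuous_fst
  have c3 : Continuous fun z : E × E => u p z.1 := hu.continuous.comp continuous_fst
  have c4 := continuous_wn (hu.of_le o)
  have c5 : Continuous fun z : E × E => f z.1 ^ 2 / (u p z.1 + s) :=
    hφ.continuous.comp continuous_fst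
  refine Eq.trans ?_ (Hardy_int (h.integrable c1)
    (h.integrable ((c2.pow (m - 2)).mul (continuous_Gt h.loc (hF.of_le o) (hF.of_le o))))
    (h.integrable (c1.mul (((c4.div (c3.add continuous_const) fun z => hR z.1).sub
      continuous_const).pow 2))) (h.integrable (c5.mul c4))
    (h.integrable (((continuous_const.mul (continuous_const.add (continuous_const.mul c3))).mul
      c5).add (continuous_Gt h.loc (hφ.of_le o) (hu.of_le o))))
    (h.integrable (c1.mul (c2.pow 2))) ε (cE m) (bE m) (m * H₀))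
  refine integral_congr_ae (Eventually.of_forall fun z => ?_)
  have d1 := (hf.differentiable two_ne_zero z.1).hasFDerivAt
  have d2 := (hu.differentiable two_ne_zero z.1).hasFDerivAt
  have d3 := ((d1.fun_mul d1).fun_mul (((hasDerivAt_id' (u p z.1)).add_const s).fun_inv
    (hR z.1) |>.comp_hasFDerivAt z.1 d2)).fderiv
  have e1 : fderiv ℝ (fun y => f y ^ 2 / (u p y + s)) z.1 =
      (2 * f z.1 / (u p z.1 + s)) • fderiv ℝ f z.1 +
        (-(f z.1 ^ 2 / (u p z.1 + s) ^ 2)) • fderiv ℝ (u p) z.1 := by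
    simp only [sq, div_eq_mul_inv] at d3 ⊢
    refine d3.trans ?_
    simp only [Function.comp_apply]
    module
  have e2 := eq_sub_of_add_eq (h.eik p z)
  have e3 : 1 / σ ^ 2 = H₀ ^ 2 - b ^ 2 := by linarith
  have e4 : cE m = bE m * m / 2 := by linarith [bE_mul m]
  have e5 : bE m ^ 2 = bE m * m / 2 - bE m := by linarith [bE_sq m]
  have e6 := hR z.1
  simp only [Pi.mul_apply, Pi.pow_apply, Pi.add_apply, Pi.sub_apply, Pi.div_apply]
  rw [h.df1_pt p hs hs2 hf, Gt_lin e1, e2, cf, div_pow, kk_sq hs.le hs2.le,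
    div_eq_mul_one_div (cE m), e3, e4, e5]
  field_simp
  ring

end Vale.Agent.P219
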