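import Vale.Agent.P219.G.Axial
import Vale.Agent.P219.S.Defs

/-!
# The Euclidean half space integral  (TASK)

`i1_rad`: substitute `r = √(2t) tan (α / 2)`; the integrand becomes `sin^(m-1) α (1 - cos α)`.  E.g. `F r = Φ (2 arctan (r / √(2t)))`, `Φ x = ∫ α in 0..x, sin^(m-1) α * (1 - cos α)` has derivative the integrand
(`sin (2 arctan x) = 2x / (1 + x²)`, `cos (2 arctan x) = (1 - x²) / (1 + x²)`: `Real.sin_arctan`, `Real.cos_arctan`, double angle), is monotone, and `Φ x ≤ Φ π = Sm m` for `x ≤ π`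
(`∫ sin^(m-1) cos = 0`); `lintegral` over `Ioi 0` by `integrableOn_Ioi_deriv_of_nonneg`, `integral_Ioi_of_hasDerivAt_of_nonneg`.
`i1_abs`: `ang` with `B = innerSL ℝ`, `N = innerSL ℝ e`, `c = 1` (`wt = 1`, `ad = ‖e‖`: `hat B = id`), `cm_mul_Sm`.  `i1`: `max x 0 = (|x| + x) / 2`, the odd part integrates to zero (`integral_neg_eq_self`);
`‖v‖ ≤ ∑ i, |⟪e i, v⟫|` for an orthonormal basis gives integrability and `J = 2 (m + 1) S`.
-/

namespace Vale.Agent.P219

open scoped ContDiff Topology RealInnerProductSpace ENNReal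
open MeasureTheory Set Filter Vale.Agent.P255
open St (sn gmod)

variable {E : Type*} [NormedAddCommGroup E] [InnerProductSpace ℝ E] [FiniteDimensional ℝ E]
  [MeasurableSpace E] [BorelSpace E] {G : E → Bil E} {L : E → E → E} {K : Set E} {m : ℕ}
  {b H₀ σ t₀ C S c : ℝ} {u : E → E → ℝ} {μ : Measure (E × E)}

theorem i1_sin (x : ℝ) : Real.sin (2 * Real.arctan x) = 2 * x / (1 + x ^ 2) := by
  have h : 0 < 1 + x ^ 2 := by positivity
  rw [Real.sin_two_mul, Real.sin_arctan, Real.cos_arctan, mul_assoc, div_mul_div_comm,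
    Real.mul_self_sqrt h.le, mul_one, mul_div_assoc]

theorem i1_cos (x : ℝ) : 1 - Real.cos (2 * Real.arctan x) = 2 * x ^ 2 / (1 + x ^ 2) := by
  have h : 0 < 1 + x ^ 2 := by positivity
  rw [Real.cos_two_mul, Real.cos_sq_arctan]
  field_simp
  ring

theorem i1_odd (n : ℕ) : ∫ x in (0 : ℝ)..Real.pi, Real.sin x ^ n * Real.cos x = 0 := by
  simpa using integral_sin_pow_mul_cos_pow_odd (a := 0) (b := Real.pi) n 0

theorem i1_rad (hm : 1 ≤ m) {t : ℝ} (ht : 0 < t) :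
    ∫⁻ r in Ioi (0 : ℝ), ENNReal.ofReal (r ^ (m + 1)) *
      ENNReal.ofReal (√(2 * t) ^ m / (r ^ 2 / 2 + t) ^ (m + 1)) ≤ ENNReal.ofReal (Sm m) := by
  obtain ⟨n, rfl⟩ : ∃ n, m = n + 1 := ⟨m - 1, by omega⟩
  obtain ⟨a, a0, rfl⟩ : ∃ a : ℝ, 0 < a ∧ t = a ^ 2 / 2 :=
    ⟨√(2 * t), by positivity, by rw [Real.sq_sqrt (by positivity)]; ring⟩
  rw [mul_div_cancel₀ _ two_ne_zero, Real.sqrt_sq a0.le]
  have h := lintegral_image_eq_lintegral_abs_deriv_mul (s := Ioi (0 : ℝ))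
    (f := fun r => 2 * Real.arctan (r / a)) (f' := fun r => 2 * (1 / (1 + (r / a) ^ 2) * (1 / a)))
    measurableSet_Ioi
    (fun x _ => ((((hasDerivAt_id' x).div_const a).arctan).const_mul 2).hasDerivWithinAt)
    (fun _ _ _ _ e => (div_left_inj' a0.ne').1
      (Real.arctan_injective (mul_left_cancel₀ two_ne_zero e)))
    fun α => ENNReal.ofReal (Real.sin α ^ n * (1 - Real.cos α))
  have h1 : (fun r => 2 * Real.arctan (r / a)) '' Ioi (0 : ℝ) ⊆ Ioo 0 Real.pi := by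
    rintro _ ⟨r, hr, rfl⟩
    have := Real.arctan_lt_pi_div_two (r / a)
    have := Real.arctan_pos.2 (div_pos hr a0)
    constructor <;> simp only <;> linarith
  have h2 := axial_lin Real.pi_pos.le (φ := fun α => Real.sin α ^ n * (1 - Real.cos α))
    (by fun_prop) fun x hx => mul_nonneg
      (pow_nonneg (Real.sin_pos_of_pos_of_lt_pi hx.1 hx.2).le _) (sub_nonneg.2 (Real.cos_le_one x))
  have h3 : ∫ α in (0 : ℝ)..Real.pi, Real.sin α ^ n * (1 - Real.cos α) = Sm (n + 1) := by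
    simp only [mul_sub, mul_one]
    rw [intervalIntegral.integral_sub (Continuous.intervalIntegrable (by fun_prop) _ _)
      (Continuous.intervalIntegrable (by fun_prop) _ _), i1_odd, sub_zero, Sm, Nat.add_sub_cancel]
  rw [← h3, ← h2]
  refine le_trans (le_of_eq ?_) (h.symm.le.trans (lintegral_mono_set h1))
  refine setLIntegral_congr_fun measurableSet_Ioi fun r hr => ?_
  have hr0 : (0 : ℝ) < r := hr
  have e1 : r ^ 2 / 2 + a ^ 2 / 2 = a ^ 2 * (1 + (r / a) ^ 2) / 2 := by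
    field_simp
    ring
  have e2 : 0 < 1 + (r / a) ^ 2 := by positivity
  rw [← ENNReal.ofReal_mul (by positivity), ← ENNReal.ofReal_mul (by positivity), i1_sin, i1_cos,
    abs_of_pos (by positivity), e1]
  generalize 1 + (r / a) ^ 2 = q at e2
  refine congrArg ENNReal.ofReal ?_
  simp only [div_pow, mul_pow]
  field_simp
  ring

theorem i1_ang (n : ℕ) (l : ℝ) :
    ∫ x in (0 : ℝ)..Real.pi, Real.sin x ^ n * (max (Real.cos x) 0 + l) =
      1 / (n + 1) + l * Sm (n + 1) := by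
  have h : ∀ x, Real.sin x ^ n * (max (Real.cos x) 0 + l) =
      2⁻¹ * (Real.sin x ^ n * |Real.cos x|) + 2⁻¹ * (Real.sin x ^ n * Real.cos x) +
        l * Real.sin x ^ n := fun x => by
    rcases le_total 0 (Real.cos x) with h | h
    · rw [max_eq_left h, abs_of_nonneg h]
      ring
    · rw [max_eq_right h, abs_of_nonpos h]
      ring
  simp only [h]
  rw [intervalIntegral.integral_add (Continuous.intervalIntegrable (by fun_prop) _ _)
    (Continuous.intervalIntegrable (by fun_prop) _ _),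
    intervalIntegral.integral_add (Continuous.intervalIntegrable (by fun_prop) _ _)
    (Continuous.intervalIntegrable (by fun_prop) _ _), intervalIntegral.integral_const_mul,
    intervalIntegral.integral_const_mul, intervalIntegral.integral_const_mul, axial_cos, i1_odd,
    Sm, Nat.add_sub_cancel]
  ring

theorem i1_lin (hE : Module.finrank ℝ E = m + 1) (hm : 1 ≤ m) {t l : ℝ} (ht : 0 < t) (hl : 0 ≤ l)
    {e : E} (he : ‖e‖ = 1) :
    ∫⁻ v : E, ENNReal.ofReal (m * √(2 * t) ^ m / (‖v‖ ^ 2 / 2 + t) ^ (m + 1) *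
      (max ⟪e, v⟫ 0 + l * ‖v‖)) ≤
      ENNReal.ofReal ((m + 1) * om E + l * (m * cm E m * Sm m ^ 2)) := by
  have h1 := axial hE hm he (f := fun p => ENNReal.ofReal (m * √(2 * t) ^ m /
    (p.1 ^ 2 / 2 + t) ^ (m + 1) * (p.1 * (max p.2 0 + l)))) (by fun_prop)
  have h2 : ∀ v : E, ‖v‖ * (max (⟪e, v⟫ / ‖v‖) 0 + l) = max ⟪e, v⟫ 0 + l * ‖v‖ := fun v => by
    by_cases z : v = 0
    · simp [z]
    · rw [mul_add, mul_max_of_nonneg _ _ (norm_nonneg _), mul_div_cancel₀ _ (norm_ne_zero_iff.2 z),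
        mul_zero, mul_comm]
  simp only [h2] at h1
  have h3 := i1_rad hm ht
  have S0 := Sm_pos m
  have c0 := cm_pos E m
  have h4 : ∀ α ∈ Ioo 0 Real.pi, ENNReal.ofReal (Real.sin α ^ (m - 1)) *
      ∫⁻ r in Ioi (0 : ℝ), ENNReal.ofReal (r ^ m) * ENNReal.ofReal (m * √(2 * t) ^ m /
        (r ^ 2 / 2 + t) ^ (m + 1) * (r * (max (Real.cos α) 0 + l))) ≤
      ENNReal.ofReal (m * Sm m * (Real.sin α ^ (m - 1) * (max (Real.cos α) 0 + l))) := fun α hα => by
    have s0 := Real.sin_pos_of_pos_of_lt_pi hα.1 hα.2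
    have h5 : ∫⁻ r in Ioi (0 : ℝ), ENNReal.ofReal (r ^ m) * ENNReal.ofReal (m * √(2 * t) ^ m /
        (r ^ 2 / 2 + t) ^ (m + 1) * (r * (max (Real.cos α) 0 + l))) =
        ENNReal.ofReal (m * (max (Real.cos α) 0 + l)) *
          ∫⁻ r in Ioi (0 : ℝ), ENNReal.ofReal (r ^ (m + 1)) *
            ENNReal.ofReal (√(2 * t) ^ m / (r ^ 2 / 2 + t) ^ (m + 1)) := by
      rw [← lintegral_const_mul' _ _ ENNReal.ofReal_ne_top]
      refine setLIntegral_congr_fun measurableSet_Ioi fun r hr => ?_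
      have hr0 : (0 : ℝ) < r := hr
      rw [← ENNReal.ofReal_mul (by positivity), ← ENNReal.ofReal_mul (by positivity),
        ← ENNReal.ofReal_mul (by positivity)]
      refine congrArg ENNReal.ofReal ?_
      ring
    rw [h5]
    refine (mul_le_mul_right (mul_le_mul_right h3 _) _).trans (le_of_eq ?_)
    rw [← ENNReal.ofReal_mul (by positivity), ← ENNReal.ofReal_mul (by positivity)]
    refine congrArg ENNReal.ofReal ?_
    ring
  rw [h1]
  refine (mul_le_mul_right (setLIntegral_mono' measurableSet_Ioo h4) _).trans (le_of_eq ?_)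
  rw [axial_lin Real.pi_pos.le (by fun_prop) fun x hx => by
    have s0 := Real.sin_pos_of_pos_of_lt_pi hx.1 hx.2
    positivity, intervalIntegral.integral_const_mul, ← ENNReal.ofReal_mul c0.le, ← cm_mul_Sm]
  obtain ⟨n, rfl⟩ : ∃ n, m = n + 1 := ⟨m - 1, by omega⟩
  rw [Nat.add_sub_cancel, i1_ang]
  refine congrArg ENNReal.ofReal ?_
  push_cast
  field_simp

omit [FiniteDimensional ℝ E] [MeasurableSpace E] [BorelSpace E] in
theorem i1_unit (hE : Module.finrank ℝ E = m + 1) {e : E} (he : ‖e‖ ≤ 1) :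
    ∃ e' : E, ‖e'‖ = 1 ∧ ∀ v, max ⟪e, v⟫ 0 ≤ max ⟪e', v⟫ 0 := by
  by_cases z : e = 0
  · have : Nontrivial E := Module.nontrivial_of_finrank_eq_succ hE
    obtain ⟨e', h⟩ := exists_norm_eq E zero_le_one
    exact ⟨e', h, fun v => by simp [z]⟩
  · have n0 := norm_pos_iff.2 z
    refine ⟨‖e‖⁻¹ • e, norm_smul_inv_norm z, fun v => max_le ?_ (le_max_right _ _)⟩
    rcases le_total ⟪e, v⟫ 0 with h | h
    · exact h.trans (le_max_right _ _)
    · rw [real_inner_smul_left]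
      exact (le_mul_of_one_le_left h ((one_le_inv₀ n0).2 he)).trans (le_max_left _ _)

theorem i1 (hE : Module.finrank ℝ E = m + 1) (hm : 1 ≤ m) : ∃ J : ℝ, 0 < J ∧ ∀ t : ℝ, 0 < t →
    ∀ l : ℝ, 0 ≤ l → ∀ e : E, ‖e‖ ≤ 1 →
      Integrable (fun v : E => m * √(2 * t) ^ m / (‖v‖ ^ 2 / 2 + t) ^ (m + 1) *
        (max ⟪e, v⟫ 0 + l * ‖v‖)) ∧
      ∫ v : E, m * √(2 * t) ^ m / (‖v‖ ^ 2 / 2 + t) ^ (m + 1) * (max ⟪e, v⟫ 0 + l * ‖v‖) ≤
        (m + 1) * om E + l * J := by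
  have S0 := Sm_pos m
  have c0 := cm_pos E m
  refine ⟨m * cm E m * Sm m ^ 2, by positivity, fun t ht l hl e he => ?_⟩
  obtain ⟨e', h1, h2⟩ := i1_unit hE he
  have h3 := (lintegral_mono fun v : E => ENNReal.ofReal_le_ofReal
    (mul_le_mul_of_nonneg_left (add_le_add_left (h2 v) (l * ‖v‖)) (by positivity))).trans
      (i1_lin hE hm ht hl h1)
  have h4 : 0 ≤ᵐ[volume] fun v : E => m * √(2 * t) ^ m / (‖v‖ ^ 2 / 2 + t) ^ (m + 1) *
      (max ⟪e, v⟫ 0 + l * ‖v‖) := ae_of_all _ fun v => by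
    simp only [Pi.zero_apply]
    positivity
  have h5 : Integrable (fun v : E => m * √(2 * t) ^ m / (‖v‖ ^ 2 / 2 + t) ^ (m + 1) *
      (max ⟪e, v⟫ 0 + l * ‖v‖)) := ⟨Measurable.aestronglyMeasurable (by fun_prop),
    (hasFiniteIntegral_iff_ofReal h4).2 (h3.trans_lt ENNReal.ofReal_lt_top)⟩
  refine ⟨h5, ?_⟩
  rw [← ofReal_integral_eq_lintegral_ofReal h5 h4] at h3
  refine (ENNReal.ofReal_le_ofReal_iff ?_).1 h3
  rw [← cm_mul_Sm]
  positivity

end Vale.Agent.P219
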