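import Vale.Agent.P219.S.Ug
import Vale.Agent.P219.S.Na

/-!
# The Green potential of a set near the centre  (TASK)

`k = kk b s`, `s ≤ k² ≤ 2 s`, `R = u p x + s`; `C₂` from `tri` with `η = 1`, `D' = 2 (C₂ D + 1)`.  Near (`R ≤ D' s`): `ug` gives `≤ C' √(Λ s) ≤ C' √Λ k`, while
`k^m (k / R)^(m-1) ≥ k^m / (D' k)^(m-1) = k / D'^(m-1)`.  Far (`R > D' s`): for `z ∈ T`, `v = u x z.1 ≥ (u p x - C₂ D s) / 2 ≥ R / 4` (`tri`, `symm`); `grn_le`,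
`√(v (2 + b² v)) ≤ C₃ √v` (`u_le`), so the integrand is `≤ C₃ (2Λ)^m k^m √v / v^m ≤ C₄ k^m √R / R^m`; `ball` bounds `μ T ≤ C₅ k^m`; and `k^m √R / R^m ≤ √2 (k / R)^(m-1)` since `k² ≤ 2 R`.
-/

namespace Vale.Agent.P219

open scoped ContDiff Topology RealInnerProductSpace ENNReal
open MeasureTheory Set Filter Vale.Agent.P255
open St (sn gmod)

variable {E : Type*} [NormedAddCommGroup E] [InnerProductSpace ℝ E] [FiniteDimensional ℝ E]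
  [MeasurableSpace E] [BorelSpace E] {G : E → Bil E} {L : E → E → E} {K : Set E} {m : ℕ}
  {b H₀ σ t₀ C S c : ℝ} {u : E → E → ℝ} {μ : Measure (E × E)}

theorem kb_sqrt {k s Λ : ℝ} (hk : 0 < k) (hΛ : 0 ≤ Λ) (h1 : s ≤ k ^ 2) :
    √(Λ * s) ≤ √Λ * k := by
  rw [Real.sqrt_mul hΛ]
  exact mul_le_mul_of_nonneg_left (Real.sqrt_le_iff.2 ⟨hk.le, h1⟩) (Real.sqrt_nonneg _)

theorem kb_near {k s R D' Λ C₁ : ℝ} (a : ℕ) (hk : 0 < k) (hΛ : 0 ≤ Λ) (hC : 0 < C₁) (hR : 0 < R)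
    (hD : 0 < D') (h1 : s ≤ k ^ 2) (h2 : R ≤ D' * s) :
    C₁ * √(Λ * s) ≤ C₁ * √Λ * D' ^ (a + 1) * k ^ (a + 2) * (k / R) ^ (a + 1) := by
  have h3 : 1 ≤ D' * k * (k / R) := by
    rw [← mul_div_assoc, le_div_iff₀ hR]
    have h4 := mul_le_mul_of_nonneg_left h1 hD.le
    linarith
  have h5 : 1 ≤ (D' * k * (k / R)) ^ (a + 1) := one_le_pow₀ h3
  have h6 : 0 ≤ C₁ * (√Λ * k) := by positivity
  calc C₁ * √(Λ * s) ≤ C₁ * (√Λ * k) := mul_le_mul_of_nonneg_left (kb_sqrt hk hΛ h1) hC.le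
    _ ≤ C₁ * (√Λ * k) * (D' * k * (k / R)) ^ (a + 1) := le_mul_of_one_le_right h6 h5
    _ = _ := by rw [mul_pow, mul_pow]; ring

theorem kb_pt {k s R v U Λ g : ℝ} (b : ℝ) (a : ℕ) (hk : 0 < k) (hΛ : 0 ≤ Λ) (hR : 0 < R)
    (hs : 0 < s) (h1 : s ≤ k ^ 2) (h2 : k ^ 2 ≤ 2 * s) (h3 : s ≤ R) (h4 : R ≤ 4 * v) (h5 : v ≤ U)
    (hg0 : 0 ≤ g) (hg : g ≤ √(2 * (Λ * s)) ^ a * (Λ * s) / v ^ (a + 2)) :
    √(v * (2 + b ^ 2 * v)) * g ≤
      √(2 + b ^ 2 * U) * √(2 * Λ) ^ a * Λ * 3 * 4 ^ (a + 1) * (k / R) ^ (a + 1) := by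
  have hv : 0 < v := by linarith
  have e1 : √(v * (2 + b ^ 2 * v)) ≤ √v * √(2 + b ^ 2 * U) := by
    rw [Real.sqrt_mul hv.le]
    refine mul_le_mul_of_nonneg_left (Real.sqrt_le_sqrt ?_) (Real.sqrt_nonneg _)
    have := mul_le_mul_of_nonneg_left h5 (sq_nonneg b)
    linarith
  have e2 : √(2 * (Λ * s)) ≤ √(2 * Λ) * k := by
    rw [← mul_assoc]
    exact kb_sqrt hk (by positivity) h1
  have e3 : k ≤ 3 * √v := by
    refine (pow_le_pow_iff_left₀ hk.le (by positivity) two_ne_zero).1 ?_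
    rw [mul_pow, Real.sq_sqrt hv.le]
    linarith
  have e4 : √v * (k / v) ≤ 3 := by
    rw [← mul_div_assoc, div_le_iff₀ hv]
    have h6 := mul_le_mul_of_nonneg_left e3 (Real.sqrt_nonneg v)
    have h7 := Real.mul_self_sqrt hv.le
    linarith
  have e5 : k / v ≤ 4 * (k / R) := by
    rw [← mul_div_assoc, div_le_div_iff₀ hv hR]
    have h6 := mul_le_mul_of_nonneg_left h4 hk.le
    linarith
  have e6 : g ≤ (√(2 * Λ) * k) ^ a * (Λ * k ^ 2) / v ^ (a + 2) := by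
    refine hg.trans (div_le_div_of_nonneg_right ?_ (by positivity))
    exact mul_le_mul (pow_le_pow_left₀ (Real.sqrt_nonneg _) e2 a)
      (mul_le_mul_of_nonneg_left h1 hΛ) (by positivity) (by positivity)
  have e7 : (k / v) ^ (a + 1) ≤ (4 * (k / R)) ^ (a + 1) := pow_le_pow_left₀ (by positivity) e5 _
  calc √(v * (2 + b ^ 2 * v)) * g
      ≤ (√v * √(2 + b ^ 2 * U)) * ((√(2 * Λ) * k) ^ a * (Λ * k ^ 2) / v ^ (a + 2)) :=
        mul_le_mul e1 e6 hg0 (by positivity)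
    _ = √(2 + b ^ 2 * U) * √(2 * Λ) ^ a * Λ * ((√v * (k / v)) * (k / v) ^ (a + 1)) := by
        rw [mul_pow, div_pow]
        field_simp
        ring
    _ ≤ √(2 + b ^ 2 * U) * √(2 * Λ) ^ a * Λ * (3 * (4 * (k / R)) ^ (a + 1)) :=
        mul_le_mul_of_nonneg_left (mul_le_mul e4 e7 (by positivity) (by norm_num))
          (by positivity)
    _ = _ := by rw [mul_pow]; ring

theorem Sp1.kb (h : Sp1 m b H₀ G u K μ t₀ C) {Λ D : ℝ} (hΛ : 1 ≤ Λ) (hD : 0 < D) :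
    ∃ C' : ℝ, 0 < C' ∧ ∀ p ∈ K, ∀ s : ℝ, 0 < s → Λ * s ≤ t₀ → ∀ T : Set (E × E), MeasurableSet T →
      (∀ z ∈ T, u p z.1 ≤ D * s) → ∀ t : ℝ, 0 < t → t ≤ Λ * s → ∀ x ∈ K,
        Kav m b μ u T t (Λ * s) x ≤ C' * kk b s ^ m * cf b (u p) s x ^ (m - 1) := by
  obtain ⟨a, rfl⟩ : ∃ a, m = a + 2 := ⟨m - 2, by have := h.three; omega⟩
  obtain ⟨C₁, hC₁, hug⟩ := h.ug
  obtain ⟨C₂, hC₂, htri⟩ := h.tri 1 one_pos
  obtain ⟨U, hU, hUle⟩ := h.toSp0.u_le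
  have hC := h.C_pos
  have hΛ0 : 0 < Λ := by linarith
  have hD' : 0 < 2 * (C₂ * D + 1) := by positivity
  have hA : 0 < C₁ * √Λ * (2 * (C₂ * D + 1)) ^ (a + 1) := by positivity
  have hB : 0 < √(2 + b ^ 2 * U) * √(2 * Λ) ^ a * Λ * 3 * 4 ^ (a + 1) * (C * (D + 1) ^ (a + 1)) := by
    positivity
  refine ⟨_, add_pos hA hB, fun p hp s hs hst T hT hTD t ht htΛ x hx => ?_⟩
  have hsΛ : s ≤ Λ * s := le_mul_of_one_le_left hs.le hΛ
  have hbs : b ^ 2 * s ≤ 1 :=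
    (mul_le_mul_of_nonneg_left (hsΛ.trans hst) (sq_nonneg b)).trans h.t_le
  have hk : 0 < kk b s := kk_pos hs (by linarith)
  have h1 := le_kk_sq hs.le hbs
  have h2 : kk b s ^ 2 ≤ 2 * s := kk_sq_le hs.le
  have hux := h.nonneg p x
  have hR : 0 < u p x + s := by linarith
  show _ ≤ _ * kk b s ^ (a + 2) * (kk b s / (u p x + s)) ^ (a + 1)
  have hpos : 0 ≤ kk b s ^ (a + 2) * (kk b s / (u p x + s)) ^ (a + 1) := by positivity
  rcases le_or_gt (u p x + s) (2 * (C₂ * D + 1) * s) with hn | hf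
  · have h3 := (hug T x hx t (Λ * s) ht htΛ hst).trans (kb_near a hk hΛ0.le hC₁ hR hD' h1 hn)
    have h4 := mul_nonneg hB.le hpos
    linarith
  · have := h.fin
    have h3 : ‖Kav (a + 2) b μ u T t (Λ * s) x‖ ≤ √(2 + b ^ 2 * U) * √(2 * Λ) ^ a * Λ * 3 *
        4 ^ (a + 1) * (kk b s / (u p x + s)) ^ (a + 1) * μ.real T := by
      refine norm_setIntegral_le_of_norm_le_const_ae' (measure_lt_top _ _) ?_
      filter_upwards [h.toSp0.ae_mem] with z hz hzT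
      have h5 := htri p hp z.1 hz.1 x hx
      have h6 := mul_le_mul_of_nonneg_left (hTD z hzT) hC₂.le
      rw [h.symm z.1 x] at h5
      have h7 : u p x + s ≤ 4 * u x z.1 := by linarith
      have h8 : 0 < u x z.1 := by linarith
      have h9 := grn_nonneg (m := a + 2) (b := b) ht htΛ h8.le
      rw [Real.norm_of_nonneg (mul_nonneg (Real.sqrt_nonneg _) h9)]
      exact kb_pt b a hk hΛ0.le hR hs h1 h2 (by linarith) h7 (hUle x hx z.1 hz.1) h9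
        (grn_le ht htΛ h8)
    have h4 : μ.real T ≤ C * (D + 1) ^ (a + 1) * kk b s ^ (a + 2) :=
      (measureReal_mono (fun z hz => hTD z hz) (measure_ne_top _ _)).trans
        (h.ball hp hs (hsΛ.trans hst) hD)
    have h5 : 0 ≤ √(2 + b ^ 2 * U) * √(2 * Λ) ^ a * Λ * 3 *
        4 ^ (a + 1) * (kk b s / (u p x + s)) ^ (a + 1) := by positivity
    have h6 := ((le_abs_self _).trans h3).trans (mul_le_mul_of_nonneg_left h4 h5)
    have h7 := mul_nonneg hA.le hpos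
    linarith

end Vale.Agent.P219
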