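import Vale.Agent.P219.S.Base

/-!
# The best constant  (TASK)

`lam = sInf {Yf f | f of class C², Nq f = 1}` (`csInf_le`, `le_csInf`, `exists_lt_of_csInf_lt`).  `SI`: if `Nq f = 0` use `Real.zero_rpow`, `Yf_nonneg`; otherwise scale by
`a = Nq f ^ (-1 / q)` (`Nq_smul`, `Yf_smul`).  `SI_of_one` is this last step.
-/

namespace Vale.Agent.P219

open scoped ContDiff Topology RealInnerProductSpace ENNReal
open MeasureTheory Set Filter Vale.Agent.P255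
open St (sn gmod)

variable {E : Type*} [NormedAddCommGroup E] [InnerProductSpace ℝ E] [FiniteDimensional ℝ E]
  [MeasurableSpace E] [BorelSpace E] {G : E → Bil E} {L : E → E → E} {K : Set E} {m : ℕ}
  {b H₀ σ t₀ C S c : ℝ} {u : E → E → ℝ} {μ : Measure (E × E)}

theorem Sp0.SI_of_one (h : Sp0 m b H₀ G u K μ) {α lam : ℝ} (hα : 0 ≤ α)
    (hl : ∀ f : E → ℝ, ContDiff ℝ 2 f → Nq m μ f = 1 → lam ≤ Yf G μ α f) : SI m G μ α lam := by
  intro f hf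
  have hq : 0 < qE m := lt_trans (by norm_num) (qE_gt h.three)
  have hq' : qE m ≠ 0 := hq.ne'
  rcases (Nq_nonneg m μ f).eq_or_lt with h0 | hN
  · rw [← h0, Real.zero_rpow (div_pos two_pos hq).ne', mul_zero]
    exact h.Yf_nonneg hα f
  · obtain ⟨a, ha⟩ : ∃ a : ℝ, a = Nq m μ f ^ (-1 / qE m) := ⟨_, rfl⟩
    have ha0 : 0 < a := ha ▸ Real.rpow_pos_of_pos hN _
    have h1 : Nq m μ (fun y => a * f y) = 1 := by
      rw [Nq_smul, abs_of_pos ha0, ha, ← Real.rpow_mul hN.le, div_mul_cancel₀ _ hq',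
        Real.rpow_neg_one, inv_mul_cancel₀ hN.ne']
    have h2 := hl (fun y => a * f y) (contDiff_const.mul hf) h1
    rw [h.Yf_smul α a hf] at h2
    have h3 : a ^ 2 * Nq m μ f ^ (2 / qE m) = 1 := by
      rw [ha, ← Real.rpow_natCast, ← Real.rpow_mul hN.le, ← Real.rpow_add hN]
      have e : -1 / qE m * ((2 : ℕ) : ℝ) + 2 / qE m = 0 := by
        push_cast; ring
      rw [e, Real.rpow_zero]
    have h4 : 0 < Nq m μ f ^ (2 / qE m) := Real.rpow_pos_of_pos hN _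
    calc lam * Nq m μ f ^ (2 / qE m) ≤ (a ^ 2 * Yf G μ α f) * Nq m μ f ^ (2 / qE m) :=
          mul_le_mul_of_nonneg_right h2 h4.le
      _ = (a ^ 2 * Nq m μ f ^ (2 / qE m)) * Yf G μ α f := by ring
      _ = Yf G μ α f := by rw [h3, one_mul]

theorem Sp0.exists_lam (h : Sp0 m b H₀ G u K μ) {α l : ℝ} (hα : 0 ≤ α)
    (hl : ∀ f : E → ℝ, ContDiff ℝ 2 f → Nq m μ f = 1 → l ≤ Yf G μ α f)
    (hne : ∃ f : E → ℝ, ContDiff ℝ 2 f ∧ Nq m μ f = 1) : ∃ lam : ℝ, l ≤ lam ∧ SI m G μ α lam ∧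
      ∀ η : ℝ, 0 < η → ∃ f : E → ℝ, ContDiff ℝ 2 f ∧ Nq m μ f = 1 ∧ Yf G μ α f ≤ lam + η := by
  obtain ⟨A, hA⟩ : ∃ A : Set ℝ,
      A = {y | ∃ f : E → ℝ, ContDiff ℝ 2 f ∧ Nq m μ f = 1 ∧ Yf G μ α f = y} := ⟨_, rfl⟩
  have hAne : A.Nonempty := by
    obtain ⟨f, hf, h1⟩ := hne
    exact ⟨Yf G μ α f, hA ▸ ⟨f, hf, h1, rfl⟩⟩
  have hlow : ∀ y ∈ A, l ≤ y := by
    intro y hy
    rw [hA] at hy
    obtain ⟨f, hf, h1, rfl⟩ := hy
    exact hl f hf h1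
  have hbdd : BddBelow A := ⟨l, hlow⟩
  refine ⟨sInf A, le_csInf hAne hlow, h.SI_of_one hα fun f hf h1 => csInf_le hbdd ?_, ?_⟩
  · rw [hA]; exact ⟨f, hf, h1, rfl⟩
  · intro η hη
    obtain ⟨y, hy, hlt⟩ := exists_lt_of_csInf_lt hAne (lt_add_of_pos_right (sInf A) hη)
    rw [hA] at hy
    obtain ⟨f, hf, h1, rfl⟩ := hy
    exact ⟨f, hf, h1, hlt.le⟩

end Vale.Agent.P219
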