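import Vale.Agent.P219.S.Kk

/-!
# Choice of the constants  

As `τ → 0+`, `κ τ = (S - τ)^(-1/q) + τ` tends to `S^(-1/q)`; `κ^q (S - τ) > 1` since `κ > (S - τ)^(-1/q)` (`Real.rpow_lt_rpow`); `(1 - τ) / (κ + 3τ)^(q-2) → S^((q-2)/q) = S^(2/m)`
(`one_sub_qE`; continuity at `0`: `ContinuousAt.rpow_const`).
-/

namespace Vale.Agent.P219

open scoped ContDiff Topology RealInnerProductSpace ENNReal
open MeasureTheory Set Filter Vale.Agent.P255
open St (sn gmod)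

theorem lim_const {m : ℕ} (hm : 3 ≤ m) {S x : ℝ} (hS : 0 < S) (hx : x < S ^ (2 / m : ℝ)) :
    ∃ κ τ : ℝ, 0 < κ ∧ 0 < τ ∧ 1 < κ ^ qE m * (S - τ) ∧
      x * (κ + τ + 2 * τ) ^ (qE m - 2) < 1 - τ := by
  have hq := qE_gt hm
  have h1 := one_sub_qE hm
  set q := qE m with hqd
  have hq0 : 0 < q := by linarith
  have hc0 : ContinuousAt (fun τ : ℝ => (S - τ) ^ (-1 / q) + τ + τ + 2 * τ) 0 := by
    have : ContinuousAt (fun τ : ℝ => (S - τ) ^ (-1 / q)) 0 :=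
      ContinuousAt.rpow_const (by fun_prop) (Or.inl (by simpa using hS.ne'))
    exact ((this.add continuousAt_id).add continuousAt_id).add (by fun_prop)
  have hc : ContinuousAt
      (fun τ : ℝ => x * ((S - τ) ^ (-1 / q) + τ + τ + 2 * τ) ^ (q - 2) - (1 - τ)) 0 :=
    (continuousAt_const.mul (hc0.rpow_const (Or.inr (by linarith)))).sub (by fun_prop)
  have h0 : x * ((S - 0) ^ (-1 / q) + 0 + 0 + 2 * 0) ^ (q - 2) - (1 - 0) < (0 : ℝ) := by
    have e : -1 / q * (q - 2) = -(2 / m : ℝ) := by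
      rw [← h1]
      field_simp
    have hp : 0 < S ^ (2 / m : ℝ) := Real.rpow_pos_of_pos hS _
    rw [sub_zero, add_zero, add_zero, mul_zero, add_zero, sub_zero, ← Real.rpow_mul hS.le, e,
      Real.rpow_neg hS.le, sub_neg, ← div_eq_mul_inv, div_lt_one hp]
    exact hx
  have h2 : ∀ᶠ τ in 𝓝[>] (0 : ℝ),
      x * ((S - τ) ^ (-1 / q) + τ + τ + 2 * τ) ^ (q - 2) - (1 - τ) < 0 :=
    (hc.eventually (gt_mem_nhds h0)).filter_mono nhdsWithin_le_nhds
  have h3 : ∀ᶠ τ in 𝓝[>] (0 : ℝ), τ < S := (gt_mem_nhds hS).filter_mono nhdsWithin_le_nhds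
  obtain ⟨τ, ⟨h4, h5⟩, h6⟩ := ((h2.and h3).and self_mem_nhdsWithin).exists
  have h7 : 0 < τ := h6
  have h8 : 0 < S - τ := by linarith
  have h9 : 0 < (S - τ) ^ (-1 / q) := Real.rpow_pos_of_pos h8 _
  refine ⟨(S - τ) ^ (-1 / q) + τ, τ, by linarith, h7, ?_, by linarith⟩
  have h10 : ((S - τ) ^ (-1 / q)) ^ q < ((S - τ) ^ (-1 / q) + τ) ^ q :=
    Real.rpow_lt_rpow h9.le (by linarith) hq0
  have e : -1 / q * q = -1 := by field_simp
  rw [← Real.rpow_mul h8.le, e, Real.rpow_neg_one] at h10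
  have := mul_lt_mul_of_pos_right h10 h8
  rwa [inv_mul_cancel₀ h8.ne'] at this

end Vale.Agent.P219
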