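import Vale.Agent.P219.S.Defs

/-!
# Truncation functions  (TASK)

`χ x = Real.smoothTransition ((x² - κ₀²) / (κ₁² - κ₀²))`; the derivative vanishes at minima and maxima (`IsLocalMin.deriv_eq_zero`) and is bounded on the compact interval `[-κ₁, κ₁]`.
`θ x = ∫ t in 0..x, χ t` with `χ` for `κ`, `κ + τ` (`Continuous.deriv_integral`, `contDiff_succ_iff_deriv`); for `x ≥ κ + τ`, `θ x ≥ x - (κ + τ)`, similarly for negative `x`.
-/

namespace Vale.Agent.P219

open scoped ContDiff Topology RealInnerProductSpace ENNReal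
open MeasureTheory Set Filter Vale.Agent.P255
open St (sn gmod)

theorem exists_chi {κ₀ κ₁ : ℝ} (h0 : 0 ≤ κ₀) (h : κ₀ < κ₁) : ∃ (χ : ℝ → ℝ) (B : ℝ),
    ContDiff ℝ 2 χ ∧ 0 < B ∧ (∀ x, 0 ≤ χ x) ∧ (∀ x, χ x ≤ 1) ∧
      (∀ x, |x| ≤ κ₀ → χ x = 0 ∧ deriv χ x = 0) ∧ (∀ x, κ₁ ≤ |x| → χ x = 1 ∧ deriv χ x = 0) ∧
      ∀ x, |deriv χ x| ≤ B := by
  have hd : 0 < κ₁ ^ 2 - κ₀ ^ 2 := by nlinarith
  set χ : ℝ → ℝ := fun x => Real.smoothTransition ((x ^ 2 - κ₀ ^ 2) / (κ₁ ^ 2 - κ₀ ^ 2)) with hχ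
  have hs : ContDiff ℝ 2 χ := Real.smoothTransition.contDiff.comp (by fun_prop)
  have n0 : ∀ x, 0 ≤ χ x := fun x => Real.smoothTransition.nonneg _
  have n1 : ∀ x, χ x ≤ 1 := fun x => Real.smoothTransition.le_one _
  have z0 : ∀ x, |x| ≤ κ₀ → χ x = 0 ∧ deriv χ x = 0 := fun x hx => by
    have e : χ x = 0 := Real.smoothTransition.zero_of_nonpos
      (div_nonpos_of_nonpos_of_nonneg (by nlinarith [sq_abs x, abs_nonneg x]) hd.le)
    exact ⟨e, IsLocalMin.deriv_eq_zero (.of_forall fun y => e.trans_le (n0 y))⟩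
  have z1 : ∀ x, κ₁ ≤ |x| → χ x = 1 ∧ deriv χ x = 0 := fun x hx => by
    have e : χ x = 1 := Real.smoothTransition.one_of_one_le
      ((one_le_div hd).2 (by nlinarith [sq_abs x, abs_nonneg x]))
    exact ⟨e, IsLocalMax.deriv_eq_zero (.of_forall fun y => (n1 y).trans_eq e.symm)⟩
  obtain ⟨B, hB⟩ := (isCompact_Icc (a := -κ₁) (b := κ₁)).exists_bound_of_continuousOn
    (hs.continuous_deriv (by norm_num)).continuousOn
  refine ⟨χ, |B| + 1, hs, by positivity, n0, n1, z0, z1, fun x => ?_⟩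
  rcases le_total κ₁ |x| with hx | hx
  · rw [(z1 x hx).2, abs_zero]
    positivity
  · exact (hB x (abs_le.1 hx)).trans ((le_abs_self B).trans (lt_add_one _).le)

theorem exists_theta {κ τ : ℝ} (h0 : 0 < κ) (h : 0 < τ) : ∃ θ : ℝ → ℝ, ContDiff ℝ 2 θ ∧
    (∀ x, |x| ≤ κ → θ x = 0) ∧ (∀ x, |θ x| ≤ |x|) ∧ (∀ x, |deriv θ x| ≤ 1) ∧
      ∀ x, |x| - κ - τ ≤ |θ x| := by
  obtain ⟨χ, B, hs, -, n0, n1, z0, z1, -⟩ := exists_chi h0.le (lt_add_of_pos_right κ h)
  have hc := hs.continuous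
  have hd : ∀ x, HasDerivAt (fun s => ∫ t in (0 : ℝ)..s, χ t) (χ x) x := fun x =>
    (hc.integral_hasStrictDerivAt 0 x).hasDerivAt
  have e : deriv (fun s => ∫ t in (0 : ℝ)..s, χ t) = χ := funext fun x => (hd x).deriv
  have hb : ∀ (g : ℝ → ℝ) (x y : ℝ), (∀ t, |g t| ≤ 1) → |∫ t in x..y, g t| ≤ |y - x| :=
    fun g x y hg => (intervalIntegral.norm_integral_le_of_norm_le_const (C := 1) (f := g)
      (a := x) (b := y) fun t _ => hg t).trans_eq (one_mul _)
  have a1 : ∀ t, |χ t| ≤ 1 := fun t => abs_le.2 ⟨by linarith [n0 t], n1 t⟩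
  refine ⟨fun s => ∫ t in (0 : ℝ)..s, χ t, ?_, fun x hx => ?_, fun x => ?_, fun x => ?_,
    fun x => ?_⟩
  · refine (contDiff_succ_iff_deriv (n := 1)).2 ⟨fun x => (hd x).differentiableAt, by simp, ?_⟩
    rw [e]
    exact hs.of_le one_le_two
  · refine (intervalIntegral.integral_congr (g := fun _ => 0) fun t ht => (z0 t ?_).1).trans
      intervalIntegral.integral_zero
    have := abs_sub_left_of_mem_uIcc ht
    rw [sub_zero, sub_zero] at this
    exact this.trans hx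
  · simpa using hb χ 0 x a1
  · rw [e]
    exact a1 x
  · rcases le_total |x| (κ + τ) with hx | hx
    · linarith [abs_nonneg (∫ t in (0 : ℝ)..x, χ t)]
    obtain ⟨y, hy, hm⟩ : ∃ y, |y| = κ + τ ∧ ∀ t ∈ uIcc y x, κ + τ ≤ |t| := by
      rcases le_total 0 x with h1 | h1
      · rw [abs_of_nonneg h1] at hx
        refine ⟨κ + τ, abs_of_pos (by linarith), fun t ht => ?_⟩
        rw [uIcc_of_le hx] at ht
        exact ht.1.trans (le_abs_self t)
      · rw [abs_of_nonpos h1] at hx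
        refine ⟨-(κ + τ), by rw [abs_neg, abs_of_pos (by linarith)], fun t ht => ?_⟩
        rw [uIcc_of_ge (by linarith)] at ht
        linarith [ht.2, neg_le_abs t]
    have hi : ∀ a a' : ℝ, IntervalIntegrable χ volume a a' := fun a a' => hc.intervalIntegrable _ _
    have e1 : ∫ t in y..x, χ t = x - y := by
      rw [intervalIntegral.integral_congr (g := fun _ => 1) fun t ht => (z1 t (hm t ht)).1]
      simp
    have e2 := intervalIntegral.integral_add_adjacent_intervals (hi 0 y) (hi y x)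
    have e3 := hb (fun t => 1 - χ t) 0 y fun t => abs_le.2 ⟨by linarith [n1 t], by linarith [n0 t]⟩
    rw [intervalIntegral.integral_sub intervalIntegrable_const (hi 0 y), sub_zero, hy] at e3
    simp only [intervalIntegral.integral_const, sub_zero, smul_eq_mul, mul_one] at e3
    have e4 := abs_add_le (∫ t in (0 : ℝ)..x, χ t) (y - ∫ t in (0 : ℝ)..y, χ t)
    rw [show (∫ t in (0 : ℝ)..x, χ t) + (y - ∫ t in (0 : ℝ)..y, χ t) = x by linarith] at e4
    beta_reduce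
    linarith

end Vale.Agent.P219
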