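import Vale.Agent.P219.S.Mono
import Vale.Agent.P219.S.Cone
import Vale.Agent.P219.S.Err
import Vale.Agent.P219.S.Trunc

/-!
# The sharp mass bound  (TASK)

`χ, B` from `exists_chi κ₀ κ₁`, `g = χ ∘ F` (`χ x κ₀² ≤ x²`).  `D = 4 C / v` (`far`): `T = {κ₁ < |F|} ∩ {u p ≤ D s}` has conformal mass `≥ v / 2`, and `cf ≤ k / s ≤ 2 / k`, so
`μ T ≥ (k / 2)^m v / 2 > 0`.  Choose `η > 0` with `(1 + η)^m (S - τ / 2) ≤ S - τ / 4` (if `S ≤ τ` the claim is trivial), `C₂` from `tri`, `Λ = max 1 (C₂ D / η)`: for `z ∈ T` with `z.1 ∈ K` and `x ∈ K`,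
`u p x + Λ s ≤ (1 + η) (u z.1 x + Λ s)`, so `Mk (u z.1) (Λ s) g ≤ (1 + η)^m Mk (u p) (Λ s) g`.  `mono` (with `err`), divide by `μ T`, `cone` with `τ / 2`,
`Mk (u p) s g ≤ cms {κ₀ ≤ |F|}`; `s₀` makes `Λ s ≤ t₀` and `m H₀² / 4 * C Λ s ≤ τ / 8`; the error of `err` is chosen `≤ τ / 8 * v / 2^(m+1)`.  Argue by contradiction.
-/

namespace Vale.Agent.P219

open scoped ContDiff Topology RealInnerProductSpace ENNReal
open MeasureTheory Set Filter Vale.Agent.P255
open St (sn gmod)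

variable {E : Type*} [NormedAddCommGroup E] [InnerProductSpace ℝ E] [FiniteDimensional ℝ E]
  [MeasurableSpace E] [BorelSpace E] {G : E → Bil E} {L : E → E → E} {K : Set E} {m : ℕ}
  {b H₀ σ t₀ C S c : ℝ} {u : E → E → ℝ} {μ : Measure (E × E)}

theorem mass_shift (h : Sp0 m b H₀ G u K μ) {p y : E} {g : E → ℝ} (hg : Continuous g)
    (h0 : ∀ x, 0 ≤ g x) {t η : ℝ} (ht : 0 < t) (hη : 0 < η)
    (hle : ∀ x ∈ K, u p x + t ≤ (1 + η) * (u y x + t)) :
    Mk m b μ (u y) t g ≤ (1 + η) ^ m * Mk m b μ (u p) t g := by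
  have hc : ∀ q, Continuous fun z : E × E => g z.1 * cf b (u q) t z.1 ^ m := fun q =>
    (hg.comp continuous_fst).mul
      (((contDiff_cf (h.nonneg q) (h.cd2 q) ht).continuous.comp continuous_fst).pow m)
  rw [Mk, Mk, ← integral_const_mul]
  refine integral_mono_ae (h.integrable (hc y)) ((h.integrable (hc p)).const_mul _) ?_
  filter_upwards [h.ae_mem] with z hz
  have a1 : 0 < u y z.1 + t := by linarith [h.nonneg y z.1]
  have a2 : 0 < u p z.1 + t := by linarith [h.nonneg p z.1]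
  have a3 : cf b (u y) t z.1 ≤ (1 + η) * cf b (u p) t z.1 := by
    rw [cf, cf, ← mul_div_assoc, div_le_div_iff₀ a1 a2]
    have := mul_le_mul_of_nonneg_left (hle z.1 hz.1) (kk_nonneg b t)
    linarith
  have a4 := pow_le_pow_left₀ (cf_nonneg (h.nonneg y) ht z.1) a3 m
  rw [mul_pow] at a4
  have a5 := mul_le_mul_of_nonneg_left a4 (h0 z.1)
  linarith

theorem mass_int (h : Sp0 m b H₀ G u K μ) (p : E) {s : ℝ} (hs : 0 < s) :
    Integrable (fun z : E × E => cf b (u p) s z.1 ^ m) μ :=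
  h.integrable (((contDiff_cf (h.nonneg p) (h.cd2 p) hs).continuous.comp continuous_fst).pow m)

theorem mass_low (h : Sp1 m b H₀ G u K μ t₀ C) {p : E} (hp : p ∈ K) {s v : ℝ} (hs : 0 < s)
    (hst : s ≤ t₀) (hv : 0 < v) {A : Set (E × E)} (hA : MeasurableSet A)
    (hvA : v ≤ cms m b μ (u p) s A) :
    v / 2 ^ (m + 1) * kk b s ^ m ≤ μ.real (A ∩ {z | u p z.1 ≤ 4 * C / v * s}) := by
  have := h.fin
  have hC := h.C_pos
  have hi := mass_int h.toSp0 p hs
  have hbs : b ^ 2 * s < 2 := by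
    have := mul_le_mul_of_nonneg_left hst (sq_nonneg b)
    linarith [h.t_le]
  have hk := kk_pos hs hbs
  have hN : MeasurableSet {z : E × E | u p z.1 ≤ 4 * C / v * s} :=
    measurable_fst (isClosed_le (h.cd2 p).continuous continuous_const).measurableSet
  have a1 := integral_inter_add_sdiff (μ := μ) (s := A) hN hi.integrableOn
  have a2 : ∫ z in A \ {z : E × E | u p z.1 ≤ 4 * C / v * s}, cf b (u p) s z.1 ^ m ∂μ ≤
      cms m b μ (u p) s {z | 4 * C / v * s < u p z.1} :=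
    setIntegral_mono_set hi.integrableOn
      (Eventually.of_forall fun z => pow_nonneg (cf_nonneg (h.nonneg p) hs z.1) m)
      (Eventually.of_forall fun z hz => not_le.1 hz.2)
  have a3 := h.far hp hs hst (by positivity : 0 < 4 * C / v)
  have a4 : 2 * C / (4 * C / v) = v / 2 := by
    field_simp
    ring
  have a5 : ∫ z in A ∩ {z : E × E | u p z.1 ≤ 4 * C / v * s}, cf b (u p) s z.1 ^ m ∂μ ≤
      ∫ _ in A ∩ {z : E × E | u p z.1 ≤ 4 * C / v * s}, (2 / kk b s) ^ m ∂μ := by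
    refine setIntegral_mono hi.integrableOn (integrable_const _).integrableOn fun z => ?_
    refine pow_le_pow_left₀ (cf_nonneg (h.nonneg p) hs z.1) ?_ m
    rw [cf, div_le_div_iff₀ (by linarith [h.nonneg p z.1]) hk]
    nlinarith [kk_sq_le (b := b) hs.le, h.nonneg p z.1]
  rw [setIntegral_const, smul_eq_mul] at a5
  have a6 : v / 2 ≤ μ.real (A ∩ {z | u p z.1 ≤ 4 * C / v * s}) * (2 / kk b s) ^ m := by
    rw [cms] at hvA
    linarith
  rw [div_pow, ← mul_div_assoc, le_div_iff₀ (pow_pos hk m)] at a6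
  rw [div_mul_eq_mul_div, div_le_iff₀ (by positivity), pow_succ]
  linarith

theorem Sp2.mass (h : Sp2 m b H₀ G u K μ t₀ C S) {κ₀ κ₁ v τ : ℝ} (h0 : 0 < κ₀) (h1 : κ₀ < κ₁)
    (hv : 0 < v) (hτ : 0 < τ) : ∃ δ s₀ : ℝ, 0 < δ ∧ 0 < s₀ ∧ ∀ p ∈ K, ∀ s : ℝ, 0 < s → s ≤ s₀ →
      ∀ f : E → ℝ, ContDiff ℝ 2 f → Small m b H₀ G μ (u p) s f δ →
        v ≤ cms m b μ (u p) s {z | κ₁ < |Fq m b (u p) s f z.1|} →
          S - τ ≤ cms m b μ (u p) s {z | κ₀ ≤ |Fq m b (u p) s f z.1|} := by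
  obtain ⟨χ, B, hχ, hB, c0, c1, c2, c3, c4⟩ := exists_chi h0.le h1
  have := h.fin
  have hC := h.C_pos
  have hχκ : ∀ x, χ x * κ₀ ^ 2 ≤ x ^ 2 := by
    intro x
    rcases le_total |x| κ₀ with hx | hx
    · rw [(c2 x hx).1, zero_mul]
      exact sq_nonneg x
    · have a1 : κ₀ ^ 2 ≤ x ^ 2 := by
        rw [← sq_abs x]
        exact pow_le_pow_left₀ h0.le hx 2
      nlinarith [c1 x, sq_nonneg κ₀]
  obtain ⟨η, hη1, hη⟩ : ∃ η : ℝ, (1 + η) ^ m * (S - τ / 2) < S - τ / 4 ∧ 0 < η := by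
    have a1 : ∀ᶠ η in 𝓝 (0 : ℝ), (1 + η) ^ m * (S - τ / 2) < S - τ / 4 :=
      ContinuousAt.eventually_lt (by fun_prop) continuousAt_const (by simp; linarith)
    exact ((a1.filter_mono nhdsWithin_le_nhds).and (self_mem_nhdsWithin (s := Ioi 0))).exists
  obtain ⟨C₂, hC₂, htri⟩ := h.tri η hη
  have hD : 0 < 4 * C / v := by positivity
  obtain ⟨Λ, hΛ, hΛ2⟩ : ∃ Λ : ℝ, 1 ≤ Λ ∧ C₂ * (4 * C / v) ≤ η * Λ := by
    refine ⟨max 1 (C₂ * (4 * C / v) / η), le_max_left _ _, ?_⟩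
    rw [mul_comm η, ← div_le_iff₀ hη]
    exact le_max_right _ _
  obtain ⟨δ₁, hδ₁, hcone⟩ := h.toSp1.cone hΛ h0 hB (half_pos hτ)
  obtain ⟨δ₂, hδ₂, herr⟩ := h.toSp1.err (τ := τ / 8 * (v / 2 ^ (m + 1))) hΛ hD hB (by positivity)
  have hC₁ : 0 ≤ m * H₀ ^ 2 / 4 * C := by positivity
  have ht₀ := h.t_pos
  refine ⟨min δ₁ δ₂, min (t₀ / Λ) (τ / 8 / (m * H₀ ^ 2 / 4 * C * Λ + 1)), lt_min hδ₁ hδ₂,
    lt_min (by positivity) (by positivity), fun p hp s hs hs0 f hf hsm hvA => ?_⟩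
  have hΛs : Λ * s ≤ t₀ := by
    rw [mul_comm, ← le_div_iff₀ (by linarith)]
    exact hs0.trans (min_le_left _ _)
  have hs1 : m * H₀ ^ 2 / 4 * C * (Λ * s) ≤ τ / 8 := by
    have a1 := hs0.trans (min_le_right _ _)
    rw [le_div_iff₀ (by positivity)] at a1
    nlinarith
  have hsΛ : s ≤ Λ * s := le_mul_of_one_le_left hs.le hΛ
  have hst : s ≤ t₀ := hsΛ.trans hΛs
  have hbs : b ^ 2 * s < 2 := by
    have := mul_le_mul_of_nonneg_left hst (sq_nonneg b)
    linarith [h.t_le]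
  have hk := kk_pos hs hbs
  have hF : ContDiff ℝ 2 (Fq m b (u p) s f) := contDiff_Fq (h.nonneg p) (h.cd2 p) hs hbs hf
  have hg : ContDiff ℝ 2 fun y => χ (Fq m b (u p) s f y) := hχ.comp hF
  have hA : MeasurableSet {z : E × E | κ₁ < |Fq m b (u p) s f z.1|} :=
    measurable_fst (isOpen_lt continuous_const hF.continuous.abs).measurableSet
  have hA0 : MeasurableSet {z : E × E | κ₀ ≤ |Fq m b (u p) s f z.1|} :=
    measurable_fst (isClosed_le continuous_const hF.continuous.abs).measurableSet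
  have hN : MeasurableSet {z : E × E | u p z.1 ≤ 4 * C / v * s} :=
    measurable_fst (isClosed_le (h.cd2 p).continuous continuous_const).measurableSet
  have b1 := mass_low h.toSp1 hp hs hst hv hA hvA
  set T := {z : E × E | κ₁ < |Fq m b (u p) s f z.1|} ∩ {z | u p z.1 ≤ 4 * C / v * s} with hT
  have hTm : MeasurableSet T := hA.inter hN
  have b2 := h.mono hg (fun _ => c0 _) (fun _ => c1 _) hTm (fun z hz => (c3 _ hz.1.le).1)
    (lt_of_lt_of_le hs hsΛ) hΛs fun t ht ht1 => herr p hp s hs hΛs f hf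
      (hsm.one.trans (min_le_right _ _)) χ hχ c4 T hTm (fun z hz => hz.2) t ht ht1
  have b3 := hcone p hp s hs hΛs f hf ⟨hsm.l2.trans (min_le_left _ _),
    hsm.one.trans (min_le_left _ _), hsm.two.trans (min_le_left _ _),
    hsm.three.trans (min_le_left _ _)⟩ χ hχ c0 hχκ c4
  have b4 : Mk m b μ (u p) s (fun y => χ (Fq m b (u p) s f y)) ≤
      cms m b μ (u p) s {z | κ₀ ≤ |Fq m b (u p) s f z.1|} := by
    rw [Mk, cms, ← integral_indicator hA0]
    refine integral_mono (h.integrable ((hg.continuous.comp continuous_fst).mul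
      (((contDiff_cf (h.nonneg p) (h.cd2 p) hs).continuous.comp continuous_fst).pow m)))
      ((mass_int h.toSp0 p hs).indicator hA0) fun z => ?_
    by_cases hz : z ∈ {z : E × E | κ₀ ≤ |Fq m b (u p) s f z.1|}
    · rw [indicator_of_mem hz]
      exact mul_le_of_le_one_left (pow_nonneg (cf_nonneg (h.nonneg p) hs z.1) m) (c1 _)
    · rw [indicator_of_notMem hz]
      simp only [(c2 _ (not_le.1 hz).le).1, zero_mul, le_refl]
  have b5 : ∫ z in T, Mk m b μ (u z.1) (Λ * s) (fun y => χ (Fq m b (u p) s f y)) ∂μ ≤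
      ∫ _ in T, (1 + η) ^ m * Mk m b μ (u p) (Λ * s) (fun y => χ (Fq m b (u p) s f y)) ∂μ := by
    refine setIntegral_mono_ae_restrict (h.integrable ((h.continuous_Mk hg.continuous
      (lt_of_lt_of_le hs hsΛ)).comp continuous_fst)).integrableOn
      (integrable_const _).integrableOn ?_
    filter_upwards [ae_restrict_mem hTm, ae_restrict_of_ae h.ae_mem] with z hz hzK
    refine mass_shift h.toSp0 hg.continuous (fun _ => c0 _) (lt_of_lt_of_le hs hsΛ) hη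
      fun x hx => ?_
    have a1 := htri p hp z.1 hzK.1 x hx
    have a2 : C₂ * u p z.1 ≤ C₂ * (4 * C / v * s) := mul_le_mul_of_nonneg_left hz.2 hC₂.le
    have a3 := mul_le_mul_of_nonneg_right hΛ2 hs.le
    nlinarith
  rw [setIntegral_const, smul_eq_mul] at b5
  have hT0 : 0 < μ.real T := lt_of_lt_of_le (by positivity) b1
  by_contra hlt
  rw [not_le] at hlt
  have b6 : (1 + η) ^ m * Mk m b μ (u p) (Λ * s) (fun y => χ (Fq m b (u p) s f y)) ≤
      (1 + η) ^ m * (S - τ / 2) := mul_le_mul_of_nonneg_left (by linarith) (by positivity)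
  have b7 := mul_lt_mul_of_pos_left (b6.trans_lt hη1) hT0
  have b8 := mul_le_mul_of_nonneg_right hs1 hT0.le
  have b9 := mul_le_mul_of_nonneg_left b1 (by positivity : 0 ≤ τ / 8)
  nlinarith

end Vale.Agent.P219
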