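import Vale.Agent.P219.S.Py
import Vale.Agent.P219.S.Na

/-!
# The averaged monotonicity formula  (TASK)

Fix `l > 0`.  `g` is uniformly continuous on `K`: with `sep` there is `δ` such that `u y x ≤ δ` gives `g x ≥ g y - l`.  For `z ∈ T` (a.e., `z.1 ∈ K`, `g z.1 = 1`) and small `t`:
`Mk t g ≥ (1 - l) Mk t 1 - A (k t / δ)^m ≥ (1 - l) (S - C₁ t) - l` (`dens`; pointwise `g x cf^m ≥ (1 - l) cf^m - (k / δ)^m`).  By `py`: `Mk t g ≤ Mk t₁ g + C₁ t₁ + ∫ |Gt| grn`.  Integrate over `T`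
(`setIntegral_mono_ae_restrict`; integrability: `continuous_Mk`, `continuous_int`), then `l, t → 0` (`le_of_forall_pos_le_add`).
-/

namespace Vale.Agent.P219

open scoped ContDiff Topology RealInnerProductSpace ENNReal
open MeasureTheory Set Filter Vale.Agent.P255
open St (sn gmod)

variable {E : Type*} [NormedAddCommGroup E] [InnerProductSpace ℝ E] [FiniteDimensional ℝ E]
  [MeasurableSpace E] [BorelSpace E] {G : E → Bil E} {L : E → E → E} {K : Set E} {m : ℕ}
  {b H₀ σ t₀ C S c : ℝ} {u : E → E → ℝ} {μ : Measure (E × E)}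

theorem mono_low (h : Sp0 m b H₀ G u K μ) {g : E → ℝ} (hg : Continuous g) (h0 : ∀ x, 0 ≤ g x)
    {l : ℝ} (hl : 0 < l) : ∃ δ : ℝ, 0 < δ ∧ ∀ y ∈ K, g y = 1 → ∀ t, 0 < t →
      (1 - l) * Mk m b μ (u y) t (fun _ => 1) - (kk b t / δ) ^ m * μ.real univ ≤
        Mk m b μ (u y) t g := by
  have := h.fin
  obtain ⟨η, hη, h1⟩ := Metric.uniformContinuousOn_iff_le.1
    (h.cpt.uniformContinuousOn_of_continuous hg.continuousOn) l hl
  obtain ⟨δ, hδ, h2⟩ := h.sep η hη
  refine ⟨δ, hδ, fun y hy hy1 t ht => ?_⟩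
  have hc : Continuous fun z : E × E => cf b (u y) t z.1 ^ m :=
    ((contDiff_cf (h.nonneg y) (h.cd2 y) ht).continuous.comp continuous_fst).pow m
  have h3 : (1 - l) * Mk m b μ (u y) t (fun _ => 1) - (kk b t / δ) ^ m * μ.real univ =
      ∫ z, ((1 - l) * cf b (u y) t z.1 ^ m - (kk b t / δ) ^ m) ∂μ := by
    rw [integral_sub ((h.integrable hc).const_mul _) (integrable_const _),
      integral_const_mul, integral_const, smul_eq_mul, mul_comm (μ.real univ)]
    simp only [Mk, one_mul]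
  rw [h3]
  refine integral_mono_ae (h.integrable ((continuous_const.mul hc).sub continuous_const))
    (h.integrable ((hg.comp continuous_fst).mul hc)) ?_
  filter_upwards [h.ae_mem] with z hz
  have h4 : 0 ≤ cf b (u y) t z.1 := cf_nonneg (h.nonneg y) ht _
  have h5 : 0 ≤ cf b (u y) t z.1 ^ m := pow_nonneg h4 m
  have h6 : 0 ≤ (kk b t / δ) ^ m := pow_nonneg (div_nonneg (kk_nonneg b t) hδ.le) m
  by_cases h7 : u y z.1 ≤ δ
  · have h8 := h1 y hy z.1 hz.1 (by rw [dist_eq_norm]; exact h2 y hy z.1 hz.1 h7)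
    rw [Real.dist_eq, hy1] at h8
    have h9 : 1 - l ≤ g z.1 := by linarith [le_abs_self (1 - g z.1)]
    linarith [mul_le_mul_of_nonneg_right h9 h5]
  · have h8 : cf b (u y) t z.1 ≤ kk b t / δ :=
      div_le_div_of_nonneg_left (kk_nonneg b t) hδ (by linarith)
    have h9 := pow_le_pow_left₀ h4 h8 m
    nlinarith [mul_nonneg (h0 z.1) h5, mul_nonneg hl.le h5]

theorem Sp2.mono (h : Sp2 m b H₀ G u K μ t₀ C S) {g : E → ℝ} (hg : ContDiff ℝ 2 g)
    (h0 : ∀ x, 0 ≤ g x) (h1 : ∀ x, g x ≤ 1) {T : Set (E × E)} (hT : MeasurableSet T)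
    (hT1 : ∀ z ∈ T, g z.1 = 1) {t₁ B : ℝ} (ht : 0 < t₁) (ht1 : t₁ ≤ t₀)
    (hB : ∀ t, 0 < t → t ≤ t₁ → Er m b G μ u g T t t₁ ≤ B) :
    S * μ.real T ≤
      ∫ z in T, Mk m b μ (u z.1) t₁ g ∂μ + m * H₀ ^ 2 / 4 * C * t₁ * μ.real T + B := by
  have := h.fin
  have hC : 0 ≤ m * H₀ ^ 2 / 4 * C := by have := h.C_pos; positivity
  have key : ∀ l : ℝ, 0 < l → l < 1 → (1 - l) * S * μ.real T ≤
      ∫ z in T, Mk m b μ (u z.1) t₁ g ∂μ + m * H₀ ^ 2 / 4 * C * t₁ * μ.real T + B := by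
    intro l hl hl1
    obtain ⟨δ, hδ, h2⟩ := mono_low h.toSp0 hg.continuous h0 hl
    have h3 : Tendsto (fun t => ((1 - l) * (S - m * H₀ ^ 2 / 4 * C * t) -
        (kk b t / δ) ^ m * μ.real univ) * μ.real T) (𝓝[>] 0) (𝓝 ((1 - l) * S * μ.real T)) := by
      refine Tendsto.mono_left (Continuous.tendsto' ?_ _ _ ?_) nhdsWithin_le_nhds
      · have := continuous_kk b
        fun_prop
      · have hm : m ≠ 0 := by have := h.three; omega
        simp [kk, hm]
    refine le_of_tendsto h3 ?_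
    filter_upwards [Ioc_mem_nhdsGT ht] with t htt
    refine le_trans ?_ (add_le_add le_rfl (hB t htt.1 htt.2))
    have c1 : Continuous fun z : E × E => Mk m b μ (u z.1) t₁ g :=
      (h.continuous_Mk hg.continuous ht).comp continuous_fst
    have c2 : Continuous fun z : E × E =>
        ∫ x, |Gt G g (u z.1) x| * grn m b t t₁ (u z.1 x.1) ∂μ := by
      have c3 := (continuous_Gt_par h.loc (hg.of_le (by norm_num)) (h.smooth.of_le (by simp))).comp
        (show Continuous fun w : (E × E) × (E × E) => (w.1.1, w.2) by fun_prop)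
      have c4 := continuous_grn (m := m) (b := b) (h.cont.comp
        (show Continuous fun w : (E × E) × (E × E) => (w.1.1, w.2.1) by fun_prop))
        (fun w => h.nonneg _ _) htt.1 htt.2
      have c5 := h.continuous_int univ (c3.abs.mul c4)
      rwa [Measure.restrict_univ] at c5
    have i1 : IntegrableOn _ T μ := (h.integrable c1).integrableOn
    have i2 : IntegrableOn _ T μ := (h.integrable c2).integrableOn
    have i3 : ∀ a : ℝ, IntegrableOn (fun _ => a) T μ := fun a => (integrable_const a).integrableOn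
    have e : ∀ a : ℝ, a * μ.real T = ∫ _ in T, a ∂μ := fun a => by
      rw [setIntegral_const, smul_eq_mul, mul_comm]
    have i4 : IntegrableOn (fun z : E × E => Mk m b μ (u z.1) t₁ g + m * H₀ ^ 2 / 4 * C * t₁) T μ :=
      i1.add (i3 _)
    rw [e, e, Er, ← integral_add i1 (i3 _), ← integral_add i4 i2]
    refine setIntegral_mono_on_ae (i3 _) (i4.add i2) hT ?_
    filter_upwards [h.ae_mem, h.dens t htt.1 (htt.2.trans ht1)] with z hz hd hzT
    have h4 := h2 z.1 hz.1 (hT1 z hzT) t htt.1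
    have h5 := h.py hz.1 hg h0 h1 htt.1 htt.2 ht1
    have h6 : |∫ x, Gt G g (u z.1) x * grn m b t t₁ (u z.1 x.1) ∂μ| ≤
        ∫ x, |Gt G g (u z.1) x| * grn m b t t₁ (u z.1 x.1) ∂μ := by
      refine abs_integral_le_integral_abs.trans_eq (integral_congr_ae (.of_forall fun x => ?_))
      simp only [abs_mul, abs_of_nonneg (grn_nonneg htt.1 htt.2 (h.nonneg _ _))]
    have h7 := neg_le_abs (∫ x, Gt G g (u z.1) x * grn m b t t₁ (u z.1 x.1) ∂μ)
    have h8 := mul_le_mul_of_nonneg_left (sub_le_iff_le_add.2 hd) (sub_nonneg.2 hl1.le)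
    have h9 := mul_nonneg hC htt.1.le
    linarith [mul_sub (m * H₀ ^ 2 / 4 * C) t₁ t]
  have h3 : Tendsto (fun l : ℝ => (1 - l) * S * μ.real T) (𝓝[>] 0) (𝓝 (S * μ.real T)) :=
    Tendsto.mono_left (Continuous.tendsto' (by fun_prop) _ _ (by simp)) nhdsWithin_le_nhds
  refine le_of_tendsto h3 ?_
  filter_upwards [Ioo_mem_nhdsGT zero_lt_one] with l hl using key l hl.1 hl.2

end Vale.Agent.P219
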