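import Vale.Agent.P219.S.Defs

/-!
# Second order expansion of the norm  (TASK)

One variable: there is `C₀` with `(1 + x)^q ≥ 1 + q x + q (q - 1) / 2 x² - C₀ |x|³` for `|x| ≤ 1/2` (three times `monotoneOn_of_deriv_nonneg` / mean value inequality, or
`taylor_mean_remainder_bound`), and `(1 + x)^q ≥ 1 + q x` (`one_add_mul_self_le_rpow_one_add`).  Integrate against `a`: `N ≥ 1 + y` with
`y = max 0 (q (q-1) / 2 t² J - C₀ |t|³)`, `0 ≤ J = ∫ a Θ² ≤ 1`, `0 ≤ y ≤ q² t²`.  For `0 < r = 2 / q < 1` and `y ≥ 0`: `(1 + y)^r ≥ 1 + r y - y²` (monotonicity twice, or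
`(1 + y)^r ≥ 1 + r log (1 + y)` and `log (1 + y) ≥ 1 - 1 / (1 + y) ≥ y - y²`).
-/

namespace Vale.Agent.P219

open scoped ContDiff Topology RealInnerProductSpace ENNReal
open MeasureTheory Set Filter Vale.Agent.P255
open St (sn gmod)

theorem tay_step {f f' : ℝ → ℝ} {C : ℝ} {k : ℕ} (hC : 0 ≤ C) (h0 : f 0 = 0)
    (hd : ∀ y, |y| ≤ 1 / 2 → HasDerivAt f (f' y) y) (hb : ∀ y, |y| ≤ 1 / 2 → |f' y| ≤ C * |y| ^ k)
    (x : ℝ) (hx : |x| ≤ 1 / 2) : |f x| ≤ C * |x| ^ (k + 1) := by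
  have h := (convex_closedBall (0 : ℝ) |x|).norm_image_sub_le_of_norm_hasDerivWithin_le
    (f := f) (f' := f') (C := C * |x| ^ k) (x := 0) (y := x)
    (fun y hy => (hd y ((mem_closedBall_zero_iff.1 hy).trans hx)).hasDerivWithinAt)
    (fun y hy => (hb y ((mem_closedBall_zero_iff.1 hy).trans hx)).trans
      (mul_le_mul_of_nonneg_left
        (pow_le_pow_left₀ (abs_nonneg y) (mem_closedBall_zero_iff.1 hy) k) hC))
    (Metric.mem_closedBall_self (abs_nonneg x)) (mem_closedBall_zero_iff.2 le_rfl)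
  rw [h0, sub_zero, sub_zero, Real.norm_eq_abs, Real.norm_eq_abs] at h
  rw [pow_succ, ← mul_assoc]
  exact h

theorem tay_one (q : ℝ) : ∃ C : ℝ, 0 ≤ C ∧ ∀ x : ℝ, |x| ≤ 1 / 2 →
    1 + q * x + q * (q - 1) / 2 * x ^ 2 - C * |x| ^ 3 ≤ (1 + x) ^ q := by
  have hd : ∀ (p y : ℝ), |y| ≤ 1 / 2 →
      HasDerivAt (fun y => (1 + y) ^ p) (p * (1 + y) ^ (p - 1)) y := fun p y hy => by
    have h := ((hasDerivAt_id' y).const_add 1).rpow_const (p := p)
      (Or.inl (by linarith [(abs_le.1 hy).1] : 0 < 1 + y).ne')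
    rwa [one_mul] at h
  obtain ⟨C, hC⟩ := (isCompact_closedBall (0 : ℝ) (1 / 2)).exists_bound_of_continuousOn
    (f := fun y => q * (q - 1) * ((q - 1 - 1) * (1 + y) ^ (q - 1 - 1 - 1))) fun y hy =>
      (((hd _ y (mem_closedBall_zero_iff.1 hy)).continuousAt.const_mul _).const_mul
        _).continuousWithinAt
  have hC0 : 0 ≤ C := (norm_nonneg _).trans (hC 0 (Metric.mem_closedBall_self (by norm_num)))
  have h2 := tay_step (f := fun y => q * (q - 1) * (1 + y) ^ (q - 1 - 1) - q * (q - 1)) (k := 0)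
    hC0 (by simp) (fun y hy => ((hd (q - 1 - 1) y hy).const_mul (q * (q - 1))).sub_const _)
    fun y hy => by
      rw [pow_zero, mul_one]
      exact hC y (mem_closedBall_zero_iff.2 hy)
  have h1 := tay_step (f := fun y => q * (1 + y) ^ (q - 1) - q - q * (q - 1) * y) hC0 (by simp)
    (fun y hy => ((((hd (q - 1) y hy).const_mul q).sub_const q).fun_sub
      ((hasDerivAt_id' y).const_mul (q * (q - 1)))).congr_deriv (by ring)) h2
  have h0 := tay_step (f := fun y => (1 + y) ^ q - 1 - q * y - q * (q - 1) / 2 * y ^ 2) hC0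
    (by simp) (fun y hy => ((((hd q y hy).sub_const 1).fun_sub
      ((hasDerivAt_id' y).const_mul q)).fun_sub
        ((hasDerivAt_pow 2 y).const_mul (q * (q - 1) / 2))).congr_deriv (by norm_num; ring)) h1
  exact ⟨C, hC0, fun x hx => by linarith [(abs_le.1 (h0 x hx)).1]⟩

theorem tay_root {r y : ℝ} (h0 : 0 ≤ r) (h1 : r ≤ 1) (hy : 0 ≤ y) :
    1 + r * y - y ^ 2 ≤ (1 + y) ^ r := by
  have hp : 0 < 1 + y := by linarith
  have h2 := Real.one_sub_inv_le_log_of_pos hp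
  have h3 : (1 + y)⁻¹ ≤ 1 - y + y ^ 2 := by
    rw [inv_le_iff_one_le_mul₀ hp]
    nlinarith [pow_nonneg hy 3]
  have h4 := mul_le_mul_of_nonneg_left (by linarith : y - y ^ 2 ≤ Real.log (1 + y)) h0
  have h5 := mul_le_mul_of_nonneg_right h1 (sq_nonneg y)
  have h6 := Real.add_one_le_exp (Real.log (1 + y) * r)
  rw [Real.rpow_def_of_pos hp]
  linarith

theorem tay_fin {q C t J N : ℝ} (hq : 2 < q) (hC : 0 ≤ C) (ht : |t| ≤ 1 / 2) (J0 : 0 ≤ J)
    (J1 : J ≤ 1) (n1 : 1 ≤ N) (n2 : 1 - C * |t| ^ 3 + q * (q - 1) / 2 * t ^ 2 * J ≤ N) :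
    1 + (q - 1) * t ^ 2 * J - (C + q ^ 4) * |t| ^ 3 ≤ N ^ (2 / q) := by
  have hq0 : 0 < q := by linarith
  have r0 : 0 ≤ 2 / q := by positivity
  have r1 : 2 / q ≤ 1 := (div_le_one hq0).2 hq.le
  have c0 : 0 ≤ C * |t| ^ 3 := by positivity
  obtain ⟨y, hy⟩ : ∃ y, y = max 0 (q * (q - 1) / 2 * t ^ 2 * J - C * |t| ^ 3) := ⟨_, rfl⟩
  have y0 : 0 ≤ y := hy ▸ le_max_left _ _
  have y1 : q * (q - 1) / 2 * t ^ 2 * J - C * |t| ^ 3 ≤ y := hy ▸ le_max_right _ _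
  have y2 : y ≤ N - 1 := hy ▸ max_le (by linarith) (by linarith)
  have y3 : y ≤ q ^ 2 * t ^ 2 := by
    have b1 : q * (q - 1) / 2 * t ^ 2 * J ≤ q ^ 2 * t ^ 2 * 1 :=
      mul_le_mul (mul_le_mul_of_nonneg_right (by nlinarith) (sq_nonneg t)) J1 J0 (by positivity)
    exact hy ▸ max_le (by positivity) (by linarith)
  have y4 : y ^ 2 ≤ q ^ 4 * |t| ^ 3 := by
    have b1 : |t| ^ 4 ≤ |t| ^ 3 := pow_le_pow_of_le_one (abs_nonneg t) (by linarith) (by norm_num)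
    have b2 := mul_le_mul_of_nonneg_left b1 (by positivity : 0 ≤ q ^ 4)
    have b3 := pow_le_pow_left₀ y0 y3 2
    rw [← sq_abs t] at b3
    linarith
  have b4 := mul_le_mul_of_nonneg_left y1 r0
  have b5 := mul_le_mul_of_nonneg_right r1 c0
  have b6 : 2 / q * (q * (q - 1) / 2 * t ^ 2 * J) = (q - 1) * t ^ 2 * J := by field_simp
  have b7 := tay_root r0 r1 y0
  have b8 := Real.rpow_le_rpow (by linarith : 0 ≤ 1 + y) (by linarith : 1 + y ≤ N) r0
  rw [mul_sub, b6] at b4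
  linarith

theorem tay {X : Type*} [MeasurableSpace X] {q : ℝ} (hq : 2 < q) : ∃ C₁ : ℝ, 0 < C₁ ∧
    ∀ (ν : Measure X) (a Θ : X → ℝ), Integrable a ν → Measurable Θ → (∀ x, 0 ≤ a x) →
      (∀ x, |Θ x| ≤ 1) → ∫ x, a x ∂ν = 1 → ∫ x, a x * Θ x ∂ν = 0 → ∀ t : ℝ, |t| ≤ 1 / 2 →
        1 + (q - 1) * t ^ 2 * ∫ x, a x * Θ x ^ 2 ∂ν - C₁ * |t| ^ 3 ≤
          (∫ x, a x * |1 + t * Θ x| ^ q ∂ν) ^ (2 / q) := by
  obtain ⟨C, hC, h1⟩ := tay_one q
  have hq0 : 0 < q := by linarith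
  refine ⟨C + q ^ 4, by positivity, fun ν a Θ ha hΘ ha0 hΘ1 i0 i1 t ht => ?_⟩
  have hx : ∀ x, |t * Θ x| ≤ |t| := fun x => by
    rw [abs_mul]
    exact mul_le_of_le_one_right (abs_nonneg t) (hΘ1 x)
  have hp : ∀ x, 0 ≤ 1 + t * Θ x := fun x => by linarith [(abs_le.1 ((hx x).trans ht)).1]
  have hs : ∀ x, Θ x ^ 2 ≤ 1 := fun x => (sq_le_one_iff_abs_le_one _).2 (hΘ1 x)
  have j1 : Integrable (fun x => a x * Θ x) ν :=
    ha.mul_bdd hΘ.aestronglyMeasurable (Eventually.of_forall hΘ1)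
  have j2 : Integrable (fun x => a x * Θ x ^ 2) ν :=
    ha.mul_bdd (c := 1) (hΘ.pow_const 2).aestronglyMeasurable (Eventually.of_forall fun x => by
      rw [Real.norm_eq_abs, abs_of_nonneg (sq_nonneg _)]
      exact hs x)
  have j3 : Integrable (fun x => a x * |1 + t * Θ x| ^ q) ν :=
    ha.mul_bdd (c := 2 ^ q) (Measurable.aestronglyMeasurable (by fun_prop))
      (Eventually.of_forall fun x => by
        rw [Real.norm_eq_abs, abs_of_nonneg (by positivity), abs_of_nonneg (hp x)]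
        exact Real.rpow_le_rpow (hp x) (by linarith [(abs_le.1 ((hx x).trans ht)).2]) hq0.le)
  have hJ0 : 0 ≤ ∫ x, a x * Θ x ^ 2 ∂ν := integral_nonneg fun x => mul_nonneg (ha0 x) (sq_nonneg _)
  have hJ1 : ∫ x, a x * Θ x ^ 2 ∂ν ≤ 1 :=
    (integral_mono j2 ha fun x => mul_le_of_le_one_right (ha0 x) (hs x)).trans_eq i0
  have key : ∀ c d e : ℝ, (∀ x, c + d * Θ x + e * Θ x ^ 2 ≤ (1 + t * Θ x) ^ q) →
      c + e * ∫ x, a x * Θ x ^ 2 ∂ν ≤ ∫ x, a x * |1 + t * Θ x| ^ q ∂ν := fun c d e h => by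
    have k1 : Integrable (fun x => c * a x + d * (a x * Θ x)) ν :=
      (ha.const_mul c).add (j1.const_mul d)
    have k2 := integral_mono (k1.add (j2.const_mul e)) j3 fun x => by
      have k3 := mul_le_mul_of_nonneg_left (h x) (ha0 x)
      simp only [Pi.add_apply, abs_of_nonneg (hp x)]
      linarith
    simp only [Pi.add_apply] at k2
    rw [integral_add k1 (j2.const_mul e), integral_add (ha.const_mul c) (j1.const_mul d),
      integral_const_mul, integral_const_mul, integral_const_mul, i0, i1] at k2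
    linarith
  have n1 := key 1 (q * t) 0 fun x => by
    have k1 := one_add_mul_self_le_rpow_one_add (s := t * Θ x) (by linarith [hp x])
      (by linarith : 1 ≤ q)
    linarith
  have n2 := key (1 - C * |t| ^ 3) (q * t) (q * (q - 1) / 2 * t ^ 2) fun x => by
    have k1 := h1 _ ((hx x).trans ht)
    have k2 := mul_le_mul_of_nonneg_left (pow_le_pow_left₀ (abs_nonneg _) (hx x) 3) hC
    linarith
  exact tay_fin hq hC ht hJ0 hJ1 (by linarith) n2

end Vale.Agent.P219
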