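import Vale.Agent.P219.S.Sum
import Vale.Agent.P219.S.Tay
import Vale.Agent.P219.S.Hardy

/-!
# Near minimisers have small deficits  (TASK)

`a = |f|^q`, `J i = ∫ a (Θ i)²`, `∑ J i = 1`, `|Θ i| ≤ 1`.  `Nq (f (1 ± t Θ)) = ∫ a |1 ± t Θ|^q` (`abs_mul`, `Real.mul_rpow`).  `SI`, `tay` (for `t` and `-t`), `par`:
`2 lam (1 + (q-1) t² J i - C₁ t³) ≤ 2 (lam + η) + 2 t² Y (f Θ i)`.  Sum over `i`, `sum`: `(q - 2) lam ≤ η + m I + (m + 2) (η / t² + C₁ lam t)`, `I = ∫ f² cf²`.  With `cE_mul`: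
`lam ≤ cE I + δ / 2` once `t` is small and then `η` is small (`η ≤ δ / 2` too).  `hardy` gives `dfT + cE I ≤ lam + η`.
-/

namespace Vale.Agent.P219

open scoped ContDiff Topology RealInnerProductSpace ENNReal
open MeasureTheory Set Filter Vale.Agent.P255
open St (sn gmod)

variable {E : Type*} [NormedAddCommGroup E] [InnerProductSpace ℝ E] [FiniteDimensional ℝ E]
  [MeasurableSpace E] [BorelSpace E] {G : E → Bil E} {L : E → E → E} {K : Set E} {m : ℕ}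
  {b H₀ σ t₀ C S c : ℝ} {u : E → E → ℝ} {μ : Measure (E × E)}

theorem near_core (h : Sp0 m b H₀ G u K μ) {α lam : ℝ} (hl : 0 < lam) (hS : SI m G μ α lam) :
    ∃ C₁ : ℝ, 0 < C₁ ∧ ∀ (t η : ℝ), 0 < t → t ≤ 1 / 2 → ∀ f : E → ℝ, ContDiff ℝ 2 f →
      Nq m μ f = 1 → Yf G μ α f ≤ lam + η → ∀ (p : E) (s : ℝ), 0 < s →
        ∀ Θ, Bal m b G μ (u p) s (fun y => |f y| ^ qE m) Θ →
          lam * (qE m - 1) * t ^ 2 - (m + 2) * (lam * C₁ * t ^ 3) ≤ (m + 2) * η +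
            t ^ 2 * (lam + η + m * ∫ z, f z.1 ^ 2 * cf b (u p) s z.1 ^ 2 ∂μ) := by
  have hq := qE_gt h.three
  obtain ⟨C₁, hC, hT⟩ := tay (X := E × E) hq
  refine ⟨C₁, hC, fun t η ht ht2 f hf hN hY p s hs Θ hΘ => ?_⟩
  have ha : Continuous fun z : E × E => |f z.1| ^ qE m :=
    (hf.continuous.comp continuous_fst).abs.rpow_const fun _ => Or.inr (by linarith)
  have hle : ∀ i y, |Θ i y| ≤ 1 := fun i y => by
    rw [← sq_le_one_iff_abs_le_one, ← hΘ.unit y]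
    exact Finset.single_le_sum (f := fun i => Θ i y ^ 2) (fun i _ => sq_nonneg _)
      (Finset.mem_univ i)
  have key : ∀ i (r : ℝ), |r| ≤ 1 / 2 →
      lam * (1 + (qE m - 1) * r ^ 2 * ∫ z, |f z.1| ^ qE m * Θ i z.1 ^ 2 ∂μ - C₁ * |r| ^ 3) ≤
        Yf G μ α fun y => f y * (1 + r * Θ i y) := fun i r hr => by
    have h1 := hT μ (fun z => |f z.1| ^ qE m) (fun z => Θ i z.1) (h.integrable ha)
      ((hΘ.smooth i).continuous.measurable.comp measurable_fst)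
      (fun z => Real.rpow_nonneg (abs_nonneg _) _) (fun z => hle i z.1) hN (hΘ.zero i) r hr
    have h2 := hS (fun y => f y * (1 + r * Θ i y))
      (hf.mul (contDiff_const.add (contDiff_const.mul (hΘ.smooth i))))
    refine (mul_le_mul_of_nonneg_left h1 hl.le).trans (le_of_eq_of_le ?_ h2)
    simp only [Nq, abs_mul, Real.mul_rpow (abs_nonneg _) (abs_nonneg _)]
  have hi : ∀ i, lam * (qE m - 1) * t ^ 2 * ∫ z, |f z.1| ^ qE m * Θ i z.1 ^ 2 ∂μ -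
      lam * C₁ * t ^ 3 ≤ η + t ^ 2 * Yf G μ α fun y => f y * Θ i y := fun i => by
    have h1 := key i t (by rwa [abs_of_pos ht])
    have h2 := key i (-t) (by rwa [abs_neg, abs_of_pos ht])
    have h3 := h.par α t hf (hΘ.smooth i)
    rw [abs_neg, neg_sq] at h2
    rw [abs_of_pos ht] at h1 h2
    linarith
  have hJ : ∑ i, ∫ z, |f z.1| ^ qE m * Θ i z.1 ^ 2 ∂μ = 1 := by
    have h0 : ∀ i, Integrable (fun z : E × E => |f z.1| ^ qE m * Θ i z.1 ^ 2) μ := fun i =>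
      h.integrable (ha.mul (((hΘ.smooth i).continuous.comp continuous_fst).pow 2))
    rw [← integral_finsetSum _ fun i _ => h0 i, ← hN, Nq]
    refine integral_congr_ae (Eventually.of_forall fun z => ?_)
    simp only [← Finset.mul_sum, hΘ.unit, mul_one]
  have h1 := Finset.sum_le_sum fun i (_ : i ∈ Finset.univ) => hi i
  rw [Finset.sum_sub_distrib, Finset.sum_add_distrib, Finset.sum_const, Finset.sum_const,
    ← Finset.mul_sum, ← Finset.mul_sum, hJ, Finset.card_univ, Fintype.card_fin, nsmul_eq_mul,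
    nsmul_eq_mul] at h1
  push_cast at h1
  have h2 := mul_le_mul_of_nonneg_left ((h.sum α p hs hf hΘ).trans (add_le_add hY le_rfl))
    (sq_nonneg t)
  linarith

theorem Sp0.near (h : Sp0 m b H₀ G u K μ) (hσ : H₀ ^ 2 = b ^ 2 + 1 / σ ^ 2) {ε lam : ℝ}
    (hl : 0 < lam) (hS : SI m G μ (cE m / σ ^ 2 + ε) lam) {δ : ℝ} (hδ : 0 < δ) :
    ∃ η : ℝ, 0 < η ∧ ∀ f : E → ℝ, ContDiff ℝ 2 f → Nq m μ f = 1 →
      Yf G μ (cE m / σ ^ 2 + ε) f ≤ lam + η → ∀ (p : E) (s : ℝ), 0 < s → b ^ 2 * s < 2 →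
        ∀ Θ, Bal m b G μ (u p) s (fun y => |f y| ^ qE m) Θ →
          dfT m b H₀ ε G μ (u p) s f ≤ δ ∧
            lam ≤ cE m * ∫ z, f z.1 ^ 2 * cf b (u p) s z.1 ^ 2 ∂μ + δ := by
  obtain ⟨C₁, hC, hT⟩ := near_core h hl hS
  have hc := cE_pos h.three
  have hcq := cE_mul h.three
  have hm : (3 : ℝ) ≤ m := by exact_mod_cast h.three
  obtain ⟨t, ht, ht2, ht3⟩ : ∃ t : ℝ, 0 < t ∧ t ≤ 1 / 2 ∧
      cE m * ((m + 2) * (lam * C₁)) * t ≤ δ / 4 := by
    have h1 : 0 < cE m * ((m + 2) * (lam * C₁)) := by positivity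
    refine ⟨min (1 / 2) (δ / 4 / (cE m * ((m + 2) * (lam * C₁)))), by positivity,
      min_le_left _ _, ?_⟩
    rw [mul_comm, ← le_div_iff₀ h1]
    exact min_le_right _ _
  obtain ⟨η, hη, hη2, hη3⟩ : ∃ η : ℝ, 0 < η ∧ η ≤ δ / 2 ∧
      cE m * (m + 2 + t ^ 2) * η ≤ δ / 4 * t ^ 2 := by
    have h1 : 0 < cE m * (m + 2 + t ^ 2) := by positivity
    refine ⟨min (δ / 2) (δ / 4 * t ^ 2 / (cE m * (m + 2 + t ^ 2))), by positivity,
      min_le_left _ _, ?_⟩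
    rw [mul_comm, ← le_div_iff₀ h1]
    exact min_le_right _ _
  refine ⟨η, hη, fun f hf hN hY p s hs hs2 Θ hΘ => ?_⟩
  have h1 := mul_le_mul_of_nonneg_left (hT t η ht ht2 f hf hN hY p s hs Θ hΘ) hc.le
  have h2 := h.hardy hσ ε p hs hs2 hf
  generalize ∫ z, f z.1 ^ 2 * cf b (u p) s z.1 ^ 2 ∂μ = I at h1 h2 ⊢
  have ht0 : 0 < t ^ 2 := by positivity
  have h3 := mul_le_mul_of_nonneg_left ht3 ht0.le
  have h4 : cE m * (qE m - 2) * (lam * t ^ 2) = m * (lam * t ^ 2) := by rw [hcq]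
  have h5 : t ^ 2 * (m * lam) ≤ t ^ 2 * (m * (cE m * I) + δ / 2) := by nlinarith
  have h6 := le_of_mul_le_mul_left h5 ht0
  have h7 : m * lam ≤ m * (cE m * I + δ / 2) := by nlinarith
  have h8 := le_of_mul_le_mul_left h7 (by linarith)
  constructor <;> linarith

end Vale.Agent.P219
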