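import Vale.Agent.P219.S.Der

/-!
# The monotonicity formula  (TASK)

By `hasDerivAt_Mk`, `Mk_id`, `fv` (`φ = g / R^m ≥ 0`) and `m w² / R^(m+1) - m H₀ w / R^m ≥ -(m H₀² / 4) / R^(m-1)`, `0 ≤ g ≤ 1`, `ud`:
`M' s ≥ -(m H₀² / 4) C + e s` with `e s = ∫ z, Gt g u z * (k^(m-2) / R^m)`, continuous on `[t, t₁]` (`continuous_int` after replacing `s` by `max s t`).  So
`s ↦ M s + (m H₀² / 4) C s - ∫ r in t..s, e r` is monotone on `[t, t₁]` (`monotoneOn_of_deriv_nonneg`, `intervalIntegral.integral_hasDerivAt_right`, or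
`intervalIntegral.integral_le_sub_of_hasDeriv_right_of_le`).  Finally Fubini: `∫ r in t..t₁, e r = ∫ z, Gt * grn` (`intervalIntegral_integral_swap` or
`integral_integral_swap`; the integrand is continuous on `Icc t t₁ ×ˢ UB G K`).
-/

namespace Vale.Agent.P219

open scoped ContDiff Topology RealInnerProductSpace ENNReal
open MeasureTheory Set Filter Vale.Agent.P255
open St (sn gmod)

variable {E : Type*} [NormedAddCommGroup E] [InnerProductSpace ℝ E] [FiniteDimensional ℝ E]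
  [MeasurableSpace E] [BorelSpace E] {G : E → Bil E} {L : E → E → E} {K : Set E} {m : ℕ}
  {b H₀ σ t₀ C S c : ℝ} {u : E → E → ℝ} {μ : Measure (E × E)}

lemma py_alg {m : ℕ} (hm : 3 ≤ m) {g w R H : ℝ} (h0 : 0 ≤ g) (h1 : g ≤ 1) (hR : 0 < R) :
    -(m * H ^ 2 / 4 * (1 / R ^ (m - 1))) ≤ m * (g * w ^ 2 / R ^ (m + 1)) - m * H * (g * w / R ^ m) := by
  obtain ⟨j, rfl⟩ : ∃ j, m = j + 1 := ⟨m - 1, by omega⟩
  have e : ((j + 1 : ℕ) : ℝ) * (g * w ^ 2 / R ^ (j + 1 + 1)) - (j + 1 : ℕ) * H * (g * w / R ^ (j + 1)) +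
      (j + 1 : ℕ) * H ^ 2 / 4 * (1 / R ^ j) =
      (j + 1 : ℕ) * (1 / R ^ j) * (g * (w / R - H / 2) ^ 2 + (1 - g) * H ^ 2 / 4) := by
    field_simp
    ring
  have h2 : 0 ≤ ((j + 1 : ℕ) : ℝ) * (1 / R ^ j) * (g * (w / R - H / 2) ^ 2 + (1 - g) * H ^ 2 / 4) := by
    have := sub_nonneg.2 h1
    positivity
  rw [Nat.add_sub_cancel]
  linarith

lemma py_der (h : Sp1 m b H₀ G u K μ t₀ C) {y : E} (hy : y ∈ K) {g : E → ℝ}
    (hg : ContDiff ℝ 2 g) (h0 : ∀ x, 0 ≤ g x) (h1 : ∀ x, g x ≤ 1) {s : ℝ} (hs : 0 < s)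
    (hs0 : s ≤ t₀) (hs2 : b ^ 2 * s < 2) :
    ∫ z, Gt G g (u y) z * (kk b s ^ (m - 2) / (u y z.1 + s) ^ m) ∂μ - m * H₀ ^ 2 / 4 * C ≤
      kk b s ^ (m - 2) * ∫ z, g z.1 *
        (m * ((1 - b ^ 2 * s) * (u y z.1 + s) - kk b s ^ 2) / (u y z.1 + s) ^ (m + 1)) ∂μ := by
  have hR : ∀ x, 0 < u y x + s := fun x => add_pos_of_nonneg_of_pos (h.nonneg _ _) hs
  have hu := h.toSp0.cd2 y
  have hT : 0 ≤ Tf m b H₀ G μ (u y) fun x => g x / (u y x + s) ^ m :=
    h.fv y hy _ (hg.div ((hu.add contDiff_const).pow m) fun x => (pow_pos (hR x) m).ne')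
      fun x _ => div_nonneg (h0 x) (pow_pos (hR x) m).le
  have cR : ∀ j : ℕ, Continuous fun z : E × E => (u y z.1 + s) ^ j := fun j =>
    ((hu.continuous.comp continuous_fst).add continuous_const).pow j
  have nR : ∀ (j : ℕ) (z : E × E), (u y z.1 + s) ^ j ≠ 0 := fun j z => (pow_pos (hR _) j).ne'
  have cg : Continuous fun z : E × E => g z.1 := hg.continuous.comp continuous_fst
  have cw : Continuous (wn (u y)) := continuous_wn (hu.of_le one_le_two)
  have i1 : Integrable (fun z : E × E => g z.1 * wn (u y) z ^ 2 / (u y z.1 + s) ^ (m + 1)) μ :=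
    h.toSp0.integrable ((cg.mul (cw.pow 2)).div (cR _) (nR _))
  have i2 : Integrable (fun z : E × E => g z.1 * wn (u y) z / (u y z.1 + s) ^ m) μ :=
    h.toSp0.integrable ((cg.mul cw).div (cR _) (nR _))
  have i3 : Integrable (fun z : E × E => 1 / (u y z.1 + s) ^ (m - 1)) μ :=
    h.toSp0.integrable (continuous_const.div (cR _) (nR _))
  have h2 : -(m * H₀ ^ 2 / 4 * ∫ z, 1 / (u y z.1 + s) ^ (m - 1) ∂μ) ≤
      m * ∫ z, g z.1 * wn (u y) z ^ 2 / (u y z.1 + s) ^ (m + 1) ∂μ -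
        m * H₀ * ∫ z, g z.1 * wn (u y) z / (u y z.1 + s) ^ m ∂μ := by
    rw [← integral_const_mul, ← integral_const_mul, ← integral_const_mul, ← integral_neg,
      ← integral_sub (i1.const_mul _) (i2.const_mul _)]
    exact integral_mono (i3.const_mul _).neg ((i1.const_mul _).sub (i2.const_mul _)) fun z =>
      py_alg h.three (h0 _) (h1 _) (hR _)
  have h3 : kk b s ^ (m - 2) * ∫ z, 1 / (u y z.1 + s) ^ (m - 1) ∂μ ≤ C := by
    rw [← integral_const_mul]
    simp only [mul_one_div]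
    exact h.ud y hy s hs hs0
  have h4 : ∫ z, Gt G g (u y) z * (kk b s ^ (m - 2) / (u y z.1 + s) ^ m) ∂μ =
      kk b s ^ (m - 2) * ∫ z, Gt G g (u y) z / (u y z.1 + s) ^ m ∂μ := by
    rw [← integral_const_mul]
    exact integral_congr_ae (Eventually.of_forall fun z => by ring)
  have hk : 0 ≤ kk b s ^ (m - 2) := pow_nonneg (kk_nonneg _ _) _
  have h5 : 0 ≤ m * H₀ ^ 2 / 4 := by positivity
  rw [h.toSp0.Mk_id y hg hs hs2, h4]
  have h6 := mul_le_mul_of_nonneg_left h2 hk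
  have h7 := mul_le_mul_of_nonneg_left h3 h5
  have h8 := mul_nonneg hk hT
  linarith

lemma py_int (h : Sp0 m b H₀ G u K μ) (y : E) {Γ : E × E → ℝ} (hΓ : Continuous Γ) {t t₁ : ℝ}
    (ht : 0 < t) (htt : t ≤ t₁) :
    Integrable (Function.uncurry fun (s : ℝ) (z : E × E) =>
      Γ z * (kk b s ^ (m - 2) / (u y z.1 + s) ^ m)) ((volume.restrict (uIoc t t₁)).prod μ) := by
  have := h.fin
  rw [uIoc_of_le htt]
  have hu : Measurable fun w : ℝ × (E × E) => u y w.2.1 :=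
    ((h.cd2 y).continuous.comp continuous_snd.fst).measurable
  refine Integrable.mono' (((h.integrable hΓ).norm.mul_const
    (√(2 * t₁) ^ (m - 2) / t ^ m)).comp_snd _) (Measurable.aestronglyMeasurable ?_) ?_
  · exact (hΓ.measurable.comp measurable_snd).mul
      ((((continuous_kk b).measurable.comp measurable_fst).pow_const _).div
        ((hu.add measurable_fst).pow_const _))
  · have h1 : ∀ᵐ w ∂(volume.restrict (Ioc t t₁)).prod μ, w.1 ∈ Ioc t t₁ :=
      Measure.quasiMeasurePreserving_fst.ae (ae_restrict_mem measurableSet_Ioc)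
    filter_upwards [h1] with w hw
    have h2 := h.nonneg y w.2.1
    have h3 : 0 < w.1 := ht.trans hw.1
    have h4 := kk_nonneg b w.1
    change ‖Γ w.2 * (kk b w.1 ^ (m - 2) / (u y w.2.1 + w.1) ^ m)‖ ≤ _
    rw [norm_mul, Real.norm_of_nonneg (by positivity : 0 ≤ kk b w.1 ^ (m - 2) / (u y w.2.1 + w.1) ^ m)]
    refine mul_le_mul_of_nonneg_left (div_le_div₀ (by positivity) (pow_le_pow_left₀ h4
      ((kk_le h3.le).trans (Real.sqrt_le_sqrt (by linarith [hw.2]))) _) (pow_pos ht _)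
      (pow_le_pow_left₀ ht.le (by linarith [hw.1]) _)) (norm_nonneg _)

theorem Sp1.py (h : Sp1 m b H₀ G u K μ t₀ C) {y : E} (hy : y ∈ K) {g : E → ℝ}
    (hg : ContDiff ℝ 2 g) (h0 : ∀ x, 0 ≤ g x) (h1 : ∀ x, g x ≤ 1) {t t₁ : ℝ} (ht : 0 < t)
    (htt : t ≤ t₁) (ht1 : t₁ ≤ t₀) :
    Mk m b μ (u y) t g + ∫ z, Gt G g (u y) z * grn m b t t₁ (u y z.1) ∂μ ≤
      Mk m b μ (u y) t₁ g + m * H₀ ^ 2 / 4 * C * (t₁ - t) := by
  have := h.fin
  have h2 : ∀ s ∈ Icc t t₁, b ^ 2 * s < 2 := fun s hs => by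
    have := mul_le_mul_of_nonneg_left (hs.2.trans ht1) (sq_nonneg b)
    linarith [h.t_le]
  have hd := fun s (hs : s ∈ Icc t t₁) =>
    h.toSp0.hasDerivAt_Mk y hg.continuous (ht.trans_le hs.1) (h2 s hs)
  have hi := py_int h.toSp0 y
    (continuous_Gt h.loc (hg.of_le one_le_two) ((h.toSp0.cd2 y).of_le one_le_two)) ht htt
  have hs := intervalIntegral_integral_swap hi
  have hj : IntervalIntegrable (fun s => ∫ z, Gt G g (u y) z *
      (kk b s ^ (m - 2) / (u y z.1 + s) ^ m) ∂μ) volume t t₁ :=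
    intervalIntegrable_iff.2 hi.integral_prod_left
  have h3 := intervalIntegral.integral_le_sub_of_hasDeriv_right_of_le htt
    (fun s hs => (hd s hs).continuousAt.continuousWithinAt)
    (fun s hs => (hd s (Ioo_subset_Icc_self hs)).hasDerivWithinAt)
    ((intervalIntegrable_iff_integrableOn_Icc_of_le htt).1
      (hj.sub (intervalIntegrable_const (c := m * H₀ ^ 2 / 4 * C))))
    (fun s hs => py_der h hy hg h0 h1 (ht.trans hs.1) (hs.2.le.trans ht1)
      (h2 s (Ioo_subset_Icc_self hs)))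
  rw [intervalIntegral.integral_sub hj intervalIntegrable_const, hs,
    intervalIntegral.integral_const, smul_eq_mul] at h3
  simp only [intervalIntegral.integral_const_mul] at h3
  unfold grn
  linarith

end Vale.Agent.P219
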