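import Vale.Agent.P219.S.WQ

/-!
# `ww` is a smooth function of the square

`W q = ∑' n, b^(2n) q^(n+1) / (2n+2)!`.  Let `a n = b^(2n) / (2n+2)!` (or `1 / (2n+2)!` and rescale); `FormalMultilinearSeries.ofScalars ℝ a` has infinite radius
(`FormalMultilinearSeries.radius_eq_top_of_summable_norm`, `Real.summable_pow_div_factorial`, `ofScalars_norm`), so its sum is analytic (`hasFPowerSeriesOnBall`, `AnalyticOnNhd.contDiff`);
`ofScalarsSum` / `FormalMultilinearSeries.sum`; compare with `Real.hasSum_cosh` (`hasSum_nat_add_iff' 1`).  Alternative: `contDiff_tsum_of_eventually`-free route through the complex function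
`q ↦ cosh` is not needed.  The derivative identity follows by differentiating `W (r²) = ww b r` (`hasDerivAt_ww`); `2 W' 0 = 1` from `tendsto_sn_div` and continuity of `W'`.
-/

namespace Vale.Agent.P219

open scoped ContDiff Topology RealInnerProductSpace ENNReal
open MeasureTheory Set Filter Vale.Agent.P255
open St (sn gmod)

theorem exists_ser (b : ℝ) : ∃ W : ℝ → ℝ, ContDiff ℝ ∞ W ∧ (∀ r, W (r ^ 2) = ww b r) ∧
    (∀ r, 2 * deriv W (r ^ 2) * r = sn b r) ∧ 2 * deriv W 0 = 1 :=
  ⟨wq b, contDiff_wq b, wq_sq b, sq'_mul b, sq'_zero b⟩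

end Vale.Agent.P219
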