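import Vale.Agent.P219.S.Wk
import Vale.Agent.P219.S.Dy
import Vale.Agent.P219.S.Trunc

/-!
# The Sobolev inequality with some constant  (TASK)

`C', v₁` from `weak`, `χ, B` from `exists_chi` for `1 < 2`, `κ ≥ 1` with `1 / κ^q ≤ v₁` (Chebyshev: `μ {r ≤ |f|} ≤ 1 / r^q ≤ v₁` for `r ≥ κ`).  For `r = 2^j κ` apply `weak` to
`g = χ (f / r)`, `T = {2 r ≤ |f|}`, `T₀ = {r ≤ |f|}`.  `√(Gt g g) = |χ'| / r * √(Gt f f)` (`Gt_comp_sq`) vanishes off the shell `r ≤ |f| < 2 r`, so by Cauchy-Schwarz
`(∫ √(Gt g g))² ≤ B² / r² * μ T₀ * ∫ shell, Gt f f` (e.g. `integral_mul_le_Lp_mul_Lq_of_nonneg`, or `2 x ≤ x² / η + η` and optimise).  Then `dy` with `e = Gt f f`: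
`1 ≤ (2κ)^(q-2) Y / α + C'' √Y` (`Yf_eq`), so `Y ≥ min (α / (2 (2κ)^(q-2))) (1 / (4 C''²))`.
-/

namespace Vale.Agent.P219

open scoped ContDiff Topology RealInnerProductSpace ENNReal
open MeasureTheory Set Filter Vale.Agent.P255
open St (sn gmod)

variable {E : Type*} [NormedAddCommGroup E] [InnerProductSpace ℝ E] [FiniteDimensional ℝ E]
  [MeasurableSpace E] [BorelSpace E] {G : E → Bil E} {L : E → E → E} {K : Set E} {m : ℕ}
  {b H₀ σ t₀ C S c : ℝ} {u : E → E → ℝ} {μ : Measure (E × E)}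

theorem sob_cs {X : Type*} [MeasurableSpace X] {ν : Measure X} [IsFiniteMeasure ν] {e : X → ℝ}
    (he : Integrable e ν) (hs : Integrable (fun x => √(e x)) ν) (h0 : ∀ᵐ x ∂ν, 0 ≤ e x) :
    (∫ x, √(e x) ∂ν) ^ 2 ≤ ν.real univ * ∫ x, e x ∂ν := by
  have h1 := discrim_le_zero (a := ν.real univ) (b := -2 * ∫ x, √(e x) ∂ν) (c := ∫ x, e x ∂ν)
    fun t => by
      have h2 : 0 ≤ ∫ x, (t * t + -2 * t * √(e x) + e x) ∂ν :=
        integral_nonneg_of_ae (h0.mono fun x hx => by
          have := Real.sq_sqrt hx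
          simp only [Pi.zero_apply]
          nlinarith [sq_nonneg (√(e x) - t)])
      have i1 : Integrable (fun x => t * t + -2 * t * √(e x)) ν :=
        (integrable_const _).add (hs.const_mul _)
      rw [integral_add i1 he, integral_add (integrable_const _) (hs.const_mul _), integral_const,
        integral_const_mul, smul_eq_mul] at h2
      linarith
  rw [discrim] at h1
  linarith

theorem Sp2.sob_pos (h : Sp2 m b H₀ G u K μ t₀ C S) {α : ℝ} (hα : 0 < α) : ∃ l : ℝ, 0 < l ∧
    ∀ f : E → ℝ, ContDiff ℝ 2 f → Nq m μ f = 1 → l ≤ Yf G μ α f := by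
  have hm := h.three
  have hq := qE_gt hm
  have := h.fin
  obtain ⟨C', v₁, hC', hv, hw⟩ := h.weak
  obtain ⟨χ, B, hχ, hB, n0, n1, z0, z1, hd⟩ := exists_chi zero_le_one one_lt_two
  obtain ⟨C'', hC'', hy⟩ := dy (X := E × E) hm (C' := (C' * B) ^ 2) (by positivity)
  obtain ⟨κ, κ1, κ2⟩ : ∃ κ : ℝ, 1 ≤ κ ∧ 1 ≤ κ * v₁ :=
    ⟨max 1 (1 / v₁), le_max_left _ _, (div_le_iff₀ hv).1 (le_max_right _ _)⟩
  have hκ : 0 < κ := by linarith
  have hP : 0 < (2 * κ) ^ (qE m - 2) := by positivity
  refine ⟨min (α / (2 * (2 * κ) ^ (qE m - 2))) (1 / (2 * C'') ^ 2), by positivity,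
    fun f hf hN => ?_⟩
  have cf : Continuous fun z : E × E => f z.1 := hf.continuous.comp continuous_fst
  have ce := continuous_Gt h.loc (hf.of_le one_le_two) (hf.of_le one_le_two)
  have ie := h.toSp0.integrable ce
  have e0 : ∀ᵐ z ∂μ, 0 ≤ Gt G f f z := h.toSp0.ae_mem.mono fun z hz => Gt_nonneg h.loc f hz.2
  obtain ⟨M, hM⟩ := h.toSp0.bdd cf
  have mS : ∀ r, MeasurableSet {z : E × E | r ≤ |f z.1|} := fun r =>
    measurableSet_le measurable_const cf.abs.measurable
  have key := hy μ inferInstance (fun z => f z.1) (Gt G f f) κ M cf.measurable ie e0 hM hκ hN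
    fun j => by
      have r1 : κ ≤ 2 ^ j * κ := le_mul_of_one_le_left hκ.le (one_le_pow₀ one_le_two)
      rw [show (2 : ℝ) ^ (j + 1) * κ = 2 * (2 ^ j * κ) by ring]
      generalize 2 ^ j * κ = r at r1
      have hr : 0 < r := hκ.trans_le r1
      have mT : MeasurableSet {z : E × E | r ≤ |f z.1| ∧ |f z.1| < 2 * r} :=
        (mS r).inter (measurableSet_lt cf.abs.measurable measurable_const)
      have a1 : μ.real {z : E × E | r ≤ |f z.1|} ≤ v₁ := by
        have h1 := mul_meas_ge_le_integral_of_nonneg (μ := μ)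
          (f := fun z : E × E => |f z.1| ^ qE m) (.of_forall fun z => by positivity)
          (h.toSp0.integrable (cf.abs.rpow_const fun z => Or.inr (by linarith))) κ
        have h2 : μ.real {z : E × E | r ≤ |f z.1|} ≤ μ.real {z : E × E | κ ≤ |f z.1| ^ qE m} :=
          measureReal_mono fun z hz => (r1.trans hz).trans
            (Real.self_le_rpow_of_one_le (κ1.trans (r1.trans hz)) (by linarith))
        have h3 := mul_le_mul_of_nonneg_left h2 hκ.le
        exact le_of_mul_le_mul_left (h3.trans (h1.trans (hN.le.trans κ2))) hκ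
      have ea : ∀ y, |f y / r| = |f y| / r := fun y => by rw [abs_div, abs_of_pos hr]
      have hg : ContDiff ℝ 2 fun y => χ (f y / r) := hχ.comp (hf.div_const r)
      have a2 := hw (fun y => χ (f y / r)) hg (fun y => n0 _) (fun y => n1 _) _ _ (mS (2 * r)) (mS r)
        (fun z hz => (z1 _ (by rw [ea, le_div_iff₀ hr]; exact hz)).1)
        (fun z hz => (z0 _ (by rw [ea, div_le_one hr]; exact (not_le.1 hz).le)).1) a1
      have a3 : ∫ z, √(Gt G (fun y => χ (f y / r)) (fun y => χ (f y / r)) z) ∂μ ≤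
          B / r * ∫ z in {z : E × E | r ≤ |f z.1| ∧ |f z.1| < 2 * r}, √(Gt G f f z) ∂μ := by
        rw [← integral_const_mul, ← integral_indicator mT]
        refine integral_mono (h.toSp0.integrable (continuous_Gt h.loc (hg.of_le one_le_two)
          (hg.of_le one_le_two)).sqrt) (((h.toSp0.integrable ce.sqrt).const_mul _).indicator mT)
          fun z => ?_
        have d1 : HasDerivAt (fun x => χ (x / r)) (deriv χ (f z.1 / r) * (1 / r)) (f z.1) :=
          (hχ.differentiable two_ne_zero _).hasDerivAt.comp (f z.1) ((hasDerivAt_id' _).div_const r)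
        beta_reduce
        rw [Gt_comp_sq h.loc d1 (hf.differentiable two_ne_zero _), Real.sqrt_mul (sq_nonneg _),
          Real.sqrt_sq_eq_abs, abs_mul, abs_of_pos (one_div_pos.2 hr), mul_one_div]
        by_cases hz : z ∈ {z : E × E | r ≤ |f z.1| ∧ |f z.1| < 2 * r}
        · rw [indicator_of_mem hz]
          gcongr
          exact hd _
        · have : deriv χ (f z.1 / r) = 0 := by
            rcases not_and_or.1 hz with h1 | h1
            · exact (z0 _ (by rw [ea, div_le_one hr]; exact (not_le.1 h1).le)).2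
            · exact (z1 _ (by rw [ea, le_div_iff₀ hr]; exact not_lt.1 h1)).2
          rw [indicator_of_notMem hz, this, abs_zero, zero_div, zero_mul]
      have a4 := sob_cs (ν := μ.restrict {z : E × E | r ≤ |f z.1| ∧ |f z.1| < 2 * r})
        ie.restrict (h.toSp0.integrable ce.sqrt).restrict (ae_restrict_of_ae e0)
      rw [measureReal_restrict_apply_univ] at a4
      have a5 := a4.trans (mul_le_mul_of_nonneg_right
        (measureReal_mono (s₂ := {z : E × E | r ≤ |f z.1|}) fun z hz => hz.1)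
        (integral_nonneg_of_ae (ae_restrict_of_ae e0)))
      have a6 := pow_le_pow_left₀ measureReal_nonneg (a2.trans (mul_le_mul_of_nonneg_left a3
        (by positivity))) 2
      have x0 : 0 ≤ μ.real {z : E × E | r ≤ |f z.1|} := measureReal_nonneg
      generalize μ.real {z : E × E | r ≤ |f z.1|} = x at x0 a5 a6
      have a7 : x ^ (1 + 2 / m : ℝ) = (x ^ (1 / m : ℝ)) ^ 2 * x := by
        rw [Real.rpow_add' x0 (by positivity), Real.rpow_one, ← Real.rpow_two, ← Real.rpow_mul x0,
          mul_comm, one_div_mul_eq_div]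
      rw [a7]
      refine a6.trans ?_
      rw [mul_pow, mul_pow (B / r)]
      refine (mul_le_mul_of_nonneg_left (mul_le_mul_of_nonneg_left a5 (sq_nonneg _))
        (sq_nonneg _)).trans_eq ?_
      ring
  rw [h.toSp0.Yf_eq α hf]
  have b1 : 0 ≤ ∫ z, Gt G f f z ∂μ := integral_nonneg_of_ae e0
  have b2 : 0 ≤ ∫ z, f z.1 ^ 2 ∂μ := integral_nonneg fun z => sq_nonneg _
  have b3 := mul_nonneg hα.le b2
  rcases le_total (1 / 2) ((2 * κ) ^ (qE m - 2) * ∫ z, f z.1 ^ 2 ∂μ) with h1 | h1
  · refine (min_le_left _ _).trans (le_add_of_nonneg_of_le b1 ?_)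
    rw [div_le_iff₀ (by positivity)]
    nlinarith
  · refine (min_le_right _ _).trans (le_add_of_le_of_nonneg ?_ b3)
    rw [div_le_iff₀ (by positivity), ← Real.sq_sqrt b1, ← mul_pow]
    exact one_le_pow₀ (by linarith)

end Vale.Agent.P219
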