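import Vale.Agent.P219.S.Hardy

/-!
# The Sobolev inequality for truncations

Apply `SI` to `f' = θ (F) * cf^β` (`contDiff_Fq`, `contDiff_cf_rpow`).  `Fq f' = θ ∘ F` (`Fq_mul`), so `Nq f' = ∫ |θ F|^q cf^m` (`Fq_rpow`), `f'² cf² = θ(F)² cf^m` (`Fq_sq'`),
`f'² ≤ f²` (`Fq_sq`).  `hardy` for `f'`; each deficit of `f'` is at most that of `f`: `Gt_comp_sq`, `Gt_nonneg` (first), `integral_mono`, `Tf_mono` with `a = a' = 1` (third).
-/

namespace Vale.Agent.P219

open scoped ContDiff Topology RealInnerProductSpace ENNReal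
open MeasureTheory Set Filter Vale.Agent.P255
open St (sn gmod)

variable {E : Type*} [NormedAddCommGroup E] [InnerProductSpace ℝ E] [FiniteDimensional ℝ E]
  [MeasurableSpace E] [BorelSpace E] {G : E → Bil E} {L : E → E → E} {K : Set E} {m : ℕ}
  {b H₀ σ t₀ C S c : ℝ} {u : E → E → ℝ} {μ : Measure (E × E)}

theorem Sp0.trunc (h : Sp0 m b H₀ G u K μ) (hσ : H₀ ^ 2 = b ^ 2 + 1 / σ ^ 2) {ε lam : ℝ}
    (hε : 0 ≤ ε) (hS : SI m G μ (cE m / σ ^ 2 + ε) lam) {p : E} (hp : p ∈ K) {s : ℝ} (hs : 0 < s)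
    (hs2 : b ^ 2 * s < 2) {f : E → ℝ} (hf : ContDiff ℝ 2 f) {θ : ℝ → ℝ} (hθ : ContDiff ℝ 2 θ)
    (h1 : ∀ x, |θ x| ≤ |x|) (h2 : ∀ x, |deriv θ x| ≤ 1) :
    lam * (∫ z, |θ (Fq m b (u p) s f z.1)| ^ qE m * cf b (u p) s z.1 ^ m ∂μ) ^ (2 / qE m) ≤
      dfT m b H₀ ε G μ (u p) s f +
        cE m * ∫ z, θ (Fq m b (u p) s f z.1) ^ 2 * cf b (u p) s z.1 ^ m ∂μ := by
  have hm := h.three
  have hv := h.nonneg p
  have hF := contDiff_Fq (m := m) hv (h.cd2 p) hs hs2 hf
  have hW := contDiff_cf (b := b) hv (h.cd2 p) hs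
  have hθF : ContDiff ℝ 2 fun y => θ (Fq m b (u p) s f y) := hθ.comp hF
  have hg : ContDiff ℝ 2 fun y => θ (Fq m b (u p) s f y) * cf b (u p) s y ^ bE m :=
    hθF.mul (contDiff_cf_rpow hv (h.cd2 p) hs hs2 _)
  have e := Fq_mul (m := m) hv hs hs2 fun y => θ (Fq m b (u p) s f y)
  set g : E → ℝ := fun y => θ (Fq m b (u p) s f y) * cf b (u p) s y ^ bE m with hgdef
  have e' : ∀ y, θ (Fq m b (u p) s f y) = Fq m b (u p) s g y := fun y => (congrFun e y).symm
  have hle : ∀ y, g y ^ 2 ≤ f y ^ 2 := fun y => by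
    rw [← Fq_sq hm hv hs hs2 g, ← Fq_sq hm hv hs hs2 f, ← e']
    exact mul_le_mul_of_nonneg_right (sq_le_sq.2 (h1 _)) (pow_nonneg (cf_nonneg hv hs y) _)
  have hR : ∀ y, 0 < u p y + s := fun y => add_pos_of_nonneg_of_pos (hv y) hs
  have cR : Continuous fun z : E × E => (wn (u p) z / (u p z.1 + s) - H₀) ^ 2 :=
    (((continuous_wn ((h.cd2 p).of_le one_le_two)).div
      (((h.cd2 p).continuous.comp continuous_fst).add continuous_const)
        fun z => (hR z.1).ne').sub continuous_const).pow 2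
  have c2 : ∀ {k : E → ℝ}, ContDiff ℝ 2 k → Continuous fun z : E × E => k z.1 ^ 2 := fun hk =>
    (hk.continuous.comp continuous_fst).pow 2
  have a0 : ∫ z, g z.1 ^ 2 ∂μ ≤ ∫ z, f z.1 ^ 2 ∂μ :=
    integral_mono (h.integrable (c2 hg)) (h.integrable (c2 hf)) fun z => hle z.1
  have a1 : df1 m b G μ (u p) s g ≤ df1 m b G μ (u p) s f := by
    rw [df1, df1, e]
    refine integral_mono_ae (h.integrable (((hW.continuous.comp continuous_fst).pow _).mul
      (continuous_Gt h.loc (hθF.of_le one_le_two) (hθF.of_le one_le_two))))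
      (h.integrable (((hW.continuous.comp continuous_fst).pow _).mul
        (continuous_Gt h.loc (hF.of_le one_le_two) (hF.of_le one_le_two)))) ?_
    filter_upwards [h.ae_mem] with z hz
    refine mul_le_mul_of_nonneg_left ?_ (pow_nonneg (cf_nonneg hv hs _) _)
    rw [Gt_comp_sq h.loc (hθ.differentiable (by simp) _).hasDerivAt (hF.differentiable (by simp) _)]
    exact mul_le_of_le_one_left (Gt_nonneg h.loc _ hz.2) ((sq_le_one_iff_abs_le_one _).2 (h2 _))
  have a2 : df2 H₀ μ (u p) s g ≤ df2 H₀ μ (u p) s f :=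
    integral_mono (h.integrable ((c2 hg).mul cR)) (h.integrable ((c2 hf).mul cR)) fun z =>
      mul_le_mul_of_nonneg_right (hle z.1) (sq_nonneg _)
  have a3 : df3 m b H₀ G μ (u p) s g ≤ df3 m b H₀ G μ (u p) s f := by
    have hd : ∀ {k : E → ℝ}, ContDiff ℝ 2 k → ContDiff ℝ 2 fun y => k y ^ 2 / (u p y + s) :=
      fun hk => (hk.pow 2).div ((h.cd2 p).add contDiff_const) fun y => (hR y).ne'
    have := h.Tf_mono hp (hd hg) (hd hf) (a := 1) (a' := 1) fun y _ => by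
      rw [one_mul, one_mul]
      exact div_le_div_of_nonneg_right (hle y) (hR y).le
    rwa [one_mul, one_mul] at this
  have a4 := hS g hg
  rw [h.hardy hσ ε p hs hs2 hg] at a4
  simp only [e', Fq_rpow hm hv hs hs2, Fq_sq' hm hv hs hs2]
  refine a4.trans (add_le_add ?_ le_rfl)
  rw [dfT, dfT]
  have b0 := mul_le_mul_of_nonneg_left a0 hε
  have b2 := mul_le_mul_of_nonneg_left a2 (cE_pos hm).le
  have b3 := mul_le_mul_of_nonneg_left a3 (bE_pos hm).le
  linarith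

end Vale.Agent.P219
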