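import Vale.Agent.P219.S.Mass
import Vale.Agent.P219.S.Sob
import Vale.Agent.P219.S.Lam
import Vale.Agent.P219.S.Near
import Vale.Agent.P219.S.Tr
import Vale.Agent.P219.S.Eg
import Vale.Agent.P219.S.Lim

/-!
# The sharp Sobolev inequality

`sharp_eps`: `SI_of_one`; given `f₀` with `Nq f₀ = 1` take `lam > 0` from `sob_pos`, `exists_lam`; it suffices to show `cE S^(2/m) ≤ lam` (`SI` at `f₀`).  Otherwise pick `x` with
`lam / cE < x < S^(2/m)`, `κ, τ` from `lim_const`, `κ₁ = κ + τ`, `θ` from `exists_theta κ₁ τ`, `v = (lam / (2 cE))^(m/2)`, `δ₁, s₀` from `mass κ κ₁ v τ`.  Choose `δ` so small that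
`δ ≤ min ε (min 1 (min cE bE)) * δ₁` (so `Small … δ₁` by nonnegativity of the deficits), `δ ≤ lam / 2`, `4 cE δ / (ε lam) ≤ s₀`, `((κ₁ + 2τ) / τ)^q (2 δ / lam)^(q/2) ≤ τ`.  `near` gives `η`; take `η' = min η (cE x - lam)`,
a near minimiser `f`, `p, s, Θ` from `bal` with `a = |f|^q`.  `lam ≤ cE ∫ f² cf² + δ ≤ 2 cE δ / (ε s) + δ` (`cf_sq_le`) gives `s ≤ s₀`.  If `v ≤ cms {κ₁ < |F|}` then `mass` and Chebyshev
(`κ^q cms {κ ≤ |F|} ≤ ∫ |F|^q cf^m = 1`, `Fq_rpow`) contradict `1 < κ^q (S - τ)`.  So `endg` (with `trunc`) gives `x < ∫ F² cf^m = ∫ f² cf²` (`Fq_sq'`), contradicting `hardy`: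
`cE ∫ f² cf² ≤ Y ≤ lam + η'`.
`sharp`: `Yf (α + ε) f = Yf α f + ε ∫ f²` (`Yf_eq`), `ε → 0`.  `area`: `f = 1`, `Gt_const`, `one_sub_qE`.
-/

namespace Vale.Agent.P219

open scoped ContDiff Topology RealInnerProductSpace ENNReal
open MeasureTheory Set Filter Vale.Agent.P255
open St (sn gmod)

variable {E : Type*} [NormedAddCommGroup E] [InnerProductSpace ℝ E] [FiniteDimensional ℝ E]
  [MeasurableSpace E] [BorelSpace E] {G : E → Bil E} {L : E → E → E} {K : Set E} {m : ℕ}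
  {b H₀ σ t₀ C S c : ℝ} {u : E → E → ℝ} {μ : Measure (E × E)}

theorem sharp_delta {ε δ₁ c β lam s₀ A e τ : ℝ} (hε : 0 < ε) (h1 : 0 < δ₁) (hc : 0 < c)
    (hβ : 0 < β) (hl : 0 < lam) (hs : 0 < s₀) (he : 0 < e) (hτ : 0 < τ) :
    ∃ δ : ℝ, 0 < δ ∧ δ ≤ ε * δ₁ ∧ δ ≤ δ₁ ∧ δ ≤ c * δ₁ ∧ δ ≤ β * δ₁ ∧ δ ≤ lam / 2 ∧
      δ ≤ s₀ * ε * lam / (4 * c) ∧ A * (2 * δ / lam) ^ e ≤ τ := by
  have a : ∀ x : ℝ, 0 < x → ∀ᶠ δ in 𝓝 (0 : ℝ), δ ≤ x := fun x hx => eventually_le_nhds hx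
  have c1 : Continuous fun δ : ℝ => A * (2 * δ / lam) ^ e :=
    continuous_const.mul (Continuous.rpow_const (by fun_prop) fun _ => Or.inr he.le)
  have c2 : ∀ᶠ δ in 𝓝 (0 : ℝ), A * (2 * δ / lam) ^ e < τ :=
    c1.continuousAt.eventually_lt continuousAt_const (by simpa [Real.zero_rpow he.ne'] using hτ)
  have c3 : ∀ᶠ δ in 𝓝 (0 : ℝ), δ ≤ ε * δ₁ ∧ δ ≤ δ₁ ∧ δ ≤ c * δ₁ ∧ δ ≤ β * δ₁ ∧ δ ≤ lam / 2 ∧
      δ ≤ s₀ * ε * lam / (4 * c) ∧ A * (2 * δ / lam) ^ e ≤ τ := by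
    filter_upwards [a _ (mul_pos hε h1), a _ h1, a _ (mul_pos hc h1), a _ (mul_pos hβ h1),
      a _ (half_pos hl), a (s₀ * ε * lam / (4 * c)) (by positivity), c2] with δ b1 b2 b3 b4 b5 b6 b7
    exact ⟨b1, b2, b3, b4, b5, b6, b7.le⟩
  obtain ⟨δ, h2, h3⟩ := ((c3.filter_mono nhdsWithin_le_nhds).and
    (self_mem_nhdsWithin : Ioi (0 : ℝ) ∈ 𝓝[>] 0)).exists
  exact ⟨δ, h3, h2⟩

theorem Sp0.sharp_cheb (h : Sp0 m b H₀ G u K μ) (p : E) {s : ℝ} (hs : 0 < s) (hs2 : b ^ 2 * s < 2)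
    {f : E → ℝ} (hf : ContDiff ℝ 2 f) {κ : ℝ} (hκ : 0 < κ) :
    κ ^ qE m * cms m b μ (u p) s {z | κ ≤ |Fq m b (u p) s f z.1|} ≤ Nq m μ f := by
  have hq := qE_gt h.three
  have cF := (contDiff_Fq (m := m) (h.nonneg p) (h.cd2 p) hs hs2 hf).continuous
  have cW := (contDiff_cf (b := b) (h.nonneg p) (h.cd2 p) hs).continuous
  have hT : MeasurableSet {z : E × E | κ ≤ |Fq m b (u p) s f z.1|} :=
    (isClosed_le continuous_const (cF.comp continuous_fst).abs).measurableSet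
  have i1 : Integrable (fun z : E × E => |f z.1| ^ qE m) μ := h.integrable
    ((hf.continuous.comp continuous_fst).abs.rpow_const fun _ => Or.inr (by linarith))
  have i2 : Integrable (fun z : E × E => κ ^ qE m * cf b (u p) s z.1 ^ m) μ :=
    h.integrable (continuous_const.mul ((cW.comp continuous_fst).pow m))
  rw [cms, ← integral_const_mul]
  refine le_trans (setIntegral_mono_on i2.integrableOn i1.integrableOn hT fun z hz => ?_)
    (setIntegral_le_integral i1 (.of_forall fun z => by positivity))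
  rw [← Fq_rpow h.three (h.nonneg p) hs hs2 f]
  exact mul_le_mul_of_nonneg_right (Real.rpow_le_rpow hκ.le hz (by linarith))
    (pow_nonneg (cf_nonneg (h.nonneg p) hs _) _)

theorem Sp2.sharp_eps (h : Sp2 m b H₀ G u K μ t₀ C S) (hσ : H₀ ^ 2 = b ^ 2 + 1 / σ ^ 2) {ε : ℝ}
    (hε : 0 < ε) : SI m G μ (cE m / σ ^ 2 + ε) (cE m * S ^ (2 / m : ℝ)) := by
  have h0 := h.toSp1.toSp0
  have hm := h0.three
  have hq := qE_gt hm
  have hc := cE_pos hm
  have hβ := bE_pos hm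
  have hm0 : (0 : ℝ) < m := by exact_mod_cast (by omega : 0 < m)
  have hα : 0 < cE m / σ ^ 2 + ε := by positivity
  refine h0.SI_of_one hα.le fun f₀ hf₀ hN₀ => ?_
  obtain ⟨l, hl0, hl⟩ := h.sob_pos hα
  obtain ⟨lam, hll, hS, hnear⟩ := h0.exists_lam hα.le hl ⟨f₀, hf₀, hN₀⟩
  have hlam : 0 < lam := hl0.trans_le hll
  suffices H : cE m * S ^ (2 / m : ℝ) ≤ lam by
    have h1 := hS f₀ hf₀
    rw [hN₀, Real.one_rpow, mul_one] at h1
    exact H.trans h1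
  by_contra! H
  obtain ⟨x, hx1, hx2⟩ := exists_between ((div_lt_iff₀' hc).2 H)
  rw [div_lt_iff₀' hc] at hx1
  obtain ⟨κ, τ, hκ, hτ, hk1, hk2⟩ := lim_const hm h.S_pos hx2
  obtain ⟨θ, t1, t2, t3, t4, t5⟩ := exists_theta (add_pos hκ hτ) hτ
  obtain ⟨δ₁, s₀, hδ₁, hs₀, hmass⟩ := h.mass (v := (lam / (2 * cE m)) ^ (m / 2 : ℝ)) hκ
    (lt_add_of_pos_right κ hτ) (by positivity) hτ
  obtain ⟨δ, hδ, d1, d2, d3, d4, d5, d6, d7⟩ := sharp_delta
    (A := ((κ + τ + 2 * τ) / τ) ^ qE m) (e := qE m / 2) hε hδ₁ hc hβ hlam hs₀ (by linarith) hτ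
  obtain ⟨η, hη, hN⟩ := h0.near hσ hlam hS hδ
  obtain ⟨f, hf, hf1, hf2⟩ := hnear (min η (cE m * x - lam)) (lt_min hη (by linarith))
  obtain ⟨p, hp, s, hs, hs2, Θ, hΘ⟩ := h.bal (fun y => |f y| ^ qE m)
    (hf.continuous.abs.rpow_const fun _ => Or.inr (by linarith)) (fun y => by positivity) hf1
  obtain ⟨n1, n2⟩ := hN f hf hf1 (hf2.trans (by linarith [min_le_left η (cE m * x - lam)])) p s hs
    hs2 Θ hΘ
  have e0 : 0 ≤ ∫ z, f z.1 ^ 2 ∂μ := integral_nonneg fun z => sq_nonneg _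
  have e1 := h0.df1_nonneg p hs f
  have e2 := df2_nonneg H₀ μ (u p) s f
  have e3 := h0.df3_nonneg hp hs hf
  have g0 := mul_nonneg hε.le e0
  have g2 := mul_nonneg hc.le e2
  have g3 := mul_nonneg hβ.le e3
  have n3 := n1
  rw [dfT] at n3
  have hsm : Small m b H₀ G μ (u p) s f δ₁ :=
    ⟨le_of_mul_le_mul_left (by linarith) hε, by linarith,
      le_of_mul_le_mul_left (by linarith) hc, le_of_mul_le_mul_left (by linarith) hβ⟩
  have cF := (contDiff_Fq (m := m) (h0.nonneg p) (h0.cd2 p) hs hs2 hf).continuous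
  have cW := (contDiff_cf (b := b) (h0.nonneg p) (h0.cd2 p) hs).continuous
  have cf2 : Continuous fun z : E × E => f z.1 ^ 2 := (hf.continuous.comp continuous_fst).pow 2
  have hI : ∫ z, f z.1 ^ 2 * cf b (u p) s z.1 ^ 2 ∂μ ≤ 2 / s * ∫ z, f z.1 ^ 2 ∂μ := by
    rw [← integral_const_mul]
    refine integral_mono (h0.integrable (cf2.mul ((cW.comp continuous_fst).pow 2)))
      (h0.integrable (continuous_const.mul cf2)) fun z => ?_
    exact (mul_le_mul_of_nonneg_left (cf_sq_le (h0.nonneg p) hs z.1) (sq_nonneg _)).trans_eq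
      (mul_comm _ _)
  have hss : s ≤ s₀ := by
    have a1 : lam / 2 ≤ cE m * (2 / s * ∫ z, f z.1 ^ 2 ∂μ) := by
      linarith [mul_le_mul_of_nonneg_left hI hc.le]
    have a2 : ∫ z, f z.1 ^ 2 ∂μ ≤ δ / ε := by
      rw [le_div_iff₀' hε]
      linarith
    have a3 : lam / 2 ≤ cE m * (2 / s * (s₀ * ε * lam / (4 * cE m) / ε)) :=
      a1.trans (by gcongr; exact a2.trans (by gcongr))
    have a4 : cE m * (2 / s * (s₀ * ε * lam / (4 * cE m) / ε)) = lam / 2 * (s₀ / s) := by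
      field_simp
      ring
    rw [a4, le_mul_iff_one_le_right (half_pos hlam), one_le_div hs] at a3
    exact a3
  have hv : cms m b μ (u p) s {z | κ + τ < |Fq m b (u p) s f z.1|} ≤
      (lam / (2 * cE m)) ^ (m / 2 : ℝ) := by
    by_contra! hv
    have a1 := hmass p hp s hs hss f hf hsm hv.le
    have a2 := h0.sharp_cheb p hs hs2 hf hκ
    have a3 := mul_le_mul_of_nonneg_left a1 (Real.rpow_nonneg hκ.le (qE m))
    linarith
  obtain ⟨M, hM⟩ := h0.bdd (cF.comp continuous_fst)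
  have key := endg hm (ν := μ) (F := fun z => Fq m b (u p) s f z.1)
    (W := fun z => cf b (u p) s z.1 ^ m) (cF.comp continuous_fst).measurable
    (h0.integrable ((cW.comp continuous_fst).pow m))
    (fun z => pow_nonneg (cf_nonneg (h0.nonneg p) hs _) _) hM t1.continuous (add_pos hκ hτ) hτ hlam
    hδ.le t2 t3 t5 (by simp only [Fq_rpow hm (h0.nonneg p) hs hs2]; exact hf1)
    ((h0.trunc hσ hε.le hS hp hs hs2 hf t1 t3 t4).trans (by linarith)) hv (by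
      rw [← Real.rpow_mul (by positivity), show (m / 2 * (2 / m) : ℝ) = 1 by field_simp,
        Real.rpow_one]
      exact le_of_eq (by field_simp))
  simp only [Fq_sq' hm (h0.nonneg p) hs hs2] at key
  have hP : 0 < (κ + τ + 2 * τ) ^ (qE m - 2) := by positivity
  have a1 : x < ∫ z, f z.1 ^ 2 * cf b (u p) s z.1 ^ 2 ∂μ :=
    lt_of_mul_lt_mul_left (a := (κ + τ + 2 * τ) ^ (qE m - 2)) (by linarith) hP.le
  have a2 := h0.hardy hσ ε p hs hs2 hf
  rw [dfT] at a2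
  have a3 := mul_lt_mul_of_pos_left a1 hc
  linarith [min_le_right η (cE m * x - lam)]

theorem Sp2.sharp (h : Sp2 m b H₀ G u K μ t₀ C S) (hσ : H₀ ^ 2 = b ^ 2 + 1 / σ ^ 2) :
    SI m G μ (cE m / σ ^ 2 + 0) (cE m * S ^ (2 / m : ℝ)) := by
  intro f hf
  have h0 := h.toSp1.toSp0
  have e0 : 0 ≤ ∫ z, f z.1 ^ 2 ∂μ := integral_nonneg fun z => sq_nonneg _
  refine le_of_forall_pos_le_add fun ε hε => ?_
  have h1 := h.sharp_eps hσ (ε := ε / (∫ z, f z.1 ^ 2 ∂μ + 1)) (by positivity) f hf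
  rw [h0.Yf_eq _ hf] at h1 ⊢
  have h2 : ε / (∫ z, f z.1 ^ 2 ∂μ + 1) * ∫ z, f z.1 ^ 2 ∂μ ≤ ε := by
    rw [div_mul_eq_mul_div, div_le_iff₀ (by positivity)]
    nlinarith
  linarith

theorem Sp2.area (h : Sp2 m b H₀ G u K μ t₀ C S) (hσ : H₀ ^ 2 = b ^ 2 + 1 / σ ^ 2) (h0 : 0 < σ)
    (hA : 0 < μ.real univ) : S * σ ^ m ≤ μ.real univ := by
  have hm := h.three
  have hc := cE_pos hm
  have hm0 : (0 : ℝ) < m := by exact_mod_cast (by omega : 0 < m)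
  have h1 := h.sharp hσ (fun _ => 1) contDiff_const
  simp only [Nq, Yf, Gt_const, abs_one, Real.one_rpow, integral_const, smul_eq_mul, mul_one,
    one_pow, zero_add, add_zero] at h1
  set A := μ.real univ with hAdef
  have h2 : A = A ^ (2 / qE m) * A ^ (2 / m : ℝ) := by
    rw [← Real.rpow_add hA, show 2 / qE m + 2 / m = 1 by linarith [one_sub_qE hm], Real.rpow_one]
  have h3 : 0 < A ^ (2 / qE m) := Real.rpow_pos_of_pos hA _
  have h4 : S ^ (2 / m : ℝ) * σ ^ 2 ≤ A ^ (2 / m : ℝ) := by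
    refine le_of_mul_le_mul_left (a := cE m * A ^ (2 / qE m) / σ ^ 2) ?_ (by positivity)
    calc _ = cE m * S ^ (2 / m : ℝ) * A ^ (2 / qE m) := by field_simp
      _ ≤ A * (cE m / σ ^ 2) := h1
      _ = A ^ (2 / qE m) * A ^ (2 / m : ℝ) * (cE m / σ ^ 2) := by rw [← h2]
      _ = _ := by ring
  refine (Real.rpow_le_rpow_iff (mul_pos h.S_pos (pow_pos h0 m)).le hA.le
    (by positivity : (0 : ℝ) < 2 / m)).1 ?_
  rwa [Real.mul_rpow h.S_pos.le (pow_pos h0 m).le, ← Real.rpow_natCast σ m, ← Real.rpow_mul h0.le,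
    show (m * (2 / m) : ℝ) = 2 by field_simp, Real.rpow_two]

end Vale.Agent.P219
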