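import Vale.Agent.P219.S.Base

/-!
# The quadratic form on the test functions  (TASK)

`par`: with `g = f Θ`, `d (f (1 ± t Θ)) = df ± t dg` (`Gt_quad`).  `sum`: `Gt (f Θ) (f Θ) = Θ² Gt f f + 2 Θ f Gt f Θ + f² Gt Θ Θ` (`Gt_quad`); differentiating `unit` gives
`∑ i, Θ i y • fderiv (Θ i) y = 0`, hence `∑ i, Θ i * Gt (Θ i) f = 0` (unfold `Gt`, `Gt_symm`); `integral_finset_sum`, `grad`.
-/

namespace Vale.Agent.P219

open scoped ContDiff Topology RealInnerProductSpace ENNReal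
open MeasureTheory Set Filter Vale.Agent.P255
open St (sn gmod)

variable {E : Type*} [NormedAddCommGroup E] [InnerProductSpace ℝ E] [FiniteDimensional ℝ E]
  [MeasurableSpace E] [BorelSpace E] {G : E → Bil E} {L : E → E → E} {K : Set E} {m : ℕ}
  {b H₀ σ t₀ C S c : ℝ} {u : E → E → ℝ} {μ : Measure (E × E)}

theorem sum_int (h : Sp0 m b H₀ G u K μ) (α : ℝ) {f : E → ℝ} (hf : ContDiff ℝ 2 f) :
    Integrable (fun z : E × E => Gt G f f z + α * f z.1 ^ 2) μ :=
  h.integrable ((continuous_Gt h.loc (hf.of_le one_le_two) (hf.of_le one_le_two)).add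
    (continuous_const.mul ((hf.continuous.comp continuous_fst).pow 2)))

theorem sum_Gt (hG : LocMetric G univ) (t : ℝ) {f Θ : E → ℝ} (hf : ContDiff ℝ 2 f)
    (hΘ : ContDiff ℝ 2 Θ) (z : E × E) :
    Gt G (fun y => f y * (1 + t * Θ y)) (fun y => f y * (1 + t * Θ y)) z =
      Gt G f f z + 2 * t * Gt G f (fun y => f y * Θ y) z +
        t ^ 2 * Gt G (fun y => f y * Θ y) (fun y => f y * Θ y) z := by
  have e : (fun y => f y * (1 + t * Θ y)) = fun y => f y + t * (f y * Θ y) := by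
    funext y
    ring
  have h1 := (hf.differentiable two_ne_zero z.1).hasFDerivAt
  have h2 := ((hf.mul hΘ).differentiable two_ne_zero z.1).hasFDerivAt
  have h3 : fderiv ℝ (fun y => f y * (1 + t * Θ y)) z.1 =
      (1 : ℝ) • fderiv ℝ f z.1 + t • fderiv ℝ (fun y => f y * Θ y) z.1 := by
    rw [e, one_smul]
    exact (h1.add (h2.const_mul t)).fderiv
  rw [Gt_quad hG h3]
  ring

omit [MeasurableSpace E] [BorelSpace E] in
theorem sum_zero {ι : Type*} [Fintype ι] {Θ : ι → E → ℝ} (hs : ∀ i, ContDiff ℝ 2 (Θ i))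
    (hu : ∀ y, ∑ i, Θ i y ^ 2 = 1) (f : E → ℝ) (z : E × E) :
    ∑ i, Θ i z.1 * Gt G (Θ i) f z = 0 := by
  have h1 : HasFDerivAt (fun y => ∑ i, Θ i y * Θ i y)
      (∑ i, (Θ i z.1 • fderiv ℝ (Θ i) z.1 + Θ i z.1 • fderiv ℝ (Θ i) z.1)) z.1 :=
    HasFDerivAt.fun_sum fun i _ => ((hs i).differentiable two_ne_zero z.1).hasFDerivAt.mul
      ((hs i).differentiable two_ne_zero z.1).hasFDerivAt
  have e : (fun y => ∑ i, Θ i y * Θ i y) = fun _ => (1 : ℝ) := by
    funext y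
    simp only [← sq, hu y]
  rw [e] at h1
  have h2 := h1.unique (hasFDerivAt_const 1 z.1)
  have h3 : ∀ v, ∑ i, Θ i z.1 * fderiv ℝ (Θ i) z.1 v = 0 := fun v => by
    have h4 := congrArg (fun A : E →L[ℝ] ℝ => A v) h2
    simp only [sum_apply, add_apply, smul_apply, smul_eq_mul, Finset.sum_add_distrib,
      _root_.zero_apply] at h4
    linarith
  simp only [Gt, mul_sub, ← mul_assoc, Finset.sum_sub_distrib, ← Finset.sum_mul, h3, zero_mul,
    sub_zero]

theorem Sp0.par (h : Sp0 m b H₀ G u K μ) (α t : ℝ) {f Θ : E → ℝ} (hf : ContDiff ℝ 2 f)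
    (hΘ : ContDiff ℝ 2 Θ) :
    Yf G μ α (fun y => f y * (1 + t * Θ y)) + Yf G μ α (fun y => f y * (1 + -t * Θ y)) =
      2 * Yf G μ α f + 2 * t ^ 2 * Yf G μ α fun y => f y * Θ y := by
  have i1 := sum_int h α (hf.mul (contDiff_const.add ((contDiff_const (c := t)).mul hΘ) :
    ContDiff ℝ 2 fun y => 1 + t * Θ y))
  have i2 := sum_int h α (hf.mul (contDiff_const.add ((contDiff_const (c := -t)).mul hΘ) :
    ContDiff ℝ 2 fun y => 1 + -t * Θ y))
  have i3 := sum_int h α hf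
  have i4 := sum_int h α (hf.mul hΘ)
  rw [Yf, Yf, Yf, Yf, ← integral_add i1 i2, ← integral_const_mul, ← integral_const_mul,
    ← integral_add (i3.const_mul _) (i4.const_mul _)]
  congr 1
  funext z
  rw [sum_Gt h.loc t hf hΘ, sum_Gt h.loc (-t) hf hΘ]
  ring

theorem Sp0.sum (h : Sp0 m b H₀ G u K μ) (α : ℝ) (p : E) {s : ℝ} (hs : 0 < s) {f a : E → ℝ}
    (hf : ContDiff ℝ 2 f) {Θ : Fin (m + 2) → E → ℝ} (hΘ : Bal m b G μ (u p) s a Θ) :
    ∑ i, Yf G μ α (fun y => f y * Θ i y) ≤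
      Yf G μ α f + m * ∫ z, f z.1 ^ 2 * cf b (u p) s z.1 ^ 2 ∂μ := by
  have i1 := fun i => sum_int h α (hf.mul (hΘ.smooth i))
  have i3 := sum_int h α hf
  have i4 : Integrable (fun z : E × E => f z.1 ^ 2 * cf b (u p) s z.1 ^ 2) μ :=
    h.integrable (((hf.continuous.comp continuous_fst).pow 2).mul
      (((contDiff_cf (h.nonneg p) (h.cd2 p) hs).continuous.comp continuous_fst).pow 2))
  simp only [Yf]
  rw [← integral_finsetSum _ fun i _ => i1 i, ← integral_const_mul,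
    ← integral_add i3 (i4.const_mul _)]
  refine integral_mono_ae (integrable_finsetSum _ fun i _ => i1 i) (i3.add (i4.const_mul _))
    (hΘ.grad.mono fun z hz => ?_)
  have e : ∀ i, Gt G (fun y => f y * Θ i y) (fun y => f y * Θ i y) z + α * (f z.1 * Θ i z.1) ^ 2 =
      f z.1 ^ 2 * Gt G (Θ i) (Θ i) z + 2 * f z.1 * (Θ i z.1 * Gt G (Θ i) f z) +
        (Gt G f f z + α * f z.1 ^ 2) * Θ i z.1 ^ 2 := fun i => by
    rw [Gt_quad h.loc (fderiv_fun_mul (hf.differentiable two_ne_zero z.1)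
      ((hΘ.smooth i).differentiable two_ne_zero z.1))]
    ring
  have h5 := mul_le_mul_of_nonneg_left hz (sq_nonneg (f z.1))
  simp only [e, Finset.sum_add_distrib, ← Finset.mul_sum, sum_zero hΘ.smooth hΘ.unit, hΘ.unit]
  linarith

end Vale.Agent.P219
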