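import Vale.Agent.P219.S.U1

/-!
# The first variation inequality

Copy the proof of `field_gen` (`G/Field`) with the sign condition only on `KB` (a point with `qq y 0 = c` lies in `KB`), for `F y = φ y * σ y`, `σ y = 2 * deriv W (qq p y)` (`exists_ser`; `σ = sn r / r` for `y ≠ p`, `σ p = 1`,
`σ ≥ 0`).  Then `F (r ca) = φ * wn` (`fderiv_uu`).  Pointwise for unit `ν`, `y ≠ p`: near `y`, `σ = sn r / r`, so `dσ k = (cs r / r - sn r / r²) ca y p k` (`field_dr`), `ca_log`, and the integrand of `field_gen` equals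
`φ (gain + m cs) + Gt φ u` (`uu_grad`, definition of `gain`), `gain_nonneg`, `cs_eq`.  For `y = p`: `hs_self`, `tdv_id`, `self`.  `NDom.integrable`, `continuous_Gt`, `integral_mono_ae`.
-/

namespace Vale.Agent.P219

open scoped ContDiff Topology RealInnerProductSpace ENNReal
open MeasureTheory Set Filter Vale.Agent.P255
open St (sn gmod)

variable {E : Type*} [NormedAddCommGroup E] [InnerProductSpace ℝ E] [FiniteDimensional ℝ E]
  [MeasurableSpace E] [BorelSpace E] {G : E → Bil E} {L : E → E → E} {K : Set E} {m : ℕ}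
  {b H₀ σ t₀ C S c : ℝ} {u : E → E → ℝ} {μ : Measure (E × E)}

omit [MeasurableSpace E] [BorelSpace E] in
theorem u2_sig (hP : Pack G L) (b : ℝ) (p : E) : ∃ s : E → ℝ, ContDiff ℝ 2 s ∧ s p = 1 ∧
    ∀ y, p ≠ y → s y = sn b (rr G L p y) * (rr G L p y)⁻¹ := by
  obtain ⟨W, hW, -, h2, h3⟩ := exists_ser b
  have hW' : ContDiff ℝ ∞ (deriv W) := (contDiff_infty_iff_deriv.1 hW).2
  refine ⟨fun y => 2 * deriv W (qq G L p y),
    (contDiff_const.mul (hW'.comp (hP.contDiff_qq1 p))).of_le chg_two, ?_, fun y hy => ?_⟩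
  · beta_reduce
    rw [← hP.rr_sq', hP.rr_self, zero_pow two_ne_zero, h3]
  · have := (hP.rr_pos hy.symm).ne'
    beta_reduce
    rw [← h2, hP.rr_sq', mul_inv_cancel_right₀ this]

omit [MeasurableSpace E] [BorelSpace E] in
theorem u2_tdv (hP : Pack G L) {F : E → ℝ} {x y : E} {F' : E →L[ℝ] ℝ} (h1 : HasFDerivAt F F' y)
    (ν : E) : tdv (G y) (covD G (fun y => F y • -L y x) y) ν =
      F y * tdv (G y) (hs G L x y) ν - F' (L y x) - F' ν * (rr G L x y * ca G L y x ν) := by
  have hL : ContDiff ℝ 2 fun y => -L y x :=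
    ((hP.smooth.of_le chg_two).comp (contDiff_id.prodMk contDiff_const)).neg
  rw [covD_smul h1 (hL.differentiable two_ne_zero y), tdv_add, tdv_smul, tdv_smulRight,
    map_neg, map_neg, neg_apply, (posB_of_loc hP.loc y).1 (L y x), field_ca hP, hs]
  ring

theorem u2_point (hE : Module.finrank ℝ E = m + 1) (hP : PackK b G L) {p : E} {s φ : E → ℝ}
    (hs2 : ContDiff ℝ 2 s) (hs1 : s p = 1)
    (hs3 : ∀ y, p ≠ y → s y = sn b (rr G L p y) * (rr G L p y)⁻¹) (hφ : ContDiff ℝ 2 φ)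
    {y ν : E} (h0 : 0 ≤ φ y) (hν : G y ν ν = 1) :
    m * (1 + b ^ 2 * uu b G L p y) * φ y + Gt G φ (uu b G L p) (y, ν) ≤
      tdv (G y) (covD G (fun y => (φ y * s y) • -L y p) y) ν := by
  have hQ := hP.toPack
  have hφ' := (hφ.differentiable two_ne_zero y).hasFDerivAt
  simp only [Gt, hQ.uu_grad, hQ.fderiv_uu]
  rcases eq_or_ne p y with rfl | hy
  · rw [u2_tdv hQ (hφ'.fun_mul (hs2.differentiable two_ne_zero p).hasFDerivAt), hQ.hs_self,
      tdv_id hE hν, hQ.self, hQ.rr_self, hQ.uu_self, hs1, sn_zero]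
    simp [mul_comm]
  · obtain ⟨R', h1, h2⟩ := field_dr hQ hy
    have hr := (hQ.rr_pos hy.symm).ne'
    have h3 : s =ᶠ[𝓝 y] fun y => sn b (rr G L p y) * (rr G L p y)⁻¹ :=
      (eventually_ne_nhds hy.symm).mono fun z hz => hs3 z hz.symm
    have h4 := (((hasDerivAt_sn b _).comp_hasFDerivAt y h1).mul
      ((hasDerivAt_inv hr).comp_hasFDerivAt y h1)).congr_of_eventuallyEq h3
    have h5 := mul_nonneg h0 (hP.gain_nonneg hE hy hν)
    rw [u2_tdv hQ (hφ'.fun_mul h4), uu, ← cs_eq, ← sub_nonneg]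
    refine h5.trans_eq ?_
    simp only [add_apply, smul_apply, smul_eq_mul, h2, hQ.ca_log, hQ.rr_symm y p,
      Function.comp_apply, gain, hs3 y hy]
    field_simp
    ring

theorem PackK.uu_fv (hE : Module.finrank ℝ E = m + 1) (hP : PackK b G L) {D : NDom G (KB G L c)}
    (hD : NDom.Stat L c D (m * H₀)) {p : E} (hp : p ∈ KB G L c) {φ : E → ℝ} (hφ : ContDiff ℝ 2 φ)
    (h0 : ∀ y ∈ KB G L c, 0 ≤ φ y) : 0 ≤ Tf m b H₀ G D.μ (uu b G L p) φ := by
  have hQ := hP.toPack
  obtain ⟨s, hs2, hs1, hs3⟩ := u2_sig hQ b p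
  have hs0 : ∀ y, 0 ≤ s y := fun y => by
    rcases eq_or_ne p y with rfl | hy
    · rw [hs1]
      exact zero_le_one
    · have hr := hQ.rr_pos hy.symm
      rw [hs3 y hy]
      exact (mul_pos (sn_pos b hr) (inv_pos.2 hr)).le
  have hL : ContDiff ℝ 2 fun y => -L y p :=
    ((hQ.smooth.of_le chg_two).comp (contDiff_id.prodMk contDiff_const)).neg
  have hZ : ContDiff ℝ 2 fun y => (φ y * s y) • -L y p := (hφ.mul hs2).smul hL
  have hu : ContDiff ℝ 2 (uu b G L p) := (hQ.contDiff_ww1 b p).of_le chg_two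
  have h := hD _ hZ fun y hy => by
    rw [map_smul, map_neg, smul_eq_mul, mul_neg, neg_nonpos]
    exact mul_nonneg (mul_nonneg (h0 y hy.le) (hs0 y)) (hQ.outward hy hp)
  have e2 : (fun z : E × E => G z.1 z.2 ((φ z.1 * s z.1) • -L z.1 p)) =
      fun z => φ z.1 * wn (uu b G L p) z := by
    funext z
    rw [map_smul, map_neg, field_ca hQ, neg_neg, smul_eq_mul, wn, hQ.fderiv_uu]
    rcases eq_or_ne p z.1 with hy | hy
    · rw [← hy, hQ.rr_self, sn_zero]
      simp
    · have hr := (hQ.rr_pos hy.symm).ne'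
      rw [hs3 _ hy]
      field_simp
  rw [e2] at h
  have hK := hQ.isCompact_KB c
  have c1 : Continuous fun z : E × E => covD G (fun y => (φ y * s y) • -L y p) z.1 :=
    (continuous_covD hP.loc (hZ.of_le one_le_two)).comp continuous_fst
  have c2 : Continuous fun z : E × E =>
      tdv (G z.1) (covD G (fun y => (φ y * s y) • -L y p) z.1) z.2 :=
    (continuous_trc.comp c1).sub (cont_G hQ continuous_fst (c1.clm_apply continuous_snd)
      continuous_snd)
  have c3 : Continuous fun z : E × E =>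
      m * (1 + b ^ 2 * uu b G L p z.1) * φ z.1 + Gt G φ (uu b G L p) z :=
    ((continuous_const.mul (continuous_const.add (continuous_const.mul
      (hu.continuous.comp continuous_fst)))).mul (hφ.continuous.comp continuous_fst)).add
      (continuous_Gt hP.loc (hφ.of_le one_le_two) (hu.of_le one_le_two))
  rw [Tf, sub_nonneg]
  refine le_trans (integral_mono_ae (D.integrable hP.loc hK c3) (D.integrable hP.loc hK c2)
    (D.supp.mono fun z hz => ?_)) h
  exact u2_point (y := z.1) (ν := z.2) hE hP hs2 hs1 hs3 hφ (h0 _ hz.1) hz.2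

theorem PackK.sp0 (hE : Module.finrank ℝ E = m + 1) (hm : 3 ≤ m) (hP : PackK b G L)
    {D : NDom G (KB G L c)} (hD : NDom.Stat L c D (m * H₀)) :
    Sp0 m b H₀ G (uu b G L) (KB G L c) D.μ :=
  ⟨hm, hP.loc, hP.toPack.isCompact_KB c, D.fin, D.supp, hP.toPack.contDiff_uu b, uu_nonneg b G L,
    hP.toPack.uu_symm, hP.toPack.uu_self, hP.toPack.uu_sep (hP.toPack.isCompact_KB c),
    hP.toPack.uu_tri (hP.toPack.isCompact_KB c), hP.toPack.uu_eik,
    fun _ hp _ hφ h0 => hP.uu_fv hE hD hp hφ h0⟩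

end Vale.Agent.P219
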