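import Vale.Agent.P219.S.Base

/-!
# The Green potential  (TASK)

`ug`: with `U` from `u_le`, for `s ∈ [t, t₁]`: `√(v (2 + b² v)) k^(m-2) / (v + s)^m ≤ √(2 + b² U) / √s * (k^(m-2) / (v + s)^(m-1))`.  Bound the set integral by the full integral, swap
(`intervalIntegral_integral_swap` or `integral_integral_swap`), `ud`, `∫ s in t..t₁, 1 / √s ≤ 2 √t₁`.
`swap`: `|Gt g (u y) x| ≤ √(Gt g g x) √(u (2 + b² u))` (`Gt_abs_le`, `Gt_u_le`), `symm`, `integral_integral_swap` with `integrable_prod`, `continuous_grn`, `continuous_Gt_par`.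
-/

namespace Vale.Agent.P219

open scoped ContDiff Topology RealInnerProductSpace ENNReal
open MeasureTheory Set Filter Vale.Agent.P255
open St (sn gmod)

variable {E : Type*} [NormedAddCommGroup E] [InnerProductSpace ℝ E] [FiniteDimensional ℝ E]
  [MeasurableSpace E] [BorelSpace E] {G : E → Bil E} {L : E → E → E} {K : Set E} {m : ℕ}
  {b H₀ σ t₀ C S c : ℝ} {u : E → E → ℝ} {μ : Measure (E × E)}

theorem Ug_cont {X : Type*} [TopologicalSpace X] {w : X → ℝ} (hw : Continuous w)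
    (h0 : ∀ x, 0 ≤ w x) {t t₁ : ℝ} (ht : 0 < t) (htt : t ≤ t₁) :
    Continuous fun x => √(w x * (2 + b ^ 2 * w x)) * grn m b t t₁ (w x) :=
  Continuous.mul (by fun_prop) (continuous_grn hw h0 ht htt)

theorem Ug_pt (hm : 3 ≤ m) {v U s : ℝ} (hv : 0 ≤ v) (hU : v ≤ U) (hs : 0 < s) :
    √(v * (2 + b ^ 2 * v)) * (kk b s ^ (m - 2) / (v + s) ^ m) ≤
      √(2 + b ^ 2 * U) * (√s)⁻¹ * (kk b s ^ (m - 2) / (v + s) ^ (m - 1)) := by
  have h1 : 0 < v + s := by linarith
  have h2 : 0 < √s := Real.sqrt_pos.2 hs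
  have h3 : √(v * (2 + b ^ 2 * v)) * √s ≤ √(2 + b ^ 2 * U) * (v + s) := by
    rw [← Real.sqrt_mul (by positivity), ← Real.sqrt_sq h1.le,
      ← Real.sqrt_mul (by have := hv.trans hU; positivity)]
    refine Real.sqrt_le_sqrt ?_
    have h4 : 2 + b ^ 2 * v ≤ 2 + b ^ 2 * U := by gcongr
    have h5 : v * s ≤ (v + s) ^ 2 := by nlinarith
    have h6 := mul_le_mul h4 h5 (by positivity) (by have := hv.trans hU; positivity)
    linear_combination h6
  have h4 : √(v * (2 + b ^ 2 * v)) / (v + s) ≤ √(2 + b ^ 2 * U) * (√s)⁻¹ := by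
    rwa [← div_eq_mul_inv, div_le_div_iff₀ h1 h2]
  have h5 := mul_le_mul_of_nonneg_right h4 (div_nonneg (pow_nonneg (kk_nonneg b s) (m - 2))
    (pow_nonneg h1.le (m - 1)))
  refine le_of_eq_of_le ?_ h5
  rw [show (v + s) ^ m = (v + s) ^ (m - 1) * (v + s) by rw [← pow_succ, Nat.sub_add_cancel (by omega)]]
  field_simp

theorem Ug_sqrt {t t₁ : ℝ} (ht : 0 < t) (htt : t ≤ t₁) :
    IntervalIntegrable (fun s => (√s)⁻¹) volume t t₁ ∧ ∫ s in t..t₁, (√s)⁻¹ ≤ 2 * √t₁ := by
  have h1 : IntervalIntegrable (fun s => (√s)⁻¹) volume t t₁ :=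
    (Real.continuous_sqrt.continuousOn.inv₀ fun s hs =>
      (Real.sqrt_pos.2 (ht.trans_le hs.1)).ne').intervalIntegrable_of_Icc htt
  refine ⟨h1, ?_⟩
  rw [intervalIntegral.integral_eq_sub_of_hasDerivAt (f := fun s => 2 * √s) (fun s hs => ?_) h1]
  · linarith [Real.sqrt_nonneg t]
  · rw [uIcc_of_le htt] at hs
    have h2 := (Real.hasDerivAt_sqrt (ht.trans_le hs.1).ne').const_mul 2
    rwa [show 2 * (1 / (2 * √s)) = (√s)⁻¹ by ring] at h2

theorem Sp0.continuous_Kav (h : Sp0 m b H₀ G u K μ) (T : Set (E × E)) {t t₁ : ℝ} (ht : 0 < t)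
    (htt : t ≤ t₁) : Continuous (Kav m b μ u T t t₁) :=
  h.continuous_int T (Ug_cont (w := fun w : E × (E × E) => u w.1 w.2.1)
    (h.cont.comp (continuous_fst.prodMk continuous_snd.fst)) (fun _ => h.nonneg _ _) ht htt)

theorem Sp1.ug (h : Sp1 m b H₀ G u K μ t₀ C) : ∃ C' : ℝ, 0 < C' ∧ ∀ (T : Set (E × E)), ∀ x ∈ K,
    ∀ t t₁ : ℝ, 0 < t → t ≤ t₁ → t₁ ≤ t₀ → Kav m b μ u T t t₁ x ≤ C' * √t₁ := by
  have := h.fin
  obtain ⟨U, hU0, hU⟩ := h.toSp0.u_le
  have hC := h.C_pos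
  have hA : 0 < √(2 + b ^ 2 * U) := by positivity
  refine ⟨√(2 + b ^ 2 * U) * C * 2, by positivity, fun T x hx t t₁ ht htt h1 => ?_⟩
  have hu : Continuous fun z : E × E => u x z.1 :=
    h.toSp0.cont.comp (continuous_const.prodMk continuous_fst)
  have hW := h.toSp0.integrable (Ug_cont (m := m) (b := b) hu (fun _ => h.nonneg _ _) ht htt)
  obtain ⟨c, hc, hc1, hc2⟩ : ∃ c : ℝ → ℝ, Continuous c ∧ (∀ s, t ≤ c s ∧ c s ≤ t₁) ∧
      ∀ s ∈ Icc t t₁, c s = s := ⟨fun s => max t (min s t₁), by fun_prop,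
    fun s => ⟨le_max_left _ _, max_le htt (min_le_right _ _)⟩,
    fun s hs => (congrArg (max t) (min_eq_left hs.2)).trans (max_eq_right hs.1)⟩
  have hc0 : ∀ s, 0 < c s := fun s => ht.trans_le (hc1 s).1
  obtain ⟨F, hF⟩ : ∃ F : ℝ → E × E → ℝ, ∀ s z, F s z = √(2 + b ^ 2 * U) * (√(c s))⁻¹ *
    (kk b (c s) ^ (m - 2) / (u x z.1 + c s) ^ (m - 1)) := ⟨_, fun _ _ => rfl⟩
  have hR : ∀ s (z : E × E), 0 < u x z.1 + c s := fun s z =>
    add_pos_of_nonneg_of_pos (h.nonneg _ _) (hc0 s)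
  have hFc : Continuous (Function.uncurry F) := by
    have e : Function.uncurry F = fun w : ℝ × (E × E) => √(2 + b ^ 2 * U) * (√(c w.1))⁻¹ *
      (kk b (c w.1) ^ (m - 2) / (u x w.2.1 + c w.1) ^ (m - 1)) := funext fun w => hF _ _
    rw [e]
    exact (continuous_const.mul ((hc.comp continuous_fst).sqrt.inv₀ fun w =>
      (Real.sqrt_pos.2 (hc0 _)).ne')).mul
      ((((continuous_kk b).comp (hc.comp continuous_fst)).pow _).div
        (((hu.comp continuous_snd).add (hc.comp continuous_fst)).pow _)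
        fun w => (pow_pos (hR _ _) _).ne')
  have hFi : Integrable (Function.uncurry F) ((volume.restrict (Ioc t t₁)).prod μ) := by
    refine Integrable.of_bound hFc.aestronglyMeasurable
      (√(2 + b ^ 2 * U) * (√t)⁻¹ * (√(2 * t₁) ^ (m - 2) / t ^ (m - 1)))
      (Eventually.of_forall fun w => ?_)
    have h2 := kk_nonneg b (c w.1)
    have h3 := hR w.1 w.2
    have h4 : kk b (c w.1) ≤ √(2 * t₁) :=
      (kk_le (hc0 _).le).trans (Real.sqrt_le_sqrt (by linarith [(hc1 w.1).2]))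
    have h5 : t ≤ u x w.2.1 + c w.1 := le_add_of_nonneg_of_le (h.nonneg _ _) (hc1 _).1
    have h6 := (hc1 w.1).1
    rw [Function.uncurry, hF, Real.norm_of_nonneg (by positivity)]
    gcongr
  have h2 : ∫ z, √(u x z.1 * (2 + b ^ 2 * u x z.1)) * grn m b t t₁ (u x z.1) ∂μ ≤
      ∫ z, (∫ s in Ioc t t₁, F s z) ∂μ := by
    refine integral_mono_ae hW hFi.integral_prod_right ?_
    filter_upwards [h.toSp0.ae_mem] with z hz
    rw [grn, ← intervalIntegral.integral_const_mul, ← intervalIntegral.integral_of_le htt]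
    refine intervalIntegral.integral_mono_on htt (ContinuousOn.intervalIntegrable_of_Icc htt ?_)
      ((hFc.comp (continuous_id.prodMk continuous_const)).intervalIntegrable _ _) fun s hs => ?_
    · exact continuousOn_const.mul (((continuous_kk b).pow _).continuousOn.div (by fun_prop)
        fun s hs => (pow_pos (add_pos_of_nonneg_of_pos (h.nonneg _ _) (ht.trans_le hs.1)) _).ne')
    · rw [hF, hc2 s hs]
      exact Ug_pt h.three (h.nonneg _ _) (hU x hx _ hz.1) (ht.trans_le hs.1)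
  rw [← integral_integral_swap hFi] at h2
  obtain ⟨h3, h4⟩ := Ug_sqrt ht htt
  have h5 : ∫ s in Ioc t t₁, ∫ z, F s z ∂μ ≤
      ∫ s in Ioc t t₁, √(2 + b ^ 2 * U) * C * (√s)⁻¹ := by
    refine setIntegral_mono_on hFi.integral_prod_left (h3.const_mul _).1 measurableSet_Ioc
      fun s hs => ?_
    have h6 := h.ud x hx s (ht.trans hs.1) (hs.2.trans h1)
    simp only [hF, hc2 s (Ioc_subset_Icc_self hs)]
    rw [integral_const_mul, mul_right_comm _ C]
    exact mul_le_mul_of_nonneg_left h6 (by positivity)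
  rw [← intervalIntegral.integral_of_le htt (f := fun s => √(2 + b ^ 2 * U) * C * (√s)⁻¹),
    intervalIntegral.integral_const_mul] at h5
  have h6 := setIntegral_le_integral (s := T) hW (Eventually.of_forall fun z =>
    mul_nonneg (Real.sqrt_nonneg _) (grn_nonneg ht htt (h.nonneg _ _)))
  have h7 := mul_le_mul_of_nonneg_left h4 (mul_pos hA hC).le
  unfold Kav
  linarith

theorem Sp0.swap (h : Sp0 m b H₀ G u K μ) {g : E → ℝ} (hg : ContDiff ℝ 2 g) (T : Set (E × E))
    {t t₁ : ℝ} (ht : 0 < t) (htt : t ≤ t₁) :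
    Er m b G μ u g T t t₁ ≤ ∫ x, √(Gt G g g x) * Kav m b μ u T t t₁ x.1 ∂μ := by
  have := h.fin
  have hg1 : ContDiff ℝ 1 g := hg.of_le (by norm_num)
  have hu : Continuous fun w : (E × E) × (E × E) => u w.1.1 w.2.1 :=
    h.cont.comp (continuous_fst.fst.prodMk continuous_snd.fst)
  have hu' : Continuous fun w : (E × E) × (E × E) => u w.2.1 w.1.1 :=
    h.cont.comp (continuous_snd.fst.prodMk continuous_fst.fst)
  have c1 : Continuous fun w : (E × E) × (E × E) =>
      |Gt G g (u w.1.1) w.2| * grn m b t t₁ (u w.1.1 w.2.1) :=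
    ((continuous_Gt_par h.loc hg1 (h.smooth.of_le (by norm_num))).comp
      (continuous_fst.fst.prodMk continuous_snd)).abs.mul
      (continuous_grn hu (fun _ => h.nonneg _ _) ht htt)
  have c2 : Continuous fun w : (E × E) × (E × E) => √(Gt G g g w.2) *
      (√(u w.2.1 w.1.1 * (2 + b ^ 2 * u w.2.1 w.1.1)) * grn m b t t₁ (u w.2.1 w.1.1)) :=
    ((continuous_Gt h.loc hg1 hg1).comp continuous_snd).sqrt.mul
      (Ug_cont hu' (fun _ => h.nonneg _ _) ht htt)
  have i1 := h.integrable_prod T c1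
  have i2 := h.integrable_prod T c2
  have h1 := integral_integral_swap (f := fun z x : E × E => √(Gt G g g x) *
      (√(u x.1 z.1 * (2 + b ^ 2 * u x.1 z.1)) * grn m b t t₁ (u x.1 z.1))) i2
  simp only [integral_const_mul] at h1
  refine le_of_le_of_eq (integral_mono i1.integral_prod_left i2.integral_prod_left fun z => ?_) h1
  refine integral_mono_ae (h.integrable (c1.comp (continuous_const.prodMk continuous_id)))
    (h.integrable (c2.comp (continuous_const.prodMk continuous_id))) ?_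
  filter_upwards [h.ae_mem] with x hx
  rw [h.symm x.1 z.1, ← mul_assoc]
  refine mul_le_mul_of_nonneg_right ((Gt_abs_le h.loc _ _ hx.2).trans ?_)
    (grn_nonneg ht htt (h.nonneg _ _))
  exact mul_le_mul_of_nonneg_left (Real.sqrt_le_sqrt (h.Gt_u_le z.1 x)) (Real.sqrt_nonneg _)

end Vale.Agent.P219
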