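import Vale.Agent.P219.S.U1
import Vale.Agent.P219.S.Kk
import Vale.Agent.P219.S.I1

/-!
# The main term of the upper bound

Fix a small `l'`.  By uniform continuity on `K ×ˢ K` (`dist_uc`, `continuous_jac'`, `cont_D`, `fderiv_self`, `dist_cmp`, `tendsto_sn_div`) there is `δ` such that for `x, y ∈ K` with `r = rr y x ≤ δ`: `wt (G x) ≤ (1 + l') jac y x`,
`G y ζ ζ ≤ l'²` for `ζ = fderiv (L y) x (Z x) - Z y`, and `sn r ≤ (1 + l') r`.  With `P` from `Pack.chg y`, `v = P (L y x)`, `‖v‖ = r`, `e = -P (Z y)`, `‖e‖ ≤ 1`: by `fderiv_uu`, `mixed`, `radial`,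
`-du (Z x) = -(sn r / r) G y (L y x) (fderiv (L y) x (Z x)) ≤ (1 + l') (max ⟪e, v⟫ 0 + l' ‖v‖)`; also `k ≤ √(2t)`, `R ≥ r² / 2 + t`.  So on `T ∩ {r ≤ δ}` the integrand is at most `(1 + l')² jac * f v`
with `f` the integrand of `i1`; change variables (`chg`), `setIntegral_le_integral`.  On `T ∩ {δ < r}` the integrand is at most `C √(2t)^m` (`|du (Z x)| ≤ sn r`, bounded; `R ≥ δ² / 2`).
-/

namespace Vale.Agent.P219

open scoped ContDiff Topology RealInnerProductSpace ENNReal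
open MeasureTheory Set Filter Vale.Agent.P255
open St (sn gmod)

variable {E : Type*} [NormedAddCommGroup E] [InnerProductSpace ℝ E] [FiniteDimensional ℝ E]
  [MeasurableSpace E] [BorelSpace E] {G : E → Bil E} {L : E → E → E} {K : Set E} {m : ℕ}
  {b H₀ σ t₀ C S c : ℝ} {u : E → E → ℝ} {μ : Measure (E × E)}

omit [MeasurableSpace E] [BorelSpace E] in
theorem up1_uc (hP : Pack G L) (hK : IsCompact K) {F : E × E → ℝ} (hF : Continuous F)
    (h0 : ∀ y ∈ K, F (y, y) < 0) :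
    ∃ δ : ℝ, 0 < δ ∧ ∀ y ∈ K, ∀ x ∈ K, rr G L y x ≤ δ → F (y, x) < 0 := by
  obtain ⟨a, ha, h1⟩ := ((hK.prod hK).inter_right
    (isClosed_le continuous_const hF : IsClosed {z | 0 ≤ F z})).exists_forall_le'
    hP.continuous_rr.continuousOn (a := 0) fun z hz => hP.rr_pos fun h => by
      have h2 := h0 z.1 hz.1.1
      have h3 : 0 ≤ F z := hz.2
      rw [show z = (z.1, z.1) from Prod.ext rfl h] at h3
      linarith
  refine ⟨a / 2, half_pos ha, fun y hy x hx h => lt_of_not_ge fun h2 => ?_⟩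
  have h3 : a ≤ rr G L y x := h1 (y, x) ⟨⟨hy, hx⟩, h2⟩
  linarith

theorem up1_near (hP : Pack G L) {y x ξ η : E} {P : E ≃L[ℝ] E} (hG : ∀ u v, G y u v = ⟪P u, P v⟫)
    {l : ℝ} (hl : 0 < l) (h1 : cs b (rr G L y x) - (1 + l) < 0)
    (h2 : G y (fderiv ℝ (L y) x ξ - η) (fderiv ℝ (L y) x ξ - η) - l ^ 2 < 0) :
    -fderiv ℝ (uu b G L y) x ξ ≤ (1 + l) * (max ⟪-P η, P (L y x)⟫ 0 + l * ‖P (L y x)‖) := by
  have hr := rr_nonneg G L y x
  have e1 : G x ξ (L x y) = -⟪P (fderiv ℝ (L y) x ξ), P (L y x)⟫ := by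
    rw [← hG, hP.mixed, hP.radial, (posB_of_loc hP.loc x).1 ξ]
    simp
  have e2 : ‖P (fderiv ℝ (L y) x ξ) - P η‖ ≤ l := by
    rw [hG, real_inner_self_eq_norm_sq, map_sub] at h2
    exact (abs_le_of_sq_le_sq' (by linarith) hl.le).2
  have e3 : G x ξ (L x y) ≤ max ⟪-P η, P (L y x)⟫ 0 + l * ‖P (L y x)‖ := by
    have h3 := abs_real_inner_le_norm (P (fderiv ℝ (L y) x ξ) - P η) (P (L y x))
    have h4 := mul_le_mul_of_nonneg_right e2 (norm_nonneg (P (L y x)))
    have h5 := le_max_left ⟪-P η, P (L y x)⟫ (0 : ℝ)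
    rw [inner_sub_left] at h3
    rw [inner_neg_left] at h5 ⊢
    rw [e1]
    linarith [(abs_le.1 h3).1]
  have e4 : sn b (rr G L y x) / rr G L y x ≤ 1 + l :=
    div_le_of_le_mul₀ hr (by positivity) ((sn_le b hr).trans (by nlinarith))
  have e5 : 0 ≤ sn b (rr G L y x) / rr G L y x := div_nonneg (hr.trans (le_sn b hr)) hr
  have e6 : -fderiv ℝ (uu b G L y) x ξ = sn b (rr G L y x) / rr G L y x * G x ξ (L x y) := by
    rw [hP.fderiv_uu, ca, hP.rr_symm x y]
    ring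
  rw [e6]
  exact (mul_le_mul_of_nonneg_left e3 e5).trans (mul_le_mul_of_nonneg_right e4 (by positivity))

theorem up1_far (hP : Pack G L) {y x ξ : E} (h : G x ξ ξ ≤ 1) :
    -fderiv ℝ (uu b G L y) x ξ ≤ sn b (rr G L y x) := by
  have hr := rr_nonneg G L y x
  have h1 := (abs_le_of_sq_le_sq' (b := 1) ((hP.ca_sq_le x y ξ).trans (by simpa using h))
    zero_le_one).1
  rw [hP.fderiv_uu]
  nlinarith [hr.trans (le_sn b hr)]

theorem up1_coef {t r ρ : ℝ} (ht : 0 < t) (h : ρ ≤ r ^ 2 / 2 + t) (hρ : 0 < ρ) :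
    m * kk b t ^ m / (ww b r + t) ^ (m + 1) ≤ m * √(2 * t) ^ m / ρ ^ (m + 1) := by
  have h1 := kk_le (b := b) ht.le
  have h2 : 0 ≤ kk b t := Real.sqrt_nonneg _
  have h3 : ρ ≤ ww b r + t := by linarith [le_ww b r]
  gcongr

theorem Pack.up1 (hE : Module.finrank ℝ E = m + 1) (hm : 1 ≤ m) (hP : Pack G L) (hK : IsCompact K)
    {Z : E → E} (hZ : Continuous Z) (h1 : ∀ y ∈ K, G y (Z y) (Z y) ≤ 1) {l : ℝ} (hl : 0 < l) :
    ∃ t₁ : ℝ, 0 < t₁ ∧ ∀ t : ℝ, 0 < t → t ≤ t₁ → ∀ y ∈ K, ∀ T : Set E, MeasurableSet T → T ⊆ K →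
      ∫ x in T, m * kk b t ^ m / (uu b G L y x + t) ^ (m + 1) *
        -fderiv ℝ (uu b G L y) x (Z x) * wt (G x) ≤ (m + 1) * om E + l := by
  obtain ⟨J, hJ, hI⟩ := i1 hE hm
  have hw := (contDiff_wt hP.loc).continuous
  have hwp : ∀ y, 0 < wt (G y) := fun y => wt_pos (posB_of_loc hP.loc y)
  obtain ⟨a, ha1, ha⟩ : ∃ a : ℝ, (1 + a) ^ 2 * ((m + 1) * om E + a * J) < (m + 1) * om E + l / 2 ∧
      0 < a := by
    have h : Continuous fun a : ℝ => (1 + a) ^ 2 * ((m + 1) * om E + a * J) := by fun_prop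
    have h2 := (h.tendsto 0).eventually_lt_const (u := (m + 1) * om E + l / 2) (by simpa using hl)
    exact ((h2.filter_mono nhdsWithin_le_nhds).and (self_mem_nhdsWithin (s := Ioi 0))).exists
  obtain ⟨δ₁, hδ₁, k1⟩ := up1_uc hP hK (F := fun z => wt (G z.2) - (1 + a) * jac G L z.1 z.2)
    ((hw.comp continuous_snd).sub (continuous_const.mul hP.continuous_jac')) fun y _ => by
      have := mul_pos ha (hwp y)
      simp only [jac, hP.fderiv_self]
      rw [show (ContinuousLinearMap.id ℝ E).det = 1 from LinearMap.det_id, abs_one]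
      linarith
  have hζ : Continuous fun z : E × E => fderiv ℝ (L z.1) z.2 (Z z.2) - Z z.1 :=
    ((cont_D hP continuous_fst continuous_snd).clm_apply (hZ.comp continuous_snd)).sub
      (hZ.comp continuous_fst)
  obtain ⟨δ₂, hδ₂, k2⟩ := up1_uc hP hK (F := fun z => G z.1 (fderiv ℝ (L z.1) z.2 (Z z.2) - Z z.1)
    (fderiv ℝ (L z.1) z.2 (Z z.2) - Z z.1) - a ^ 2)
    ((cont_G hP continuous_fst hζ hζ).sub continuous_const) fun y _ => by
      simpa [hP.fderiv_self] using pow_pos ha 2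
  obtain ⟨δ₃, hδ₃, k3⟩ := up1_uc hP hK (F := fun z => cs b (rr G L z.1 z.2) - (1 + a))
    ((cont_cs hP continuous_fst continuous_snd).sub continuous_const) fun y _ => by
      simp [hP.rr_self, cs_zero, ha]
  obtain ⟨δ, hδ, hd1, hd2, hd3⟩ : ∃ δ : ℝ, 0 < δ ∧ δ ≤ δ₁ ∧ δ ≤ δ₂ ∧ δ ≤ δ₃ :=
    ⟨min δ₁ (min δ₂ δ₃), by positivity, min_le_left _ _, (min_le_right _ _).trans (min_le_left _ _),
      (min_le_right _ _).trans (min_le_right _ _)⟩
  obtain ⟨M₀, hM₀⟩ := (hK.prod hK).exists_bound_of_continuousOn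
    (f := fun z : E × E => sn b (rr G L z.1 z.2) * wt (G z.2))
    ((cont_sn hP continuous_fst continuous_snd).mul (hw.comp continuous_snd)).continuousOn
  obtain ⟨M, hM0, hM⟩ : ∃ M : ℝ, 0 ≤ M ∧ ∀ y ∈ K, ∀ x ∈ K, sn b (rr G L y x) * wt (G x) ≤ M :=
    ⟨max M₀ 0, le_max_right _ _, fun y hy x hx =>
      ((le_abs_self _).trans (hM₀ (y, x) ⟨hy, hx⟩)).trans (le_max_left _ _)⟩
  obtain ⟨t₁, ht1, ht₁⟩ : ∃ t : ℝ,
      volume.real K * (m * √(2 * t) ^ m / (δ ^ 2 / 2) ^ (m + 1) * M) < l / 2 ∧ 0 < t := by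
    have h : Continuous fun t : ℝ =>
      volume.real K * (m * √(2 * t) ^ m / (δ ^ 2 / 2) ^ (m + 1) * M) := by fun_prop
    have h2 := (h.tendsto 0).eventually_lt_const (u := l / 2) (by
      simpa [zero_pow (show m ≠ 0 by omega)] using hl)
    exact ((h2.filter_mono nhdsWithin_le_nhds).and (self_mem_nhdsWithin (s := Ioi 0))).exists
  refine ⟨t₁, ht₁, fun t ht htt y hy T hT hTK => ?_⟩
  obtain ⟨P, hG, -, hc⟩ := hP.chg y
  have he : ‖-P (Z y)‖ ≤ 1 := by
    have h := h1 y hy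
    rw [hG, real_inner_self_eq_norm_sq] at h
    rw [norm_neg]
    exact (abs_le_of_sq_le_sq' (by simpa using h) zero_le_one).2
  obtain ⟨hi, hb⟩ := hI t ht a ha.le _ he
  set f : E → ℝ := fun v => m * √(2 * t) ^ m / (‖v‖ ^ 2 / 2 + t) ^ (m + 1) *
    (max ⟪-P (Z y), v⟫ 0 + a * ‖v‖) with hf
  have hf0 : ∀ v, 0 ≤ f v := fun v => by
    simp only [hf]
    positivity
  obtain ⟨hc1, hc2⟩ := hc T hT f
  have hj := hc2.1 hi.integrableOn
  have hv : volume T ≠ ⊤ := ((measure_mono hTK).trans_lt hK.measure_lt_top).ne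
  set c : ℝ := m * √(2 * t) ^ m / (δ ^ 2 / 2) ^ (m + 1) * M with hcd
  have hc0 : 0 ≤ c := by positivity
  have hnn : 0 ≤ (m + 1) * om E + l := by
    have := om_pos (E := E)
    positivity
  by_cases hint : IntegrableOn (fun x => m * kk b t ^ m / (uu b G L y x + t) ^ (m + 1) *
    -fderiv ℝ (uu b G L y) x (Z x) * wt (G x)) T
  swap
  · rw [integral_undef hint]
    exact hnn
  have hpt : ∀ x ∈ T, m * kk b t ^ m / (uu b G L y x + t) ^ (m + 1) *
      -fderiv ℝ (uu b G L y) x (Z x) * wt (G x) ≤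
      (1 + a) ^ 2 * (wt (G y) * |(fderiv ℝ (L y) x).det| * f (P (L y x))) + c := fun x hx => by
    have hx' := hTK hx
    have hA : 0 ≤ m * kk b t ^ m / (uu b G L y x + t) ^ (m + 1) := by
      have := uu_nonneg b G L y x
      have : 0 ≤ kk b t := Real.sqrt_nonneg _
      positivity
    have hn : ‖P (L y x)‖ = rr G L y x := by
      rw [rr, qq, hG, real_inner_self_eq_norm_sq, Real.sqrt_sq (norm_nonneg _)]
    rcases le_total (rr G L y x) δ with h | h
    · have j1 := k1 y hy x hx' (h.trans hd1)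
      have j2 := up1_near (b := b) hP hG ha (k3 y hy x hx' (h.trans hd3)) (k2 y hy x hx' (h.trans hd2))
      have j3 := up1_coef (m := m) (b := b) (r := rr G L y x) ht le_rfl (by positivity)
      have j4 : wt (G x) ≤ (1 + a) * (wt (G y) * |(fderiv ℝ (L y) x).det|) := by
        simp only [jac] at j1
        linarith
      have j5 := (hwp x).le
      refine le_add_of_le_of_nonneg ?_ hc0
      calc _ ≤ m * kk b t ^ m / (uu b G L y x + t) ^ (m + 1) *
            ((1 + a) * (max ⟪-P (Z y), P (L y x)⟫ 0 + a * ‖P (L y x)‖)) * wt (G x) :=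
            mul_le_mul_of_nonneg_right (mul_le_mul_of_nonneg_left j2 hA) j5
        _ ≤ m * √(2 * t) ^ m / (rr G L y x ^ 2 / 2 + t) ^ (m + 1) *
            ((1 + a) * (max ⟪-P (Z y), P (L y x)⟫ 0 + a * ‖P (L y x)‖)) *
            ((1 + a) * (wt (G y) * |(fderiv ℝ (L y) x).det|)) :=
            mul_le_mul (mul_le_mul_of_nonneg_right j3 (by positivity)) j4 j5 (by positivity)
        _ = _ := by
            simp only [hf, hn]
            ring
    · have j1 := up1_far (b := b) (y := y) hP (h1 x hx')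
      have j3 := up1_coef (m := m) (b := b) (r := rr G L y x) (ρ := δ ^ 2 / 2) ht
        (by nlinarith) (by positivity)
      have j4 := hM y hy x hx'
      have j5 := (hwp x).le
      have j6 := (hwp y).le
      have j7 := hf0 (P (L y x))
      refine le_add_of_nonneg_of_le (by positivity) ?_
      rw [mul_assoc]
      exact (mul_le_mul_of_nonneg_left ((mul_le_mul_of_nonneg_right j1 j5).trans j4) hA).trans
        (mul_le_mul_of_nonneg_right j3 hM0)
  have hcc : IntegrableOn (fun _ : E => c) T := integrableOn_const hv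
  have h2 := setIntegral_mono_on hint ((hj.const_mul _).add hcc) hT hpt
  rw [integral_add' (hj.const_mul _) hcc, integral_const_mul, ← hc1, setIntegral_const,
    smul_eq_mul] at h2
  have h3 : ∫ v in (fun x => P (L y x)) '' T, f v ≤ (m + 1) * om E + a * J :=
    (setIntegral_le_integral hi (Eventually.of_forall hf0)).trans hb
  have h4 : volume.real T * c ≤ volume.real K * (m * √(2 * t₁) ^ m / (δ ^ 2 / 2) ^ (m + 1) * M) := by
    have : volume.real T ≤ volume.real K := measureReal_mono hTK hK.measure_lt_top.ne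
    rw [hcd]
    gcongr
  have h5 := mul_le_mul_of_nonneg_left h3 (sq_nonneg (1 + a))
  linarith

end Vale.Agent.P219
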