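import Vale.Agent.P219.G.PackL
import Vale.Agent.P219.G.Sn

/-!
# `ww` and `sn r / r` are smooth functions of the squared distance
-/

namespace Vale.Agent.P219

open scoped ContDiff Topology RealInnerProductSpace ENNReal NNReal Nat
open MeasureTheory Set Filter Vale.Agent.P255
open St (sn)

/-- The entire function with `chq (r ^ 2) = cosh r`. -/
noncomputable def chq : ℝ → ℝ :=
  (FormalMultilinearSeries.ofScalars ℝ fun n : ℕ => ((2 * n)! : ℝ)⁻¹).sum

theorem chq_radius :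
    (FormalMultilinearSeries.ofScalars ℝ fun n : ℕ => ((2 * n)! : ℝ)⁻¹).radius = ⊤ := by
  refine FormalMultilinearSeries.radius_eq_top_of_summable_norm _ fun r => ?_
  refine (Real.hasSum_cosh √r).summable.congr fun n => ?_
  rw [FormalMultilinearSeries.ofScalars_norm, pow_mul, Real.sq_sqrt (NNReal.coe_nonneg r), Real.norm_eq_abs,
    abs_of_nonneg (by positivity), div_eq_inv_mul]

theorem contDiff_chq : ContDiff ℝ ∞ chq := by
  have h := (FormalMultilinearSeries.ofScalars ℝ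
    fun n : ℕ => ((2 * n)! : ℝ)⁻¹).hasFPowerSeriesOnBall (by rw [chq_radius]; simp)
  refine contDiff_iff_contDiffAt.2 fun x => (h.analyticAt_of_mem ?_).contDiffAt
  rw [chq_radius]
  simp

theorem chq_sq (r : ℝ) : chq (r ^ 2) = Real.cosh r := by
  rw [← (Real.hasSum_cosh r).tsum_eq, chq, FormalMultilinearSeries.sum]
  refine tsum_congr fun n => ?_
  rw [FormalMultilinearSeries.ofScalars_apply_eq, smul_eq_mul, pow_mul, div_eq_inv_mul]

/-- `ww` as a function of the squared radius. -/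
noncomputable def wq (b q : ℝ) : ℝ := if b = 0 then q / 2 else (chq (b ^ 2 * q) - 1) / b ^ 2

/-- `sn r / r` as a function of the squared radius. -/
noncomputable def sq' (b q : ℝ) : ℝ := 2 * deriv (wq b) q

theorem contDiff_wq (b : ℝ) : ContDiff ℝ ∞ (wq b) := by
  unfold wq
  split_ifs
  · exact contDiff_id.div_const _
  · exact ((contDiff_chq.comp (contDiff_const.mul contDiff_id)).sub contDiff_const).div_const _

theorem contDiff_sq' (b : ℝ) : ContDiff ℝ ∞ (sq' b) :=
  contDiff_const.mul (contDiff_infty_iff_deriv.1 (contDiff_wq b)).2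

theorem wq_sq (b r : ℝ) : wq b (r ^ 2) = ww b r := by
  unfold wq ww
  split_ifs
  · rfl
  · rw [← mul_pow, chq_sq]

theorem hasDerivAt_wq (b q : ℝ) : HasDerivAt (wq b) (sq' b q / 2) q :=
  ((contDiff_wq b).differentiable (by simp) q).hasDerivAt.congr_deriv (by rw [sq']; ring)

theorem sq'_mul (b r : ℝ) : sq' b (r ^ 2) * r = sn b r := by
  have h1 := (hasDerivAt_wq b (r ^ 2)).comp r (hasDerivAt_pow 2 r)
  have h2 : (wq b ∘ fun x : ℝ => x ^ 2) = ww b := funext fun x => wq_sq b x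
  rw [h2] at h1
  rw [← h1.unique (hasDerivAt_ww b r)]
  simp
  ring

theorem sq'_sq (b : ℝ) {r : ℝ} (hr : r ≠ 0) : sq' b (r ^ 2) = sn b r / r := by
  rw [← sq'_mul, mul_div_cancel_right₀ _ hr]

theorem sq'_zero (b : ℝ) : sq' b 0 = 1 := by
  have h1 : Tendsto (fun r : ℝ => sq' b (r ^ 2)) (𝓝[≠] 0) (𝓝 (sq' b (0 ^ 2))) :=
    (((contDiff_sq' b).continuous.comp (continuous_pow 2)).tendsto 0).mono_left nhdsWithin_le_nhds
  have h2 := (tendsto_sn_div b).congr' (f₂ := fun r : ℝ => sq' b (r ^ 2))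
    (eventually_mem_nhdsWithin.mono fun r hr => (sq'_sq b hr).symm)
  simpa using tendsto_nhds_unique h1 h2

theorem one_le_sq' (b : ℝ) {r : ℝ} (hr : 0 ≤ r) : 1 ≤ sq' b (r ^ 2) := by
  rcases hr.eq_or_lt with rfl | h
  · simp [sq'_zero]
  · rw [sq'_sq b h.ne', one_le_div h]
    exact le_sn b hr

theorem sq'_le_cs (b : ℝ) {r : ℝ} (hr : 0 ≤ r) : sq' b (r ^ 2) ≤ cs b r := by
  rcases hr.eq_or_lt with rfl | h
  · simp [sq'_zero, cs_zero]
  · rw [sq'_sq b h.ne', div_le_iff₀ h, mul_comm]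
    exact sn_le b hr

variable {E : Type*} [NormedAddCommGroup E] [InnerProductSpace ℝ E] [FiniteDimensional ℝ E]
  {G : E → Bil E} {L : E → E → E} {b : ℝ}

omit [FiniteDimensional ℝ E] in
theorem Pack.rr_sq' (hP : Pack G L) (x y : E) : rr G L x y ^ 2 = qq G L x y := by
  refine Real.sq_sqrt ?_
  rcases eq_or_ne (L x y) 0 with h | h
  · simp [qq, h]
  · exact (hP.loc.pos x (mem_univ x) _ h).le

omit [FiniteDimensional ℝ E] in
theorem Pack.ww_eq (hP : Pack G L) (b : ℝ) (x y : E) :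
    ww b (rr G L x y) = wq b (qq G L x y) := by
  rw [← hP.rr_sq', wq_sq]

omit [FiniteDimensional ℝ E] in
theorem Pack.sn_eq (hP : Pack G L) (b : ℝ) (x y : E) :
    sn b (rr G L x y) = sq' b (qq G L x y) * rr G L x y := by
  rw [← hP.rr_sq', sq'_mul]

theorem Pack.sn_div (hP : Pack G L) (b : ℝ) {x y : E} (h : x ≠ y) :
    sn b (rr G L x y) / rr G L x y = sq' b (qq G L x y) := by
  rw [← hP.rr_sq', sq'_sq b (hP.rr_pos h.symm).ne']

theorem Pack.sn_smul (hP : Pack G L) (b : ℝ) (x y : E) :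
    (sn b (rr G L x y) / rr G L x y) • L x y = sq' b (qq G L x y) • L x y ∧
      (sn b (rr G L x y) / rr G L x y) • L y x = sq' b (qq G L x y) • L y x := by
  rcases eq_or_ne x y with rfl | h
  · simp [hP.self]
  · rw [hP.sn_div b h]
    exact ⟨rfl, rfl⟩

theorem Pack.contDiff_ww2 (hP : Pack G L) (b : ℝ) :
    ContDiff ℝ ∞ fun z : E × E => ww b (rr G L z.1 z.2) := by
  simp only [hP.ww_eq]
  exact (contDiff_wq b).comp hP.contDiff_qq

theorem Pack.contDiff_cs2 (hP : Pack G L) (b : ℝ) :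
    ContDiff ℝ ∞ fun z : E × E => cs b (rr G L z.1 z.2) := by
  simp only [cs_eq]
  exact contDiff_const.add (contDiff_const.mul (hP.contDiff_ww2 b))

theorem Pack.contDiff_sq2 (hP : Pack G L) (b : ℝ) :
    ContDiff ℝ ∞ fun z : E × E => sq' b (qq G L z.1 z.2) :=
  (contDiff_sq' b).comp hP.contDiff_qq

theorem Pack.contDiff_qq1 (hP : Pack G L) (x : E) : ContDiff ℝ ∞ (qq G L x) :=
  hP.contDiff_qq.comp (contDiff_const.prodMk contDiff_id : ContDiff ℝ ∞ fun y : E => (x, y))

theorem Pack.contDiff_ww1 (hP : Pack G L) (b : ℝ) (x : E) :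
    ContDiff ℝ ∞ fun y => ww b (rr G L x y) := by
  simp only [hP.ww_eq]
  exact (contDiff_wq b).comp (hP.contDiff_qq1 x)

theorem Pack.contDiff_sq1 (hP : Pack G L) (b : ℝ) (x : E) :
    ContDiff ℝ ∞ fun y => sq' b (qq G L x y) :=
  (contDiff_sq' b).comp (hP.contDiff_qq1 x)

theorem Pack.hasFDerivAt_qq1 (hP : Pack G L) (x y : E) :
    HasFDerivAt (qq G L x) ((-2 : ℝ) • G y (L y x)) y := by
  have h1 : qq G L x = fun z => qq G L z x := funext fun z => hP.sym x z
  have h2 : ContDiff ℝ ∞ fun z => qq G L z x :=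
    hP.contDiff_qq.comp (contDiff_id.prodMk contDiff_const)
  rw [h1]
  refine ((h2.differentiable (by simp)) y).hasFDerivAt.congr_fderiv ?_
  ext h
  rw [hP.grad]
  simp

theorem Pack.hasFDerivAt_ww1 (hP : Pack G L) (b : ℝ) (x y : E) :
    HasFDerivAt (fun z => ww b (rr G L x z)) (-sq' b (qq G L x y) • G y (L y x)) y := by
  simp only [hP.ww_eq]
  refine ((hasDerivAt_wq b (qq G L x y)).comp_hasFDerivAt y (hP.hasFDerivAt_qq1 x y)).congr_fderiv ?_
  rw [smul_smul]
  congr 1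
  ring

end Vale.Agent.P219
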