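import Vale.Agent.P219.S.Mono
import Vale.Agent.P219.S.Ug

/-!
# The weak Sobolev inequality  (TASK)

If `μ T₀ = 0` then `μ T = 0` (`T ⊆ T₀`).  Otherwise `x = (4 μ T₀ / S)^(1/m)`, `t₁ = 2 x²`; `v₁` is chosen so that `t₁ ≤ t₀` and `m H₀² / 4 * C * t₁ ≤ S / 4`.
`Mk y t₁ g ≤ (k / t₁)^m μ T₀ ≤ (1 / x)^m μ T₀ = S / 4` (`cf_sq_le`).  `mono` with `B = C' √t₁ ∫ √(Gt g g)` (`swap`, `ug`) gives `S / 2 * μ T ≤ C' √2 x ∫ √(Gt g g)`.
-/

namespace Vale.Agent.P219

open scoped ContDiff Topology RealInnerProductSpace ENNReal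
open MeasureTheory Set Filter Vale.Agent.P255
open St (sn gmod)

variable {E : Type*} [NormedAddCommGroup E] [InnerProductSpace ℝ E] [FiniteDimensional ℝ E]
  [MeasurableSpace E] [BorelSpace E] {G : E → Bil E} {L : E → E → E} {K : Set E} {m : ℕ}
  {b H₀ σ t₀ C S c : ℝ} {u : E → E → ℝ} {μ : Measure (E × E)}

lemma wk_Mk (h : Sp0 m b H₀ G u K μ) {g : E → ℝ} (hg : Continuous g) (h1 : ∀ x, g x ≤ 1)
    {T₀ : Set (E × E)} (hT₀ : MeasurableSet T₀) (hz : ∀ z ∉ T₀, g z.1 = 0) {x : ℝ} (hx : 0 < x)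
    (y : E) : Mk m b μ (u y) (2 * x ^ 2) g ≤ μ.real T₀ / x ^ m := by
  have := h.fin
  have ht : 0 < 2 * x ^ 2 := by positivity
  have hc : ∀ w, cf b (u y) (2 * x ^ 2) w ^ m ≤ 1 / x ^ m := fun w => by
    rw [← one_div_pow]
    refine pow_le_pow_left₀ (cf_nonneg (h.nonneg y) ht w) (abs_le_of_sq_le_sq' ?_ (by positivity)).2 m
    refine (cf_sq_le (h.nonneg y) ht w).trans (le_of_eq ?_)
    field_simp
  calc Mk m b μ (u y) (2 * x ^ 2) g ≤ ∫ z, T₀.indicator (fun _ => 1 / x ^ m) z ∂μ := by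
        refine integral_mono (h.integrable ((hg.comp continuous_fst).mul
          (((contDiff_cf (h.nonneg y) (h.cd2 y) ht).continuous.comp continuous_fst).pow m)))
          ((integrable_const _).indicator hT₀) fun z => ?_
        by_cases hm : z ∈ T₀
        · rw [indicator_of_mem hm]
          exact (mul_le_of_le_one_left (pow_nonneg (cf_nonneg (h.nonneg y) ht _) m) (h1 _)).trans
            (hc _)
        · rw [indicator_of_notMem hm]
          exact le_of_eq (by simp only [hz z hm, zero_mul])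
    _ = μ.real T₀ / x ^ m := by
        rw [integral_indicator_const _ hT₀, smul_eq_mul, mul_one_div]

theorem Sp2.weak (h : Sp2 m b H₀ G u K μ t₀ C S) : ∃ C' v₁ : ℝ, 0 < C' ∧ 0 < v₁ ∧
    ∀ g : E → ℝ, ContDiff ℝ 2 g → (∀ x, 0 ≤ g x) → (∀ x, g x ≤ 1) → ∀ T T₀ : Set (E × E),
      MeasurableSet T → MeasurableSet T₀ → (∀ z ∈ T, g z.1 = 1) → (∀ z ∉ T₀, g z.1 = 0) →
        μ.real T₀ ≤ v₁ →
          μ.real T ≤ C' * μ.real T₀ ^ (1 / m : ℝ) * ∫ z, √(Gt G g g z) ∂μ := by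
  have := h.fin
  have hS := h.S_pos
  have hC := h.C_pos
  have hm : m ≠ 0 := by have := h.three; omega
  obtain ⟨C', hC', hug⟩ := h.toSp1.ug
  have hC₁ : 0 ≤ m * H₀ ^ 2 / 4 * C := by positivity
  obtain ⟨τ, hτ, hτ1, hτ2⟩ : ∃ τ : ℝ, 0 < τ ∧ τ ≤ t₀ ∧ m * H₀ ^ 2 / 4 * C * τ ≤ S / 4 := by
    generalize m * H₀ ^ 2 / 4 * C = C₁ at hC₁
    refine ⟨min t₀ (S / 4 / (C₁ + 1)), lt_min h.t_pos (by positivity), min_le_left _ _, ?_⟩
    refine (mul_le_mul (le_add_of_nonneg_right zero_le_one) (min_le_right _ _)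
      (le_min h.t_pos.le (by positivity)) (by positivity)).trans (le_of_eq ?_)
    field_simp
  refine ⟨4 * C' / S * (4 / S) ^ (1 / m : ℝ), S / 4 * √(τ / 2) ^ m, by positivity, by positivity,
    fun g hg h0 h1 T T₀ hT hT₀ hT1 hz hv => ?_⟩
  have hI : 0 ≤ ∫ z, √(Gt G g g z) ∂μ := integral_nonneg fun z => Real.sqrt_nonneg _
  rcases (measureReal_nonneg (μ := μ) (s := T₀)).eq_or_lt with hv0 | hv0
  · have h2 : μ.real T ≤ μ.real T₀ := measureReal_mono fun z hzT => by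
      by_contra hn
      exact one_ne_zero ((hT1 z hzT).symm.trans (hz z hn))
    exact (h2.trans hv0.ge).trans (by positivity)
  obtain ⟨x, hx, hxm, hxe⟩ : ∃ x : ℝ, 0 < x ∧ x ^ m = 4 / S * μ.real T₀ ∧
      x = (4 / S) ^ (1 / m : ℝ) * μ.real T₀ ^ (1 / m : ℝ) := by
    refine ⟨(4 / S * μ.real T₀) ^ (1 / m : ℝ), by positivity, ?_,
      Real.mul_rpow (by positivity) hv0.le⟩
    rw [one_div, Real.rpow_inv_natCast_pow (by positivity) hm]
  have hx0 : x ≤ √(τ / 2) := by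
    refine (pow_le_pow_iff_left₀ hx.le (Real.sqrt_nonneg _) hm).1 ?_
    rw [hxm]
    refine (mul_le_mul_of_nonneg_left hv (by positivity)).trans (le_of_eq ?_)
    field_simp
  have hxτ : 2 * x ^ 2 ≤ τ := by
    have h2 := pow_le_pow_left₀ hx.le hx0 2
    rw [Real.sq_sqrt (by positivity)] at h2
    linarith
  have ht : 0 < 2 * x ^ 2 := by positivity
  have hcg : Continuous fun z => √(Gt G g g z) :=
    (continuous_Gt h.loc (hg.of_le one_le_two) (hg.of_le one_le_two)).sqrt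
  have hsq : √(2 * x ^ 2) ≤ 2 * x := Real.sqrt_le_iff.2 ⟨by positivity, by nlinarith [sq_nonneg x]⟩
  have h3 := h.mono hg h0 h1 hT hT1 ht (hxτ.trans hτ1)
    (B := (∫ z, √(Gt G g g z) ∂μ) * (C' * (2 * x))) fun t ht0 htt => by
      refine (h.toSp0.swap hg T ht0 htt).trans ?_
      rw [← integral_mul_const]
      refine integral_mono_ae (h.toSp0.integrable (hcg.mul
        ((h.toSp0.continuous_Kav T ht0 htt).comp continuous_fst)))
        ((h.toSp0.integrable hcg).mul_const _) ?_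
      filter_upwards [h.toSp0.ae_mem] with z hzK
      exact mul_le_mul_of_nonneg_left ((hug T _ hzK.1 t _ ht0 htt (hxτ.trans hτ1)).trans
        (mul_le_mul_of_nonneg_left hsq hC'.le)) (Real.sqrt_nonneg _)
  have h4 : ∫ z in T, Mk m b μ (u z.1) (2 * x ^ 2) g ∂μ ≤ μ.real T * (S / 4) := by
    have h5 : μ.real T₀ / x ^ m = S / 4 := by
      rw [hxm]
      field_simp
    rw [← smul_eq_mul (μ.real T), ← setIntegral_const]
    exact integral_mono (h.toSp0.integrable ((h.toSp0.continuous_Mk hg.continuous ht).comp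
      continuous_fst)).integrableOn (integrable_const _) fun z =>
        (wk_Mk h.toSp0 hg.continuous h1 hT₀ hz hx z.1).trans h5.le
  have h6 : m * H₀ ^ 2 / 4 * C * (2 * x ^ 2) * μ.real T ≤ S / 4 * μ.real T :=
    mul_le_mul_of_nonneg_right ((mul_le_mul_of_nonneg_left hxτ hC₁).trans hτ2) measureReal_nonneg
  rw [mul_assoc (4 * C' / S), ← hxe, div_mul_eq_mul_div, div_mul_eq_mul_div, le_div_iff₀ hS]
  linarith

end Vale.Agent.P219
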