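import Vale.Agent.P219.G.Transl

/-!
# A set with vanishing boundary in a ball  (TASK)

Let `0 < ρ' < ρ`, `B' = ball 0 ρ'`.  For `x, y ∈ B'` the segment stays in `B'`.  Step 1: for `h : E` and `ψ` of class `C¹` vanishing off `U h = B' ∩ (B' - h) = {x ∈ B' | x + h ∈ B'}`:
`∫ y in T, (ψ y - ψ (y - h)) = ∫ τ in 0..1, ∫ y in T, fderiv ψ (y - τ • h) h = 0`, since `Z y = ψ (y - τ • h) • h` vanishes off the ball and `dvg Z y = fderiv ψ (y - τ • h) h` (as in `transl_smooth`, `transl_flux`; `T` is bounded).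
So `∫ (ind T (x + h) - ind T x) ψ x = 0` (`transl_test`), hence `ind T (x + h) = ind T x` a.e. on the open set `U h` (`IsOpen.ae_eq_zero_of_integral_contDiff_smul_eq_zero`).  Step 2: Tonelli and `y = x + h`:
`volume (T ∩ B') * volume (B' \ T) = 0`.  Step 3: exhaust the ball by `ρ' ↑ ρ` (one may also take `ρ' = ρ` directly).
-/

namespace Vale.Agent.P219

open scoped ContDiff Topology RealInnerProductSpace ENNReal
open MeasureTheory Set Filter Vale.Agent.P255
open St (sn gmod)

variable {E : Type*} [NormedAddCommGroup E] [InnerProductSpace ℝ E] [FiniteDimensional ℝ E]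
  [MeasurableSpace E] [BorelSpace E] {G : E → Bil E} {L : E → E → E} {K : Set E} {m : ℕ}
  {b H₀ σ t₀ C S c : ℝ} {u : E → E → ℝ} {μ : Measure (E × E)}

theorem zo_smooth {T : Set E} (hb : Bornology.IsBounded T) {ρ : ℝ}
    (hZ : ∀ Z : E → E, ContDiff ℝ 1 Z → (∀ y, ρ ≤ ‖y‖ → Z y = 0) → ∫ y in T, dvg Z y = 0) (h : E)
    {φ : E → ℝ} (hφ : ContDiff ℝ 1 φ)
    (h1 : ∀ x, φ x ≠ 0 → x ∈ Metric.ball (0 : E) ρ ∧ x + h ∈ Metric.ball (0 : E) ρ) :
    ∫ y in T, (φ y - φ (y - h)) = 0 := by
  have hd := hφ.differentiable one_ne_zero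
  have hc : Continuous fun z : ℝ × E => fderiv ℝ φ (z.2 - h + z.1 • h) h :=
    ((hφ.continuous_fderiv one_ne_zero).comp (by fun_prop)).clm_apply continuous_const
  have h2 : ∀ y, φ y - φ (y - h) = ∫ t in (0 : ℝ)..1, fderiv ℝ φ (y - h + t • h) h := by
    intro y
    have h3 : ∀ t : ℝ, HasDerivAt (fun t : ℝ => φ (y - h + t • h))
        (fderiv ℝ φ (y - h + t • h) h) t := by
      intro t
      have h4 : HasDerivAt (fun t : ℝ => y - h + t • h) h t := by
        simpa using ((hasDerivAt_id t).smul_const h).const_add (y - h)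
      exact (hd _).hasFDerivAt.comp_hasDerivAt t h4
    rw [intervalIntegral.integral_eq_sub_of_hasDerivAt (fun t _ => h3 t)
      ((hc.comp (Continuous.prodMk_left y)).intervalIntegrable 0 1)]
    simp
  simp only [h2]
  have h3 : Integrable (Function.uncurry fun (t : ℝ) (y : E) => fderiv ℝ φ (y - h + t • h) h)
      ((volume.restrict (Set.uIoc (0 : ℝ) 1)).prod (volume.restrict T)) := by
    rw [Measure.prod_restrict]
    refine (hc.continuousOn.integrableOn_compact
      ((isCompact_Icc (a := (0 : ℝ)) (b := 1)).prod hb.isCompact_closure)).mono_set ?_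
    refine prod_mono ?_ subset_closure
    rw [uIoc_of_le zero_le_one]
    exact Ioc_subset_Icc_self
  rw [← intervalIntegral_integral_swap h3]
  have h4 : ∀ t ∈ Set.uIcc (0 : ℝ) 1, ∫ y in T, fderiv ℝ φ (y - h + t • h) h = (0 : ℝ) := by
    intro t ht
    rw [uIcc_of_le zero_le_one] at ht
    have hψ : ContDiff ℝ 1 fun y => φ (y + (t • h - h)) :=
      hφ.comp (contDiff_id.add contDiff_const)
    have h5 := hZ (fun y => φ (y + (t • h - h)) • h) (hψ.smul contDiff_const) fun y hy => by
      by_contra h6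
      obtain ⟨a1, a2⟩ := h1 _ (left_ne_zero_of_smul h6)
      have a3 := convex_ball (0 : E) ρ a1 a2 ht.1 (sub_nonneg.2 ht.2) (add_sub_cancel _ _)
      have e : t • (y + (t • h - h)) + (1 - t) • (y + (t • h - h) + h) = y := by module
      rw [e, mem_ball_zero_iff] at a3
      exact a3.not_ge hy
    have h6 : ∀ y, dvg (fun y => φ (y + (t • h - h)) • h) y =
        fderiv ℝ φ (y - h + t • h) h := by
      intro y
      rw [dvg_smul (Z := fun _ => h) (hψ.differentiable one_ne_zero y) (differentiableAt_const h),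
        fderiv_comp_add_right, show y - h + t • h = y + (t • h - h) by abel]
      simp [dvg]
    simp only [h6] at h5
    exact h5
  rw [intervalIntegral.integral_congr (g := fun _ => (0 : ℝ)) h4]
  simp

theorem zo_ae {T : Set E} (hT : MeasurableSet T) (hb : Bornology.IsBounded T) {ρ : ℝ}
    (hZ : ∀ Z : E → E, ContDiff ℝ 1 Z → (∀ y, ρ ≤ ‖y‖ → Z y = 0) → ∫ y in T, dvg Z y = 0) (h : E) :
    ∀ᵐ x : E, ¬ (x ∈ T ∩ Metric.ball 0 ρ ∧ x + h ∈ Metric.ball 0 ρ \ T) := by
  have hi : Integrable (T.indicator fun _ => (1 : ℝ)) :=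
    (integrable_indicator_iff hT).2
      ((continuousOn_const.integrableOn_compact hb.isCompact_closure).mono_set subset_closure)
  have hU : IsOpen {x : E | x ∈ Metric.ball (0 : E) ρ ∧ x + h ∈ Metric.ball (0 : E) ρ} :=
    Metric.isOpen_ball.inter (Metric.isOpen_ball.preimage (continuous_add_const h))
  have h1 := hU.ae_eq_zero_of_integral_contDiff_smul_eq_zero (μ := volume)
    (f := fun x => T.indicator (fun _ => (1 : ℝ)) (x + h) - T.indicator (fun _ => (1 : ℝ)) x)
    (((hi.comp_add_right h).sub hi).locallyIntegrable.locallyIntegrableOn _) fun φ hφ hc hs => by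
      obtain ⟨C, hC⟩ := hφ.continuous.bounded_above_of_compact_support hc
      have hm := hφ.continuous.aestronglyMeasurable (μ := volume)
      have i1 : Integrable fun x => T.indicator (fun _ => (1 : ℝ)) x * φ x :=
        hi.mul_bdd hm (Eventually.of_forall hC)
      have i2 : Integrable fun x => T.indicator (fun _ => (1 : ℝ)) (x + h) * φ x :=
        (hi.comp_add_right h).mul_bdd hm (Eventually.of_forall hC)
      have i3 : Integrable fun x => T.indicator (fun _ => (1 : ℝ)) x * φ (x - h) := by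
        simpa using i2.comp_sub_right h
      have e1 : ∫ x, T.indicator (fun _ => (1 : ℝ)) (x + h) * φ x =
          ∫ x, T.indicator (fun _ => (1 : ℝ)) x * φ (x - h) := by
        rw [← integral_sub_right_eq_self
          (fun x => T.indicator (fun _ => (1 : ℝ)) (x + h) * φ x) h]
        simp
      have e2 : ∫ y in T, (φ y - φ (y - h)) = (∫ x, T.indicator (fun _ => (1 : ℝ)) x * φ x) -
          ∫ x, T.indicator (fun _ => (1 : ℝ)) x * φ (x - h) := by
        rw [← integral_sub i1 i3, ← integral_indicator hT]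
        refine integral_congr_ae (Eventually.of_forall fun x => ?_)
        by_cases hx : x ∈ T <;> simp [hx]
      have h2 := zo_smooth hb hZ h (hφ.of_le (by exact_mod_cast le_top))
        fun x hx => hs (subset_tsupport _ hx)
      simp only [smul_eq_mul, mul_comm (φ _), sub_mul]
      rw [integral_sub i2 i1, e1]
      linarith
  filter_upwards [h1] with x hx
  rintro ⟨a1, a2⟩
  have h2 := hx ⟨a1.2, a2.1⟩
  rw [indicator_of_notMem a2.2, indicator_of_mem a1.1] at h2
  norm_num at h2

theorem zero_one {T : Set E} (hT : MeasurableSet T) (hb : Bornology.IsBounded T) {ρ : ℝ}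
    (h : ∀ Z : E → E, ContDiff ℝ 1 Z → (∀ y, ρ ≤ ‖y‖ → Z y = 0) → ∫ y in T, dvg Z y = 0) :
    volume (T ∩ Metric.ball 0 ρ) = 0 ∨ volume (Metric.ball 0 ρ \ T) = 0 := by
  have m1 : MeasurableSet (T ∩ Metric.ball 0 ρ) := hT.inter measurableSet_ball
  have m2 : MeasurableSet (Metric.ball 0 ρ \ T) := measurableSet_ball.diff hT
  have h1 := (Measure.ae_ae_comm (μ := (volume : Measure E)) (ν := (volume : Measure E))
    (p := fun k x : E => ¬ (x ∈ T ∩ Metric.ball 0 ρ ∧ x + k ∈ Metric.ball 0 ρ \ T))
    ((measurable_snd m1).inter ((measurable_snd.add measurable_fst) m2)).compl).1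
    (Eventually.of_forall fun k => zo_ae hT hb h k)
  refine or_iff_not_imp_left.2 fun h0 => ?_
  obtain ⟨x, hx, h2⟩ := ((frequently_ae_mem_iff.2 h0).and_eventually h1).exists
  rw [← measure_preimage_add volume x]
  refine measure_mono_null (fun k hk => ?_) (ae_iff.1 h2)
  exact not_not.2 ⟨hx, hk⟩

end Vale.Agent.P219
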